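import Mathlib

/-! Size bounds for integer polynomials, specialisation and coefficient extraction. -/

namespace Vale.Agent.P337

open MvPolynomial Finset

abbrev Pl : Type := MvPolynomial ℕ ℤ

section Low

variable {σ R : Type} [CommRing R]

/-- total degree less than `K` -/
def Low (K : ℕ) (P : MvPolynomial σ R) : Prop := ∀ m : σ →₀ ℕ, K ≤ m.degree → coeff m P = 0

namespace Low

variable {K K' : ℕ} {P Q : MvPolynomial σ R}

theorem zero : Low K (0 : MvPolynomial σ R) := fun _ _ => rfl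

theorem mono (h : Low K P) (hK : K ≤ K') : Low K' P := fun m hm => h m (hK.trans hm)

theorem add (h : Low K P) (h' : Low K Q) : Low K (P + Q) := fun m hm => by
  rw [coeff_add, h m hm, h' m hm, add_zero]

theorem neg (h : Low K P) : Low K (-P) := fun m hm => by rw [coeff_neg, h m hm, neg_zero]

theorem sub (h : Low K P) (h' : Low K Q) : Low K (P - Q) := by
  rw [sub_eq_add_neg]; exact h.add h'.neg

theorem mul (h : Low K P) (h' : Low (K' + 1) Q) : Low (K + K') (P * Q) := fun m hm => by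
  classical
  rw [coeff_mul]
  refine sum_eq_zero fun x hx => ?_
  have e : x.1.degree + x.2.degree = m.degree := by rw [← map_add, mem_antidiagonal.1 hx]
  by_cases h1 : K ≤ x.1.degree
  · rw [h _ h1, zero_mul]
  · rw [h' _ (by omega), mul_zero]

theorem monomial {m : σ →₀ ℕ} (h : m.degree < K) (c : R) : Low K (monomial m c) := fun m' hm => by
  classical
  rw [coeff_monomial, if_neg]
  rintro rfl; omega

theorem C (c : R) : Low 1 (C c : MvPolynomial σ R) := monomial (by simp) c

theorem one : Low 1 (1 : MvPolynomial σ R) := C 1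

theorem X (i : σ) : Low 2 (X i : MvPolynomial σ R) := monomial (by simp) 1

theorem sum {ι : Type} {s : Finset ι} {f : ι → MvPolynomial σ R} (h : ∀ i ∈ s, Low K (f i)) :
    Low K (∑ i ∈ s, f i) := fun m hm => by
  rw [coeff_sum]; exact sum_eq_zero fun i hi => h i hi m hm

theorem prod {ι : Type} {s : Finset ι} {f : ι → MvPolynomial σ R} (h : ∀ i ∈ s, Low (K + 1) (f i)) :
    Low (s.card * K + 1) (∏ i ∈ s, f i) := by
  classical
  induction s using Finset.induction_on with
  | empty => simpa using one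
  | insert i s hi ih =>
    rw [prod_insert hi, card_insert_of_notMem hi, mul_comm (f i)]
    exact ((ih fun j hj => h j (mem_insert_of_mem hj)).mul (h i (mem_insert_self _ _))).mono
      (by rw [add_mul]; omega)

theorem pow (h : Low (K + 1) P) (k : ℕ) : Low (k * K + 1) (P ^ k) := by
  simpa using prod (s := range k) (f := fun _ => P) fun _ _ => h

theorem pderiv (h : Low (K + 1) P) (i : σ) : Low K (pderiv i P) := fun m hm => by
  rw [coeff_pderiv, h _ (by simpa using hm), zero_mul]

theorem ind {p : MvPolynomial σ R → Prop} (h : Low K P) (h0 : p 0) (ha : ∀ x y, p x → p y → p (x + y))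
    (hm : ∀ m c, m.degree < K → p (MvPolynomial.monomial m c)) : p P := by
  rw [P.as_sum]
  refine sum_induction _ p ha h0 fun m hm' => hm m _ (not_le.1 fun h' => ?_)
  exact mem_support_iff.1 hm' (h m h')

theorem exists_low (P : MvPolynomial σ R) : ∃ K, Low K P :=
  ⟨_, fun _ hm => coeff_eq_zero_of_totalDegree_lt (Nat.lt_of_succ_le hm)⟩

end Low

end Low

def Mon (D : ℕ) (x : Pl) : Prop := ∃ (m : ℕ →₀ ℕ) (ε : ℤ), |ε| ≤ 1 ∧ m.degree ≤ D ∧ x = monomial m ε

/-- a sum of at most `L` signed monomials of degree at most `D` -/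
inductive Bd (D : ℕ) : ℕ → Pl → Prop
  | zero (L : ℕ) : Bd D L 0
  | step {L : ℕ} {x P : Pl} : Mon D x → Bd D L P → Bd D (L + 1) (x + P)

namespace Bd

variable {D D' L L' : ℕ} {P Q : Pl}

theorem mono (h : Bd D L P) (hD : D ≤ D') (hL : L ≤ L') : Bd D' L' P := by
  induction h generalizing L' with
  | zero => exact zero _
  | step hx _ ih =>
    obtain ⟨k, rfl⟩ := Nat.exists_eq_add_of_le' hL
    obtain ⟨m, ε, h1, h2, h3⟩ := hx
    rw [← add_assoc]
    exact step ⟨m, ε, h1, h2.trans hD, h3⟩ (ih (by omega))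

theorem mon (h : Mon D P) : Bd D 1 P := by simpa using step h (zero 0)

theorem add (h : Bd D L P) (h' : Bd D L' Q) : Bd D (L + L') (P + Q) := by
  induction h with
  | zero => simpa using h'.mono le_rfl (by omega)
  | step hx _ ih => rw [add_assoc _ _ Q, add_right_comm]; exact step hx ih

theorem map (φ : Pl →+ Pl) (hφ : ∀ x, Mon D x → Mon D' (φ x)) (h : Bd D L P) : Bd D' L (φ P) := by
  induction h with
  | zero => simpa using zero _
  | step hx _ ih => rw [map_add]; exact step (hφ _ hx) ih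

theorem neg (h : Bd D L P) : Bd D L (-P) :=
  h.map (-AddMonoidHom.id _) fun _ ⟨m, ε, h1, h2, h3⟩ => ⟨m, -ε, by simpa, h2, by simp [h3]⟩

theorem mul (h : Bd D L P) (h' : Bd D' L' Q) : Bd (D + D') (L * L') (P * Q) := by
  induction h with
  | zero => simpa using zero _
  | step hx _ ih =>
    rw [add_mul, add_mul, one_mul, add_comm _ L']
    refine add (h'.map (AddMonoidHom.mulLeft _) ?_) ih
    rintro _ ⟨m, ε, h1, h2, rfl⟩
    obtain ⟨m', ε', h3, h4, rfl⟩ := hx
    exact ⟨m' + m, ε' * ε, by rw [abs_mul]; exact mul_le_one₀ h3 (abs_nonneg _) h1,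
      by rw [map_add]; omega, by simp [monomial_mul]⟩

theorem one : Bd 0 1 1 := mon ⟨0, 1, by simp, by simp, rfl⟩

theorem X (i : ℕ) : Bd 1 1 (X i) := mon ⟨_, 1, by simp, by simp, rfl⟩

theorem natCast (n : ℕ) : Bd 0 n (n : Pl) := by
  induction n with
  | zero => simpa using zero 0
  | succ n ih => rw [Nat.cast_succ]; exact ih.add one

theorem sum {s : Finset ℕ} {f : ℕ → Pl} (h : ∀ i ∈ s, Bd D L (f i)) :
    Bd D (s.card * L) (∑ i ∈ s, f i) := by
  induction s using Finset.induction_on with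
  | empty => simpa using zero _
  | insert i s hi ih =>
    rw [sum_insert hi, card_insert_of_notMem hi, add_comm (f i), add_mul, one_mul]
    exact (ih fun j hj => h j (mem_insert_of_mem hj)).add (h i (mem_insert_self _ _))

theorem prod {s : Finset ℕ} {f : ℕ → Pl} (h : ∀ i ∈ s, Bd D L (f i)) :
    Bd (s.card * D) (L ^ s.card) (∏ i ∈ s, f i) := by
  induction s using Finset.induction_on with
  | empty => simpa using one
  | insert i s hi ih =>
    rw [prod_insert hi, card_insert_of_notMem hi, mul_comm (f i), add_mul, one_mul, pow_succ]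
    exact (ih fun j hj => h j (mem_insert_of_mem hj)).mul (h i (mem_insert_self _ _))

theorem abs_le (φ : Pl →+ ℤ) (hφ : ∀ x, Mon D x → |φ x| ≤ 1) (h : Bd D L P) : |φ P| ≤ L := by
  induction h with
  | zero => simp
  | step hx _ ih =>
    rw [map_add]; push_cast
    exact (abs_add_le _ _).trans (by linarith [hφ _ hx])

theorem low (h : Bd D L P) : Low (D + 1) P := by
  induction h with
  | zero => exact Low.zero
  | step hx _ ih =>
    obtain ⟨m, ε, -, h2, rfl⟩ := hx
    exact (Low.monomial (by omega) _).add ih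

end Bd

section ev

variable {K K' : Type} [CommRing K] [CommRing K']

noncomputable def ev (θ : ℕ → K) : Pl →+* K := eval₂Hom (Int.castRingHom K) θ

@[simp] theorem ev_X (θ : ℕ → K) (j : ℕ) : ev θ (X j) = θ j := eval₂Hom_X' _ _ _

theorem ev_ext {f g : Pl →+* K} (h : ∀ j, f (X j) = g (X j)) : f = g :=
  ringHom_ext' (RingHom.ext_int _ _) h

theorem hom_ev (φ : K →+* K') (θ : ℕ → K) (P : Pl) : φ (ev θ P) = ev (fun j => φ (θ j)) P :=
  RingHom.congr_fun (ev_ext (f := φ.comp (ev θ)) fun j => by simp) P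

theorem ev_id (P : Pl) : ev X P = P := RingHom.congr_fun (ev_ext (g := RingHom.id _) fun j => by simp) P

theorem ev_monomial (θ : ℕ → K) (m : ℕ →₀ ℕ) (c : ℤ) :
    ev θ (monomial m c) = c * m.prod fun j e => θ j ^ e := eval₂Hom_monomial _ _ _ _

def blk {n : ℕ} (lo : ℕ) (θ : ℕ → K) (c : Fin n → K) (j : ℕ) : K :=
  if h : lo ≤ j ∧ j < lo + n then c ⟨j - lo, by omega⟩ else θ j

theorem hom_blk {n : ℕ} (φ : K → K') (lo : ℕ) (θ : ℕ → K) (c : Fin n → K) :
    (fun j => φ (blk lo θ c j)) = blk lo (fun j => φ (θ j)) fun i => φ (c i) :=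
  funext fun j => by unfold blk; split_ifs <;> rfl

theorem blk_add {n : ℕ} (lo : ℕ) (θ : ℕ → K) (c : Fin n → K) (i : Fin n) : blk lo θ c (lo + i) = c i := by
  simp [blk]

theorem blk_blk {n : ℕ} (lo : ℕ) (θ : ℕ → K) (c c' : Fin n → K) : blk lo (blk lo θ c) c' = blk lo θ c' :=
  funext fun j => by unfold blk; split_ifs <;> rfl

noncomputable def sp (lo n : ℕ) (θ : ℕ → K) : Pl →+* MvPolynomial (Fin n) K :=
  ev (blk lo (fun j => C (θ j)) X)

theorem map_sp (φ : K →+* K') (lo n : ℕ) (θ : ℕ → K) (P : Pl) :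
    MvPolynomial.map φ (sp lo n θ P) = sp lo n (fun j => φ (θ j)) P := by
  rw [sp, hom_ev, hom_blk]; simp [sp]

theorem eval_sp (lo : ℕ) {n : ℕ} (θ : ℕ → K) (c : Fin n → K) (P : Pl) :
    eval c (sp lo n θ P) = ev (blk lo θ c) P := by
  rw [sp, hom_ev, hom_blk]; simp

theorem sp_blk (lo : ℕ) {n : ℕ} (θ : ℕ → K) (c : Fin n → K) : sp lo n (blk lo θ c) = sp lo n θ := by
  rw [sp, sp, hom_blk, blk_blk]

noncomputable def cst (n N : ℕ) : Fin n →₀ ℕ := Finsupp.equivFunOnFinite.symm fun _ => N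

@[simp] theorem cst_apply (n N : ℕ) (i : Fin n) : cst n N i = N := rfl

noncomputable def cf (lo n N : ℕ) (P : Pl) : Pl := coeff (cst n N) (sp lo n X P)

theorem ev_cf (θ : ℕ → K) (lo n N : ℕ) (P : Pl) :
    ev θ (cf lo n N P) = coeff (cst n N) (sp lo n θ P) := by
  rw [cf, ← coeff_map, map_sp]; simp

theorem ev_cf_zero (θ : ℕ → K) (lo n : ℕ) (P : Pl) :
    ev θ (cf lo n 0 P) = ev (blk lo θ (0 : Fin n → K)) P := by
  rw [ev_cf, ← eval_sp, show cst n 0 = 0 from Finsupp.ext fun _ => rfl, ← constantCoeff_eq, eval_zero]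

theorem sp_monomial (lo n : ℕ) (m : ℕ →₀ ℕ) : ∃ (β : Fin n →₀ ℕ) (m' : ℕ →₀ ℕ), β.degree ≤ m.degree ∧
    m'.degree ≤ m.degree ∧ sp lo n X (monomial m 1) = monomial β (monomial m' (1 : ℤ)) := by
  induction m using Finsupp.induction_linear with
  | zero => exact ⟨0, 0, le_rfl, le_rfl, by simp⟩
  | add f g hf hg =>
    obtain ⟨a, b, h1, h2, h3⟩ := hf
    obtain ⟨a', b', h1', h2', h3'⟩ := hg
    refine ⟨a + a', b + b', by simp only [map_add]; omega, by simp only [map_add]; omega, ?_⟩
    rw [← mul_one (1 : ℤ), ← monomial_mul, ← monomial_mul, ← monomial_mul, map_mul, h3, h3']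
  | single j e =>
    rw [← X_pow_eq_monomial, map_pow, sp, ev_X, blk]
    split_ifs with h
    · exact ⟨Finsupp.single _ e, 0, by simp, by simp, X_pow_eq_monomial⟩
    · exact ⟨0, Finsupp.single j e, by simp, by simp, by rw [← C_pow, X_pow_eq_monomial]; rfl⟩

theorem monomial_int (m : ℕ →₀ ℕ) (c : ℤ) : (monomial m c : Pl) = (c : Pl) * monomial m 1 := by
  rw [← eq_intCast (C : ℤ →+* Pl), C_mul_monomial, mul_one]

theorem Low.sp {D : ℕ} {P : Pl} (h : Low D P) (lo n : ℕ) (θ : ℕ → K) : Low D (sp lo n θ P) := by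
  refine h.ind (p := fun P => Low D (P337.sp lo n θ P)) (by simpa using Low.zero)
    (fun x y hx hy => by simpa using hx.add hy) fun m c hm => ?_
  obtain ⟨β, m', h1, -, h3⟩ := sp_monomial lo n m
  have := map_sp (ev θ) lo n MvPolynomial.X (MvPolynomial.monomial m 1)
  simp only [ev_X, h3, map_monomial] at this
  rw [monomial_int, map_mul, ← this, map_intCast, ← map_intCast (MvPolynomial.C : K →+* _), C_mul_monomial]
  exact Low.monomial (by omega) _

theorem Bd.cf {D L : ℕ} {P : Pl} (h : Bd D L P) (lo n N : ℕ) : Bd D L (cf lo n N P) := by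
  classical
  refine h.map ((coeffAddMonoidHom (cst n N)).comp (sp lo n MvPolynomial.X).toAddMonoidHom) ?_
  rintro _ ⟨m, ε, h1, h2, rfl⟩
  obtain ⟨β, m', -, h4, h3⟩ := sp_monomial lo n m
  refine ⟨m', if β = cst n N then ε else 0, by split_ifs <;> simp [h1], by omega, ?_⟩
  change coeff _ (sp lo n MvPolynomial.X _) = _
  rw [monomial_int, map_mul, h3, map_intCast, ← map_intCast (MvPolynomial.C : Pl →+* _), C_mul_monomial,
    coeff_monomial, ← monomial_int]
  split_ifs <;> simp

noncomputable def uv (i : ℕ) (θ : ℕ → K) : Pl →+* Polynomial K :=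
  ev fun j => if j = i then Polynomial.X else Polynomial.C (θ j)

theorem eval_uv (i : ℕ) (θ : ℕ → K) (s : K) (P : Pl) :
    (uv i θ P).eval s = ev (Function.update θ i s) P := by
  rw [uv, ← Polynomial.coe_evalRingHom, hom_ev]
  congr 2
  funext j
  by_cases h : j = i <;> simp [h]

theorem coeff_fin1 (Q : MvPolynomial (Fin 1) K) (k : ℕ) :
    (eval₂Hom Polynomial.C (fun _ => Polynomial.X) Q).coeff k = coeff (cst 1 k) Q := by
  classical
  induction Q using MvPolynomial.induction_on' with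
  | add p q hp hq => simp only [map_add, Polynomial.coeff_add, coeff_add, hp, hq]
  | monomial m c =>
    rw [eval₂Hom_monomial, Finsupp.prod_fintype _ _ (by simp), coeff_monomial, Fin.prod_univ_one,
      Polynomial.coeff_C_mul_X_pow]
    congr 1
    exact propext ⟨fun h => Finsupp.ext fun i => by rw [Subsingleton.elim i 0, h]; rfl,
      fun h => by rw [h]; rfl⟩

theorem uv_eq (i : ℕ) (θ : ℕ → K) (P : Pl) :
    uv i θ P = eval₂Hom Polynomial.C (fun _ => Polynomial.X) (sp i 1 θ P) := by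
  rw [sp, hom_ev, uv]
  congr 2
  funext j
  unfold blk
  by_cases h : j = i
  · simp [h]
  · rw [if_neg h, dif_neg (by omega)]; simp

theorem ev_cf1 (i k : ℕ) (θ : ℕ → K) (P : Pl) : ev θ (cf i 1 k P) = (uv i θ P).coeff k := by
  rw [ev_cf, uv_eq, coeff_fin1]

theorem Low.uv {D : ℕ} {P : Pl} (h : Low (D + 1) P) (i : ℕ) (θ : ℕ → K) : (uv i θ P).natDegree ≤ D := by
  refine Polynomial.natDegree_le_iff_coeff_eq_zero.2 fun k hk => ?_
  rw [uv_eq, coeff_fin1]
  exact h.sp i 1 θ _ (by simpa [Finsupp.degree_eq_sum] using hk)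

theorem ev_pderiv (i : ℕ) (θ : ℕ → K) (P : Pl) :
    ev θ (pderiv i P) = (uv i θ P).derivative.eval (θ i) := by
  classical
  induction P using MvPolynomial.induction_on with
  | C a => rw [pderiv_C, eq_intCast]; simp
  | add p q hp hq => simp [hp, hq]
  | mul_X p j hp =>
    rw [Derivation.leibniz, map_mul, Polynomial.derivative_mul, Polynomial.eval_add, Polynomial.eval_mul,
      Polynomial.eval_mul, ← hp, eval_uv, eval_uv, Function.update_eq_self]
    by_cases h : j = i <;> simp [uv, h, mul_comm, add_comm, Ne.symm]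

theorem Bd.abs_ev {D L : ℕ} {P : Pl} (h : Bd D L P) : |ev (0 : ℕ → ℤ) P| ≤ L := by
  refine h.abs_le (ev (0 : ℕ → ℤ)).toAddMonoidHom ?_
  rintro _ ⟨m, ε, h1, -, rfl⟩
  change |ev 0 _| ≤ _
  rw [ev_monomial, abs_mul, Finsupp.prod, Finset.abs_prod]
  refine mul_le_one₀ h1 (by positivity) (prod_le_one (fun _ _ => abs_nonneg _) fun j _ => ?_)
  rw [abs_pow]; exact pow_le_one₀ (abs_nonneg _) (by simp)

end ev

end Vale.Agent.P337
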