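import Vale.Agent.P317.Time

/-! An auxiliary typed counting hierarchy and its Boolean closure properties. -/

namespace Vale.Agent.P337

open Vale.Agent.PT Vale.Agent.P317 Finset

def Bin : Type := ℕ

def Bin.mk (n : ℕ) : Bin := n

def Bin.val (b : Bin) : ℕ := b

@[simp] theorem Bin.val_mk (n : ℕ) : (Bin.mk n).val = n := rfl

@[simp] theorem Bin.mk_val (b : Bin) : Bin.mk b.val = b := rfl

instance ctxBin : Ctx Bool Bin := ⟨Unit, inferInstance, fun n _ => Nat.bits n.val⟩

open Classical in
noncomputable instance ctxProp : Ctx Bool Prop :=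
  ⟨Unit, inferInstance, fun P _ => cond (decide P) [default] []⟩

variable {α β γ δ : Type} [Ctx Bool α] [Ctx Bool β] [Ctx Bool γ] [Ctx Bool δ]

theorem size_bin (b : Bin) : size Bool b = b.val.size := by
  change ∑ _ : Unit, (Nat.bits b.val).length = _
  simp [Nat.size_eq_bits_len]

theorem size_prop (P : Prop) : size Bool P ≤ 1 := by
  classical
  change ∑ _ : Unit, (cond (decide P) [default] [] : List Bool).length ≤ _
  cases decide P <;> simp

theorem valU_cons (b : Bool) (l : List Bool) : valU (b :: l) = Nat.bit b (valU l) := by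
  cases b <;> simp [valU, b2n, Nat.bit, add_comm]

theorem valU_bits (n : ℕ) : valU n.bits = n := by
  induction n using Nat.binaryRec' with
  | zero => simp [valU]
  | bit b n h ih => rw [Nat.bits_append_bit n b h, valU_cons, ih]

theorem valU_lt (l : List Bool) : valU l < 2 ^ l.length := by
  induction l with
  | nil => simp [valU]
  | cons b l ih => rw [valU_cons, List.length_cons, pow_succ]; cases b <;> simp [Nat.bit] <;> omega

theorem testBit_valU (l : List Bool) (i : ℕ) : (valU l).testBit i = bit l i := by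
  induction l generalizing i with
  | nil => simp [valU, bit]
  | cons b l ih =>
    rw [valU_cons]
    cases i with
    | zero => simp [bit]
    | succ i => rw [Nat.testBit_bit_succ, ih]; simp [bit]

theorem valU_drop (l : List Bool) (m : ℕ) : valU (l.drop m) = valU l / 2 ^ m := by
  refine Nat.eq_of_testBit_eq fun i => ?_
  rw [Nat.testBit_div_two_pow, testBit_valU, testBit_valU]
  simp [bit, add_comm]

theorem valU_take (l : List Bool) (m : ℕ) : valU (l.take m) = valU l % 2 ^ m := by
  refine Nat.eq_of_testBit_eq fun i => ?_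
  rw [Nat.testBit_mod_two_pow, testBit_valU, testBit_valU]
  by_cases h : i < m <;> simp [bit, h, List.getElem?_take]

theorem valU_pow (m : ℕ) : valU (List.replicate m false ++ [true]) = 2 ^ m := by
  induction m with
  | zero => rfl
  | succ m ih => rw [List.replicate_succ, List.cons_append, valU_cons, ih, pow_succ]; simp [Nat.bit]; ring

@[fun_prop] theorem pt_bits {f : α → Bin} (hf : PT Bool f) : PT Bool fun a => (f a).val.bits :=
  PT.list_iff.2 (hf ())

theorem pt_mk {g : α → List Bool} (hg : PT Bool g) : PT Bool fun a => Bin.mk (valU (g a)) := by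
  have : PT Bool fun a => (valU (g a)).bits := by
    refine PT.listRec hg (fun _ P => (valU P).bits) (PT.const _)
      (fun c x => cond (x.2.2.isEmpty && !c) [] (c :: x.2.2))
      (fun c => PT.cond' (by fun_prop) (PT.const _) (PT.cons _ (by fun_prop))) (fun _ c P => ?_)
      ⟨_, hg.size_pb, fun a P hP => ?_⟩
    · rw [valU_cons]
      by_cases h : valU P = 0
      · cases c <;> simp [h, Nat.bit]
      · rw [Nat.bits_append_bit _ _ fun h' => absurd h' h]
        have : (valU P).bits ≠ [] := fun h' => h (by rw [← valU_bits (valU P), h']; rfl)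
        simp [List.isEmpty_eq_false_iff.2 this]
    · rw [Nat.size_eq_bits_len, size_list]
      exact (Nat.size_le.2 (valU_lt P)).trans hP.length_le
  exact fun _ => PT.list_iff.1 this

theorem pt_of_val {g : α → List Bool} {f : α → ℕ} (hg : PT Bool g) (h : ∀ a, valU (g a) = f a) :
    PT Bool fun a => Bin.mk (f a) := (pt_mk hg).congr fun a => by rw [h]

@[fun_prop] theorem pt_pow2 {m : α → ℕ} (hm : PT Bool m) : PT Bool fun a => Bin.mk (2 ^ m a) :=
  pt_of_val ((PT.replicate hm false).append (PT.const _)) fun _ => valU_pow _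

@[fun_prop] theorem pt_div2 {f : α → Bin} {m : α → ℕ} (hf : PT Bool f) (hm : PT Bool m) :
    PT Bool fun a => Bin.mk ((f a).val / 2 ^ m a) :=
  pt_of_val (pt_drop (pt_bits hf) hm) fun _ => by rw [valU_drop, valU_bits]

@[fun_prop] theorem pt_mod2 {f : α → Bin} {m : α → ℕ} (hf : PT Bool f) (hm : PT Bool m) :
    PT Bool fun a => Bin.mk ((f a).val % 2 ^ m a) :=
  pt_of_val (pt_take (pt_bits hf) hm) fun _ => by rw [valU_take, valU_bits]

@[fun_prop] theorem pt_testBit {f : α → Bin} {m : α → ℕ} (hf : PT Bool f) (hm : PT Bool m) :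
    PT Bool fun a => (f a).val.testBit (m a) :=
  (pt_bit (pt_bits hf) hm).congr fun a => by rw [← testBit_valU, valU_bits]

@[fun_prop] theorem pt_cap {f : α → Bin} {m : α → ℕ} (hf : PT Bool f) (hm : PT Bool m) :
    PT Bool fun a => min (f a).val (m a) :=
  (pt_valB hm (pt_bits hf)).congr fun a => by rw [valB_eq, valU_bits]

theorem pt_bsize {f : α → Bin} (hf : PT Bool f) : PT Bool fun a => (f a).val.size :=
  (pt_bits hf).length.congr fun a => Nat.size_eq_bits_len _

theorem pt_ofBool {f : α → Bool} {P : α → Prop} (hf : PT Bool f) (h : ∀ a, P a ↔ f a = true) :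
    PT Bool P := by
  classical
  have : f = fun a => decide (P a) := funext fun a => by rw [Bool.eq_iff_iff]; simp [h]
  subst this
  exact hf

open Classical in
theorem pt_toBool {P : α → Prop} (h : PT Bool P) : PT Bool fun a => decide (P a) := h

def ltB (u v : ℕ) : ℕ → ℕ
  | 0 => 0
  | i + 1 => cond (xor (u.testBit i) (v.testBit i)) (b2n (v.testBit i)) (ltB u v i)

theorem ltB_eq (u v i : ℕ) : ltB u v i = if u % 2 ^ i < v % 2 ^ i then 1 else 0 := by
  induction i with
  | zero => simp [ltB, Nat.mod_one]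
  | succ i ih =>
    have h1 := Nat.mod_lt u (Nat.two_pow_pos i)
    have h2 := Nat.mod_lt v (Nat.two_pow_pos i)
    rw [ltB, ih, Nat.mod_pow_succ, Nat.mod_pow_succ, Nat.testBit_eq_decide_div_mod_eq,
      Nat.testBit_eq_decide_div_mod_eq]
    rcases Nat.mod_two_eq_zero_or_one (u / 2 ^ i) with e1 | e1 <;>
    rcases Nat.mod_two_eq_zero_or_one (v / 2 ^ i) with e2 | e2 <;> simp [e1, e2, b2n] <;> omega

@[fun_prop] theorem pt_lt {f g : α → Bin} (hf : PT Bool f) (hg : PT Bool g) :
    PT Bool fun a => (f a).val < (g a).val := by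
  have hm := (pt_bsize hf).add (pt_bsize hg)
  have h := PT.natRecN hm (fun a i => ltB (f a).val (g a).val i) (PT.const _)
    (fun x => cond (xor ((f x.1).val.testBit x.2.1) ((g x.1).val.testBit x.2.1))
      (b2n ((g x.1).val.testBit x.2.1)) x.2.2) (by fun_prop) (fun _ _ => rfl)
    ⟨_, PB.const 1 _, fun a i _ => by rw [ltB_eq]; split_ifs <;> simp⟩
  refine pt_ofBool (h.beq (PT.const 1)) fun a => ?_
  rw [ltB_eq, Nat.mod_eq_of_lt (Nat.size_le.1 (by omega)), Nat.mod_eq_of_lt (Nat.size_le.1 (by omega))]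
  split_ifs with h <;> simp [h]

theorem pt_size' : PT Bool fun a : α => size Bool a := by
  classical
  have : ∀ s : Finset (Ctx.ι Bool α), PT Bool fun a : α => ∑ j ∈ s, (Ctx.enc (Γ := Bool) a j).length := by
    intro s
    induction s using Finset.induction_on with
    | empty => simpa using PT.const 0
    | insert i s hi ih =>
      simp only [Finset.sum_insert hi]
      exact (PT.length (PT.list_iff.2 (PF.proj _ i))).add ih
  exact this univ

theorem pb_pt {f : α → ℕ} (h : PB f (size Bool)) : ∃ m : α → ℕ, PT Bool m ∧ ∀ a, f a ≤ m a := by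
  obtain ⟨c, d, h⟩ := h
  exact ⟨_, (PT.const c).mul ((pt_size'.add (PT.const 1)).pow d), h⟩

open Classical in
noncomputable def cnt (N : ℕ) (P : ℕ → Prop) : ℕ := ((range N).filter P).card

open Classical in
theorem cnt_eq_sum (N : ℕ) (P : ℕ → Prop) : cnt N P = ∑ y ∈ range N, if P y then 1 else 0 := by
  rw [cnt, card_filter]

theorem cnt_congr {N : ℕ} {P Q : ℕ → Prop} (h : ∀ y < N, P y ↔ Q y) : cnt N P = cnt N Q := by
  classical
  unfold cnt
  congr 1
  exact filter_congr fun y hy => h y (mem_range.1 hy)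

open Classical in
theorem cnt_le (N : ℕ) (P : ℕ → Prop) : cnt N P ≤ N := (card_filter_le _ _).trans (card_range N).le

theorem cnt_not (N : ℕ) (P : ℕ → Prop) : cnt N P + cnt N (fun y => ¬ P y) = N := by
  classical
  unfold cnt
  convert (card_filter_add_card_filter_not (s := range N) P).trans (card_range N)

theorem cnt_pos {N : ℕ} {P : ℕ → Prop} : 0 < cnt N P ↔ ∃ y < N, P y := by
  classical
  simp [cnt, card_pos, Finset.Nonempty]

theorem cnt_lt {M N : ℕ} (h : N ≤ M) (P : ℕ → Prop) : cnt M (fun y => y < N ∧ P y) = cnt N P := by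
  classical
  unfold cnt
  congr 1
  ext y; simp; omega

theorem cnt_true (N : ℕ) : cnt N (fun _ => True) = N := by simp [cnt]

theorem cnt_two_mul (k : ℕ) (P Q : ℕ → Prop) :
    cnt (2 * k) (fun y => cond (y.testBit 0) (P (y / 2 ^ 1)) (Q (y / 2 ^ 1))) = cnt k P + cnt k Q := by
  classical
  simp only [cnt_eq_sum]
  induction k with
  | zero => simp
  | succ k ih =>
    rw [mul_add, mul_one, sum_range_succ, sum_range_succ, sum_range_succ, sum_range_succ, ih]
    have e1 : (2 * k).testBit 0 = false := by simp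
    have e2 : (2 * k + 1).testBit 0 = true := by simp
    have e3 : 2 * k / 2 ^ 1 = k := by omega
    have e4 : (2 * k + 1) / 2 ^ 1 = k := by omega
    simp only [e1, e2, e3, e4, cond_true, cond_false]
    ring

def Lv : ℕ → ∀ (α : Type) [Ctx Bool α], (α → Prop) → Prop
  | 0, _, _, P => PT Bool P
  | j + 1, α, _, P => ∃ (m : α → ℕ) (R : α × Bin → Prop), PT Bool m ∧ Lv j (α × Bin) R ∧
      ∀ a, P a ↔ 2 ^ m a < 2 * cnt (2 ^ m a) fun y => R (a, Bin.mk y)

theorem Lv.pre {j : ℕ} : ∀ {α β : Type} [Ctx Bool α] [Ctx Bool β] {P : β → Prop} {g : α → β},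
    Lv j β P → PT Bool g → Lv j α fun a => P (g a) := by
  induction j with
  | zero => exact fun hP hg => PT.comp hP hg
  | succ j ih =>
    rintro α β _ _ P g ⟨m, R, hm, hR, h⟩ hg
    exact ⟨fun a => m (g a), fun x => R (g x.1, x.2), hm.comp hg, ih hR (by fun_prop), fun a => h _⟩

theorem Lv.succ {j : ℕ} {P : α → Prop} (h : Lv j α P) : Lv (j + 1) α P :=
  ⟨fun _ => 0, fun x => P x.1, PT.const _, h.pre (by fun_prop), fun a => by
    by_cases hp : P a <;> simp [cnt, hp]⟩

theorem Lv.mono {i j : ℕ} {P : α → Prop} (h : Lv i α P) (hij : i ≤ j) : Lv j α P := by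
  induction j, hij using Nat.le_induction with
  | base => exact h
  | succ j _ ih => exact ih.succ

theorem Lv.cond {j : ℕ} : ∀ {α : Type} [Ctx Bool α] {c : α → Bool} {P Q : α → Prop},
    PT Bool c → Lv j α P → Lv j α Q → Lv j α fun a => cond (c a) (P a) (Q a) := by
  induction j with
  | zero => exact fun hc hP hQ => PT.cond' hc hP hQ
  | succ j ih =>
    rintro α _ c P Q hc ⟨m, R, hm, hR, h⟩ ⟨m', R', hm', hR', h'⟩
    refine ⟨fun a => _root_.cond (c a) (m a) (m' a), fun x => _root_.cond (c x.1) (R x) (R' x),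
      by fun_prop, ih (by fun_prop) hR hR', fun a => ?_⟩
    cases hca : c a
    · simpa only [hca, cond_false] using h' a
    · simpa only [hca, cond_true] using h a

/-- Predicates in the counting hierarchy. -/
def CH (P : α → Prop) : Prop := ∃ j, Lv j α P

namespace CH

variable {P Q : α → Prop}

theorem ofPT (h : PT Bool P) : CH P := ⟨0, h⟩

theorem congr (h : CH P) (e : ∀ a, P a ↔ Q a) : CH Q :=
  (funext fun a => propext (e a) : P = Q) ▸ h

theorem pre {P : β → Prop} {g : α → β} (h : CH P) (hg : PT Bool g) : CH fun a => P (g a) :=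
  let ⟨j, h⟩ := h; ⟨j, h.pre hg⟩

theorem cond {c : α → Bool} (hc : PT Bool c) (hP : CH P) (hQ : CH Q) :
    CH fun a => cond (c a) (P a) (Q a) := by
  obtain ⟨i, hP⟩ := hP
  obtain ⟨j, hQ⟩ := hQ
  exact ⟨max i j, Lv.cond hc (hP.mono (le_max_left _ _)) (hQ.mono (le_max_right _ _))⟩

theorem andPT (hP : PT Bool P) (hQ : CH Q) : CH fun a => P a ∧ Q a := by
  classical
  refine (cond (pt_toBool hP) hQ (ofPT (PT.const False))).congr fun a => ?_
  by_cases h : P a <;> simp [h]

theorem notPT (hP : PT Bool P) : PT Bool fun a => ¬ P a := by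
  classical
  exact pt_ofBool (pt_toBool hP).not' fun a => by simp

theorem thr {R : α × Bin → Prop} {N t : α → Bin} (hR : CH R) (hN : PT Bool N) (ht : PT Bool t) :
    CH fun a => (t a).val < cnt (N a).val fun y => R (a, Bin.mk y) := by
  have hm := (pt_bsize hN).add (pt_bsize ht)
  have h2 : PT Bool fun x : α × Bin => (x.1, Bin.mk (x.2.val / 2 ^ 1)) :=
    PT.pair (by fun_prop) (pt_div2 (by fun_prop) (PT.const 1))
  have h3 : CH fun x : α × Bin => x.2.val < (N x.1).val ∧ R x := andPT (by fun_prop) hR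
  have h4 : CH fun x : α × Bin => ¬ x.2.val < (t x.1).val := ofPT (notPT (by fun_prop))
  obtain ⟨j, h⟩ := cond (c := fun x : α × Bin => x.2.val.testBit 0) (by fun_prop) (h3.pre h2) (h4.pre h2)
  refine ⟨j + 1, _, _, hm.add (PT.const 1), h, fun a => ?_⟩
  have e1 : (N a).val ≤ 2 ^ ((N a).val.size + (t a).val.size) := (Nat.size_le.1 (by omega)).le
  have e2 : (t a).val ≤ 2 ^ ((N a).val.size + (t a).val.size) := (Nat.size_le.1 (by omega)).le
  have e3 := cnt_two_mul (2 ^ ((N a).val.size + (t a).val.size))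
    (fun y => y < (N a).val ∧ R (a, Bin.mk y)) (fun y => ¬ y < (t a).val)
  have e4 := cnt_not (2 ^ ((N a).val.size + (t a).val.size)) (fun y => y < (t a).val)
  have e5 := cnt_lt e2 (fun _ => True)
  simp only [and_true, cnt_true] at e5
  simp only [Bin.val_mk, pow_succ']
  rw [cnt_lt e1] at e3
  simp only [pow_succ', pow_zero] at e3 ⊢
  rw [e3]; omega

theorem ex {R : α × Bin → Prop} {N : α → Bin} (hR : CH R) (hN : PT Bool N) :
    CH fun a => ∃ y < (N a).val, R (a, Bin.mk y) :=
  (hR.thr hN (PT.const (Bin.mk 0))).congr fun _ => cnt_pos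

theorem not_aux {j : ℕ} : ∀ {α : Type} [Ctx Bool α] {P : α → Prop}, Lv j α P → CH fun a => ¬ P a := by
  induction j with
  | zero => exact fun h => ofPT (notPT h)
  | succ j ih =>
    rintro α _ P ⟨m, R, hm, hR, h⟩
    have h1 : PT Bool fun a => Bin.mk (valU (List.replicate (m a - 1) true)) :=
      pt_mk (PT.replicate (hm.sub (PT.const 1)) true)
    have e : ∀ k, valU (List.replicate k true) + 1 = 2 ^ k := fun k => by
      induction k with
      | zero => rfl
      | succ k ih => rw [List.replicate_succ, valU_cons, pow_succ, ← ih]; simp [Nat.bit]; ring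
    refine ((ih hR).thr (pt_pow2 hm) h1).congr fun a => ?_
    have e1 := cnt_not (2 ^ m a) fun y => R (a, Bin.mk y)
    have e2 := e (m a - 1)
    rw [h]
    simp only [Bin.val_mk]
    cases hma : m a with
    | zero => simp only [hma, pow_zero, Nat.zero_sub] at e1 e2 ⊢; omega
    | succ k => simp only [hma, pow_succ, Nat.add_sub_cancel] at e1 e2 ⊢; omega

theorem not (h : CH P) : CH fun a => ¬ P a := let ⟨_, h⟩ := h; not_aux h

theorem or (hP : CH P) (hQ : CH Q) : CH fun a => P a ∨ Q a := by
  have h := (cond (c := fun x : α × Bin => x.2.val.testBit 0) (by fun_prop)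
    (hP.pre (g := Prod.fst) (by fun_prop)) (hQ.pre (g := Prod.fst) (by fun_prop))).ex (PT.const (Bin.mk 2))
  refine h.congr fun a => ⟨?_, ?_⟩
  · rintro ⟨y, -, hy⟩
    cases h : (Bin.mk y).val.testBit 0 <;> simp only [h, cond_true, cond_false] at hy
    · exact Or.inr hy
    · exact Or.inl hy
  · rintro (h | h)
    · exact ⟨1, by decide, by simpa using h⟩
    · exact ⟨0, by decide, by simpa using h⟩

theorem and (hP : CH P) (hQ : CH Q) : CH fun a => P a ∧ Q a :=
  (hP.not.or hQ.not).not.congr fun a => by tauto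

theorem all {R : α × Bin → Prop} {N : α → Bin} (hR : CH R) (hN : PT Bool N) :
    CH fun a => ∀ y < (N a).val, R (a, Bin.mk y) :=
  (hR.not.ex hN).not.congr fun _ => by simp

end CH

end Vale.Agent.P337
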