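import Vale.Agent.P337.CH1

/-! Functions computable in the counting hierarchy. -/

namespace Vale.Agent.P337

open Vale.Agent.PT Vale.Agent.P317 Finset

variable {α β γ δ : Type} [Ctx Bool α] [Ctx Bool β] [Ctx Bool γ] [Ctx Bool δ]

/-- Functions of polynomial growth that can be substituted into predicates of the hierarchy. -/
@[fun_prop] def CF (f : α → β) : Prop := PB (fun a => size Bool (f a)) (size Bool) ∧
  ∀ (δ : Type) [Ctx Bool δ] (P : δ × β → Prop), CH P → CH fun x : δ × α => P (x.1, f x.2)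

namespace CF

theorem ofPT {f : α → β} (h : PT Bool f) : CF f :=
  ⟨h.size_pb, fun _ _ _ hP => hP.pre (by fun_prop)⟩

@[fun_prop] theorem id' : CF fun a : α => a := ofPT PT.id'

@[fun_prop] theorem const (b : β) : CF fun _ : α => b := ofPT (PT.const b)

@[fun_prop] theorem comp {f : β → γ} {g : α → β} (hf : CF f) (hg : CF g) : CF fun a => f (g a) :=
  ⟨(hf.1.comp g).trans hg.1, fun δ _ P hP => hg.2 δ (fun x => P (x.1, f x.2)) (hf.2 δ P hP)⟩

theorem congr {f g : α → β} (hf : CF f) (h : ∀ a, f a = g a) : CF g := (funext h : f = g) ▸ hf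

@[fun_prop] theorem pair {f : α → β} {g : α → γ} (hf : CF f) (hg : CF g) : CF fun a => (f a, g a) := by
  refine ⟨by simpa using hf.1.add hg.1, fun δ _ P hP => ?_⟩
  have h1 := hg.2 (δ × β) (fun x => P (x.1.1, x.1.2, x.2)) (hP.pre (by fun_prop))
  have h2 := hf.2 (δ × α) (fun x => P (x.1.1, x.2, g x.1.2))
    (h1.pre (g := fun x : (δ × α) × β => ((x.1.1, x.2), x.1.2)) (by fun_prop))
  exact h2.pre (g := fun x : δ × α => (x, x.2)) (by fun_prop)

@[fun_prop] theorem fst {f : α → β × γ} (hf : CF f) : CF fun a => (f a).1 :=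
  comp (f := Prod.fst) (ofPT (by fun_prop)) hf

@[fun_prop] theorem snd {f : α → β × γ} (hf : CF f) : CF fun a => (f a).2 :=
  comp (f := Prod.snd) (ofPT (by fun_prop)) hf

theorem ofCH {P : α → Prop} (h : CH P) : CF P := by
  refine ⟨(PB.const 1 _).of_le fun a => size_prop _, fun δ _ Q hQ => ?_⟩
  have h1 : CH fun x : δ × α => P x.2 := h.pre (by fun_prop)
  have h2 : ∀ b : Prop, CH fun x : δ × α => Q (x.1, b) := fun b => hQ.pre (by fun_prop)
  refine ((h1.and (h2 True)).or (h1.not.and (h2 False))).congr fun x => ?_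
  by_cases hp : P x.2 <;> simp [hp]

theorem toCH {P : α → Prop} (h : CF P) : CH P :=
  (h.2 Unit Prod.snd (CH.ofPT (by fun_prop))).pre (g := fun a => ((), a)) (by fun_prop)

theorem iff {P Q : α → Prop} (h : CF P) (e : ∀ a, P a ↔ Q a) : CF Q := h.congr fun a => propext (e a)

@[fun_prop] theorem and {P Q : α → Prop} (hP : CF P) (hQ : CF Q) : CF fun a => P a ∧ Q a :=
  ofCH (hP.toCH.and hQ.toCH)

@[fun_prop] theorem or {P Q : α → Prop} (hP : CF P) (hQ : CF Q) : CF fun a => P a ∨ Q a :=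
  ofCH (hP.toCH.or hQ.toCH)

@[fun_prop] theorem not {P : α → Prop} (hP : CF P) : CF fun a => ¬ P a := ofCH hP.toCH.not

theorem graphB {f : α → Bin} (hs : PB (fun a => size Bool (f a)) (size Bool))
    (h : CH fun x : α × Bin => x.2 = f x.1) : CF f := by
  refine ⟨hs, fun δ _ P hP => ?_⟩
  obtain ⟨m, hm, hle⟩ := pb_pt hs
  have h1 : CH fun z : (δ × α) × Bin => z.2 = f z.1.2 ∧ P (z.1.1, z.2) :=
    (h.pre (g := fun z : (δ × α) × Bin => (z.1.2, z.2)) (by fun_prop)).and (hP.pre (by fun_prop))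
  refine (h1.ex (N := fun x => Bin.mk (2 ^ m x.2)) (by fun_prop)).congr fun x => ⟨?_, fun hx => ?_⟩
  · rintro ⟨y, -, e, hy⟩
    exact e ▸ hy
  · exact ⟨(f x.2).val, Nat.size_le.1 (by rw [← size_bin]; exact hle _), rfl, hx⟩

theorem cntPT {R : α × Bin → Prop} {N : α → Bin} (hR : CH R) (hN : PT Bool N) :
    CF fun a => Bin.mk (cnt (N a).val fun y => R (a, Bin.mk y)) := by
  refine graphB (hN.size_pb.of_le fun a => ?_) ?_
  · simp only [size_bin]; exact Nat.size_le_size (cnt_le _ _)
  have h1 : CH fun x : α × Bin => x.2.val < cnt (N x.1).val fun y => R (x.1, Bin.mk y) :=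
    CH.thr (R := fun z : (α × Bin) × Bin => R (z.1.1, z.2)) (hR.pre (by fun_prop)) (by fun_prop)
      (by fun_prop)
  have h2 := (h1.pre (g := fun z : (α × Bin) × Bin => (z.1.1, z.2)) (by fun_prop)).all
    (N := Prod.snd) (by fun_prop)
  refine (h1.not.and h2).congr fun x => ⟨fun ⟨e1, e2⟩ => ?_, fun e => ?_⟩
  · simp only [Bin.val_mk] at e2
    have : x.2.val = cnt (N x.1).val fun y => R (x.1, Bin.mk y) :=
      le_antisymm (not_lt.1 fun h => lt_irrefl _ (e2 _ h)) (not_lt.1 e1)
    exact this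
  · rw [e]; simp

theorem cntB {R : α × Bin → Prop} {N : α → Bin} (hR : CF R) (hN : CF N) :
    CF fun a => Bin.mk (cnt (N a).val fun y => R (a, Bin.mk y)) :=
  (cntPT (R := fun z : (α × Bin) × Bin => R (z.1.1, z.2)) (N := Prod.snd)
    (hR.toCH.pre (by fun_prop)) (by fun_prop)).comp (g := fun a => (a, N a)) (by fun_prop)

theorem ltB {f g : α → Bin} (hf : CF f) (hg : CF g) : CF fun a => (f a).val < (g a).val :=
  (ofPT (pt_lt (f := Prod.fst) (g := Prod.snd) (by fun_prop) (by fun_prop))).comp (hf.pair hg)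

theorem cond {c : α → Prop} [∀ a, Decidable (c a)] {f g : α → β} (hc : CF c) (hf : CF f) (hg : CF g) :
    CF fun a => if c a then f a else g a := by
  classical
  have h : PT Bool fun x : Prop × β × β => _root_.cond (decide x.1) x.2.1 x.2.2 :=
    PT.cond' (pt_toBool (by fun_prop)) (by fun_prop) (by fun_prop)
  refine ((ofPT h).comp (hc.pair (hf.pair hg))).congr fun a => ?_
  by_cases h : c a <;> simp [h]

theorem valU {l : α → List Bool} (hl : CF l) : CF fun a => Bin.mk (valU (l a)) :=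
  (ofPT (pt_mk PT.id')).comp hl

theorem bitB {l : α → List Bool} {i : α → Bin} (hl : CF l) (hi : CF i) :
    CF fun a => bit (l a) (i a).val = true := by
  have h : PT Bool fun x : List Bool × Bin => bit x.1 x.2.val = true := by
    refine pt_ofBool (f := fun x => bit x.1 (min x.2.val x.1.length)) (by fun_prop) fun x => ?_
    rcases le_total x.2.val x.1.length with h | h
    · rw [min_eq_left h]
    · rw [min_eq_right h, bit_of_le h, bit_of_le le_rfl]
  exact (ofPT h).comp (hl.pair hi)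

end CF

/-- Computable numbers of polynomial magnitude. -/
@[fun_prop] def CU (f : α → ℕ) : Prop := CF (fun a => Bin.mk (f a)) ∧ PB f (size Bool)

namespace CU

@[fun_prop] theorem comp {f : β → ℕ} {g : α → β} (hf : CU f) (hg : CF g) : CU fun a => f (g a) :=
  ⟨hf.1.comp hg, (hf.2.comp g).trans hg.1⟩

theorem un {f : α → ℕ} (h : CU f) : CF f := by
  obtain ⟨m, hm, hle⟩ := pb_pt h.2
  have h1 : PT Bool fun x : α × Bin => min x.2.val (m x.1) := by fun_prop
  exact ((CF.ofPT h1).comp (CF.id'.pair h.1)).congr fun a => min_eq_left (hle a)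

theorem ofPT {f : α → ℕ} (h : PT Bool f) : CU f := by
  refine ⟨?_, h.pb⟩
  have h1 : PT Bool fun x : α × Bin => x.2.val < f x.1 :=
    pt_ofBool (f := fun x => Nat.ble (min x.2.val (f x.1) + 1) (f x.1)) (by fun_prop) fun x => by
      rw [Nat.ble_eq]; omega
  refine (CF.cntPT (CH.ofPT h1) (pt_pow2 h)).congr fun a => ?_
  have := cnt_lt (Nat.lt_two_pow_self (n := f a)).le fun _ => True
  simp only [and_true, cnt_true] at this
  simp [this]

@[fun_prop] theorem length {l : α → List Bool} (hl : CF l) : CU fun a => (l a).length :=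
  (ofPT (PT.length PT.id')).comp hl

theorem size' : CU fun a : α => size Bool a := ofPT pt_size'

theorem ofPB {f : α → ℕ} (h : PB f (size Bool)) : ∃ m : α → ℕ, CU m ∧ ∀ a, f a ≤ m a :=
  let ⟨m, hm, hle⟩ := pb_pt h; ⟨m, ofPT hm, hle⟩

theorem pow2B {m : α → ℕ} (hm : CU m) : CF fun a => Bin.mk (2 ^ m a) :=
  (CF.ofPT (pt_pow2 PT.id')).comp hm.un

theorem div2B {f : α → Bin} {m : α → ℕ} (hf : CF f) (hm : CU m) :
    CF fun a => Bin.mk ((f a).val / 2 ^ m a) :=
  (CF.ofPT (pt_div2 (f := Prod.fst) (m := Prod.snd) (by fun_prop) (by fun_prop))).comp (hf.pair hm.un)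

theorem mod2B {f : α → Bin} {m : α → ℕ} (hf : CF f) (hm : CU m) :
    CF fun a => Bin.mk ((f a).val % 2 ^ m a) :=
  (CF.ofPT (pt_mod2 (f := Prod.fst) (m := Prod.snd) (by fun_prop) (by fun_prop))).comp (hf.pair hm.un)

theorem sizeB {f : α → Bin} (hf : CF f) : CU fun a => (f a).val.size :=
  (ofPT (pt_bsize PT.id')).comp hf

end CU

end Vale.Agent.P337
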