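import Vale.Agent.P337.CH2

/-! Arithmetic in the counting hierarchy.  From here on naturals are binary. -/

namespace Vale.Agent.P337

open Vale.Agent.PT Vale.Agent.P317 Finset

instance (priority := high) natBin : Ctx Bool ℕ := ctxBin

variable {α β γ δ : Type} [Ctx Bool α] [Ctx Bool β] [Ctx Bool γ] [Ctx Bool δ]

theorem size_nat' (n : ℕ) : size Bool n = n.size := size_bin n

@[fun_prop] theorem CU.cf {f : α → ℕ} (h : CU f) : CF f := h.1

theorem CU.mk' {f : α → ℕ} (h : CF f) (h' : PB f (size Bool)) : CU f := ⟨h, h'⟩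

@[fun_prop] theorem CU.size {f : α → ℕ} (h : CF f) : CU fun a => (f a).size := CU.sizeB h

theorem CF.pow2 {m : α → ℕ} (h : CU m) : CF fun a => 2 ^ m a := h.pow2B

attribute [local fun_prop] CF.pow2

theorem unif {q : α × ℕ → ℕ} {N : α → ℕ} (hq : PB q (size Bool)) (hN : CF N) :
    ∃ M : α → ℕ, CU M ∧ ∀ a y, y ≤ N a → q (a, y) ≤ M a := by
  obtain ⟨P, hP, h1, h2⟩ := hq.exists_mono
  obtain ⟨M, hM, h⟩ := CU.ofPB (h2 ((PB.refl _).add hN.1))
  refine ⟨M, hM, fun a y hy => (h1 _).trans ((hP ?_).trans (h a))⟩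
  simp only [size_prod, size_nat']
  exact Nat.add_le_add_left (Nat.size_le_size hy) _

theorem sum_range_mul {M : Type} [AddCommMonoid M] (K B : ℕ) (φ : ℕ → M) :
    ∑ z ∈ range (K * B), φ z = ∑ y ∈ range K, ∑ r ∈ range B, φ (r + B * y) := by
  induction K with
  | zero => simp
  | succ K ih =>
    rw [Nat.succ_mul, sum_range_add, ih, sum_range_succ]
    simp only [mul_comm K B, add_comm]

namespace CF

variable {f g N : α → ℕ}

theorem bound (h : CF f) : ∃ m : α → ℕ, CU m ∧ ∀ a, f a < 2 ^ m a :=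
  ⟨_, CU.size h, fun _ => Nat.lt_size_self _⟩

theorem ubound {F : α → ℕ → ℕ} (h : CF fun x : α × ℕ => F x.1 x.2) (hN : CF N) :
    ∃ m : α → ℕ, CU m ∧ ∀ a y, y ≤ N a → F a y < 2 ^ m a :=
  let ⟨m, hm, h⟩ := unif (CU.size h).2 hN
  ⟨m, hm, fun a y hy => Nat.size_le.1 (h a y hy)⟩

@[fun_prop] theorem cnt {R : α → ℕ → Prop} (hN : CF N) (hR : CF fun x : α × ℕ => R x.1 x.2) :
    CF fun a => cnt (N a) (R a) := cntB (R := fun x => R x.1 x.2) hR hN

@[fun_prop] theorem lt (hf : CF f) (hg : CF g) : CF fun a => f a < g a := ltB hf hg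

@[fun_prop] theorem le (hf : CF f) (hg : CF g) : CF fun a => f a ≤ g a :=
  (lt hg hf).not.iff fun _ => not_lt

@[fun_prop] theorem eq (hf : CF f) (hg : CF g) : CF fun a => f a = g a :=
  ((le hf hg).and (le hg hf)).iff fun _ => le_antisymm_iff.symm

@[fun_prop] theorem ne (hf : CF f) (hg : CF g) : CF fun a => f a ≠ g a := (eq hf hg).not

@[fun_prop] theorem ite {c : α → Prop} {i : ∀ a, Decidable (c a)} {f g : α → β} (hc : CF c) (hf : CF f)
    (hg : CF g) : CF fun a => @ite _ (c a) (i a) (f a) (g a) := cond hc hf hg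

theorem imp {P Q : α → Prop} (hP : CF P) (hQ : CF Q) : CF fun a => P a → Q a :=
  (hP.not.or hQ).iff fun _ => by tauto

end CF

def ExB (N : ℕ) (P : ℕ → Prop) : Prop := ∃ y < N, P y

def AllB (N : ℕ) (P : ℕ → Prop) : Prop := ∀ y < N, P y

def dig (B i w : ℕ) : ℕ := w / B ^ i % B

noncomputable def fnd (N : ℕ) (P : ℕ → Prop) : ℕ := cnt N fun t => AllB (t + 1) fun k => ¬ P k

theorem fnd_spec {N : ℕ} {P : ℕ → Prop} (h : ∃ k < N, P k) : P (fnd N P) := by
  classical
  have h' : ∃ k, P k := let ⟨k, _, h⟩ := h; ⟨k, h⟩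
  obtain ⟨k, hk, hP⟩ := h
  have e : fnd N P = Nat.find h' := by
    have := cnt_lt ((Nat.find_min' h' hP).trans hk.le) fun _ => True
    simp only [and_true, cnt_true] at this
    rw [← this]
    refine cnt_congr fun y _ => ?_
    simp [AllB, Nat.lt_succ_iff]
  rw [e]; exact Nat.find_spec h'

theorem exists_dig {B : ℕ} (k : ℕ) (w : ℕ → ℕ) (h : ∀ j < k, w j < B) :
    ∃ v < B ^ k, ∀ j < k, dig B j v = w j :=
  ⟨finFunctionFinEquiv fun j : Fin k => (⟨w j, h j j.2⟩ : Fin B), Fin.is_lt _, fun j hj => by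
    have := finFunctionFinEquiv_symm_apply_val
      (finFunctionFinEquiv fun j : Fin k => (⟨w j, h j j.2⟩ : Fin B)) ⟨j, hj⟩
    rw [Equiv.symm_apply_apply] at this
    exact this.symm⟩

namespace CF

variable {f g N : α → ℕ}

@[fun_prop] theorem ex {R : α → ℕ → Prop} (hN : CF N) (hR : CF fun x : α × ℕ => R x.1 x.2) :
    CF fun a => ExB (N a) (R a) := ((const 0).lt (cnt hN hR)).iff fun _ => cnt_pos

@[fun_prop] theorem all {R : α → ℕ → Prop} (hN : CF N) (hR : CF fun x : α × ℕ => R x.1 x.2) :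
    CF fun a => AllB (N a) (R a) :=
  (ex (R := fun a y => ¬ R a y) hN hR.not).not.iff fun _ => by simp [ExB, AllB]

theorem graph (hN : CF N) (hle : ∀ a, f a ≤ N a) (h : CF fun x : α × ℕ => x.2 = f x.1) : CF f :=
  graphB (hN.1.of_le fun a => by rw [size_nat']; exact (size_nat' _).trans_le (Nat.size_le_size (hle a)))
    h.toCH

theorem div2 {m : α → ℕ} (hf : CF f) (hm : CU m) : CF fun a => f a / 2 ^ m a := CU.div2B hf hm

theorem mod2 {m : α → ℕ} (hf : CF f) (hm : CU m) : CF fun a => f a % 2 ^ m a := CU.mod2B hf hm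

@[fun_prop] theorem add (hf : CF f) (hg : CF g) : CF fun a => f a + g a := by
  obtain ⟨m, hm, h⟩ := CU.ofPB (((CU.size hf).2.add (CU.size hg).2).add (PB.const 1 _))
  have one : CU fun _ : α × ℕ => 1 := CU.mk' (const _) (PB.const _ _)
  have h1 : CF fun x : α × ℕ => x.2 / 2 ^ 1 := div2 (by fun_prop) one
  have h2 : CF fun x : α × ℕ => x.2 % 2 ^ 1 := mod2 (by fun_prop) one
  have h3 : CF fun a => P337.cnt (2 ^ m a) fun y =>
      if y % 2 ^ 1 = 1 then y / 2 ^ 1 < f a else y / 2 ^ 1 < g a := by fun_prop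
  refine h3.congr fun a => ?_
  obtain ⟨k, hk⟩ : ∃ k, m a = k + 1 := ⟨m a - 1, by have := h a; omega⟩
  have e1 : f a ≤ 2 ^ k := (Nat.size_le.1 (by have := h a; omega)).le
  have e2 : g a ≤ 2 ^ k := (Nat.size_le.1 (by have := h a; omega)).le
  have e3 := cnt_lt e1 fun _ => True
  have e4 := cnt_lt e2 fun _ => True
  simp only [and_true, cnt_true] at e3 e4
  rw [hk, pow_succ', ← e3, ← e4, ← cnt_two_mul, e3, e4]
  refine cnt_congr fun y _ => ?_
  rcases Nat.mod_two_eq_zero_or_one y with e | e <;> simp [e]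

end CF

namespace CU

variable {f g : α → ℕ}

@[fun_prop] theorem const (n : ℕ) : CU fun _ : α => n := mk' (CF.const _) (PB.const _ _)

theorem of_le (hf : CF f) (hg : CU g) (h : ∀ a, f a ≤ g a) : CU f := mk' hf (hg.2.of_le h)

@[fun_prop] theorem add (hf : CU f) (hg : CU g) : CU fun a => f a + g a :=
  mk' (hf.cf.add hg.cf) (hf.2.add hg.2)

end CU

namespace CF

variable {f g N : α → ℕ}

@[fun_prop] theorem sum {F : α → ℕ → ℕ} (hN : CF N) (hF : CF fun x : α × ℕ => F x.1 x.2) :
    CF fun a => ∑ y ∈ range (N a), F a y := by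
  classical
  obtain ⟨m, hm, h⟩ := ubound hF hN
  have h1 : CF fun x : α × ℕ => x.2 / 2 ^ m x.1 := div2 (by fun_prop) (by fun_prop)
  have h2 : CF fun x : α × ℕ => x.2 % 2 ^ m x.1 := mod2 (by fun_prop) (by fun_prop)
  have h3 : CF fun a => P337.cnt (2 ^ ((N a).size + m a)) fun z =>
      z / 2 ^ m a < N a ∧ z % 2 ^ m a < F a (z / 2 ^ m a) := by fun_prop
  refine h3.congr fun a => ?_
  rw [cnt_eq_sum, pow_add, sum_range_mul]
  have e : ∀ y, ∀ r ∈ range (2 ^ m a), (r + 2 ^ m a * y) / 2 ^ m a = y ∧ (r + 2 ^ m a * y) % 2 ^ m a = r :=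
    fun y r hr => by
      rw [Nat.add_mul_div_left _ _ (Nat.two_pow_pos _), Nat.add_mul_mod_self_left,
        Nat.div_eq_of_lt (mem_range.1 hr), Nat.mod_eq_of_lt (mem_range.1 hr)]
      simp
  rw [← sum_subset (range_mono (Nat.lt_size_self (N a)).le)]
  · refine sum_congr rfl fun y hy => ?_
    have hy := mem_range.1 hy
    have e3 := cnt_lt (h a y hy.le).le fun _ => True
    simp only [and_true, cnt_true] at e3
    rw [← e3, cnt_eq_sum]
    refine sum_congr rfl fun r hr => ?_
    simp [(e y r hr).1, (e y r hr).2, hy]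
  · refine fun y _ hy => sum_eq_zero fun r hr => ?_
    simp only [mem_range] at hy
    simp [(e y r hr).1, hy]

@[fun_prop] theorem mul (hf : CF f) (hg : CF g) : CF fun a => f a * g a :=
  (sum (F := fun a _ => g a) hf (by fun_prop)).congr fun a => by simp

@[fun_prop] theorem sub (hf : CF f) (hg : CF g) : CF fun a => f a - g a := by
  have h : CF fun a => P337.cnt (f a) fun y => ¬ y < g a := by fun_prop
  refine h.congr fun a => ?_
  have e1 := cnt_not (f a) fun y => y < g a
  rcases le_total (f a) (g a) with h | h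
  · have : P337.cnt (f a) (fun y => y < g a) = P337.cnt (f a) fun _ => True :=
      cnt_congr fun y _ => by simp; omega
    rw [cnt_true] at this; omega
  · have e3 := cnt_lt h fun _ => True
    simp only [and_true, cnt_true] at e3
    omega

@[fun_prop] theorem div (hf : CF f) (hg : CF g) : CF fun a => f a / g a := by
  have h : CF fun a => P337.cnt (f a) fun y => 0 < g a ∧ (y + 1) * g a ≤ f a := by fun_prop
  refine h.congr fun a => ?_
  have e3 := cnt_lt (Nat.div_le_self (f a) (g a)) fun _ => True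
  simp only [and_true, cnt_true] at e3
  rw [← e3]
  refine cnt_congr fun y _ => ?_
  rcases Nat.eq_zero_or_pos (g a) with h | h
  · simp [h]
  · rw [← Nat.le_div_iff_mul_le h]; simp [h]

@[fun_prop] theorem mod (hf : CF f) (hg : CF g) : CF fun a => f a % g a :=
  (hf.sub (hg.mul (hf.div hg))).congr fun a => (Nat.mod_eq_sub_mul_div).symm

@[fun_prop] theorem min (hf : CF f) (hg : CF g) : CF fun a => min (f a) (g a) :=
  (hf.sub (hf.sub hg)).congr fun a => by omega

@[fun_prop] theorem fnd {R : α → ℕ → Prop} (hN : CF N) (hR : CF fun x : α × ℕ => R x.1 x.2) :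
    CF fun a => fnd (N a) (R a) := by unfold P337.fnd; fun_prop

@[fun_prop] theorem bit {l : α → List Bool} (hl : CF l) (hf : CF f) :
    CF fun a => bit (l a) (f a) = true := bitB hl hf

@[fun_prop] theorem prime (hf : CF f) : CF fun a => Nat.Prime (f a) := by
  have h : CF fun a => 2 ≤ f a ∧ AllB (f a) fun m => m < 2 ∨ f a % m ≠ 0 := by fun_prop
  refine h.iff fun a => ?_
  rw [Nat.prime_def_lt']
  refine and_congr_right fun _ => forall_congr' fun m => ?_
  rw [Nat.dvd_iff_mod_eq_zero]; omega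

end CF

namespace CU

variable {f g : α → ℕ}

@[fun_prop] theorem mul (hf : CU f) (hg : CU g) : CU fun a => f a * g a :=
  mk' (hf.cf.mul hg.cf) (hf.2.mul hg.2)

@[fun_prop] theorem sub (hf : CU f) (hg : CF g) : CU fun a => f a - g a :=
  of_le (hf.cf.sub hg) hf fun _ => Nat.sub_le _ _

@[fun_prop] theorem div (hf : CU f) (hg : CF g) : CU fun a => f a / g a :=
  of_le (hf.cf.div hg) hf fun _ => Nat.div_le_self _ _

@[fun_prop] theorem min (hf : CF f) (hg : CU g) : CU fun a => min (f a) (g a) :=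
  of_le (hf.min hg.cf) hg fun _ => min_le_right _ _

end CU

namespace CF

variable {f g N : α → ℕ}

theorem iter {m : α → ℕ} (hm : CU m) (G : α → ℕ → ℕ) (h0 : CF fun a => G a 0) (H : α × ℕ × ℕ → ℕ)
    (hH : CF H) (hG : ∀ a i, i < m a → G a (i + 1) = H (a, i, G a i)) (hN : CF N)
    (hb : ∀ a i, i ≤ m a → G a i ≤ N a) : CF fun a => G a (m a) := by
  refine graph hN (fun a => hb a _ le_rfl) ?_
  have hL := CU.size hN
  set L := fun a => (N a).size
  have hd : CF fun x : α × ℕ × ℕ => x.2.2 / 2 ^ (L x.1 * Min.min x.2.1 (m x.1)) % 2 ^ L x.1 := by fun_prop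
  set D : α → ℕ → ℕ → ℕ := fun a i w => w / 2 ^ (L a * Min.min i (m a)) % 2 ^ L a with hD
  replace hd : CF fun x : α × ℕ × ℕ => D x.1 x.2.1 x.2.2 := hd
  have eD : ∀ a i w, i ≤ m a → D a i w = dig (2 ^ L a) i w := fun a i w hi => by
    simp only [hD, dig, min_eq_left hi, pow_mul]
  clear_value D
  have h : CF fun x : α × ℕ => ExB (2 ^ (L x.1 * (m x.1 + 1))) fun w => D x.1 0 w = G x.1 0 ∧
      (AllB (m x.1) fun i => D x.1 (i + 1) w = H (x.1, i, D x.1 i w)) ∧ x.2 = D x.1 (m x.1) w := by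
    fun_prop
  refine h.iff fun x => ⟨fun ⟨w, _, e0, e1, e2⟩ => ?_, fun e => ?_⟩
  · have : ∀ i ≤ m x.1, D x.1 i w = G x.1 i := fun i hi => by
      induction i with
      | zero => exact e0
      | succ i ih => rw [e1 i hi, hG _ _ hi, ih (by omega)]
    rw [e2, this _ le_rfl]
  · obtain ⟨w, hw, h⟩ := exists_dig (B := 2 ^ L x.1) (m x.1 + 1) (G x.1) fun j hj =>
      (hb _ j (by omega)).trans_lt (Nat.lt_size_self _)
    refine ⟨w, by rwa [pow_mul], ?_, fun i hi => ?_, ?_⟩
    · rw [eD _ _ _ (by omega), h _ (by omega)]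
    · beta_reduce
      rw [eD _ _ _ (by omega), eD _ _ _ (by omega), h _ (by omega), h _ (by omega), hG _ _ hi]
    · rw [eD _ _ _ (by omega), h _ (by omega), e]

theorem powMod {p : α → ℕ} (hf : CF f) (hg : CF g) (hp : CF p) (h0 : ∀ a, 0 < p a) :
    CF fun a => f a ^ g a % p a := by
  have hL := CU.size hg
  have := iter hL (fun a i => f a ^ (g a / 2 ^ ((g a).size - i)) % p a)
    (((const 1).mod hp).congr fun a => by rw [Nat.sub_zero, Nat.div_eq_of_lt (Nat.lt_size_self _), pow_zero])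
    (fun x => x.2.2 * x.2.2 * (if g x.1 / 2 ^ ((g x.1).size - (x.2.1 + 1)) % 2 = 1 then f x.1 else 1) % p x.1)
    (by fun_prop) (fun a i hi => ?_) hp fun a i _ => (Nat.mod_lt _ (h0 a)).le
  · simpa using this
  have e : g a / 2 ^ ((g a).size - i) = g a / 2 ^ ((g a).size - (i + 1)) / 2 := by
    rw [Nat.div_div_eq_div_mul, ← pow_succ]; congr 2; omega
  simp only [e]
  generalize g a / 2 ^ ((g a).size - (i + 1)) = k
  have e2 : f a ^ k = f a ^ (k / 2) * f a ^ (k / 2) * (if k % 2 = 1 then f a else 1) := by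
    rw [← pow_add]
    split_ifs with h
    · rw [← pow_succ]; congr 1; omega
    · rw [mul_one]; congr 1; omega
  rw [e2]
  exact (((Nat.mod_modEq _ _).mul (Nat.mod_modEq _ _)).mul_right _).symm

@[fun_prop] theorem pow {k : α → ℕ} (hf : CF f) (hk : CU k) : CF fun a => f a ^ k a := by
  have := powMod hf hk.cf (p := fun a => 2 ^ ((f a).size * k a + 1)) (by fun_prop) fun a => by positivity
  refine this.congr fun a => Nat.mod_eq_of_lt ?_
  calc f a ^ k a ≤ (2 ^ (f a).size) ^ k a := Nat.pow_le_pow_left (Nat.lt_size_self _).le _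
    _ < _ := by rw [← pow_mul]; exact Nat.pow_lt_pow_right (by omega) (by omega)

@[fun_prop] theorem dig {B : α → ℕ} (hB : CF B) (hf : CF f) (hg : CF g) :
    CF fun a => dig (B a) (f a) (g a) := by
  have h : CF fun a => if B a = 0 ∧ f a = 0 then g a else if B a ≤ 1 then 0 else
      g a / B a ^ Min.min (f a) (g a).size % B a := by fun_prop
  refine h.congr fun a => ?_
  unfold P337.dig
  split_ifs with h1 h2
  · simp [h1.1, h1.2]
  · rcases Nat.le_one_iff_eq_zero_or_eq_one.1 h2 with e | e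
    · have : f a ≠ 0 := fun h => h1 ⟨e, h⟩
      simp [e, this]
    · simp [e, Nat.mod_one]
  · rcases le_total (f a) (g a).size with h | h
    · rw [min_eq_left h]
    · have e : ∀ k, (g a).size ≤ k → g a / B a ^ k = 0 := fun k hk => Nat.div_eq_of_lt <|
        (Nat.size_le.1 hk).trans_le (Nat.pow_le_pow_left (by omega) _)
      rw [min_eq_right h, e _ h, e _ le_rfl]

end CF

end Vale.Agent.P337
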