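import Vale.Agent.P337.CH3

/-! Iterated products modulo primes and signs of huge integers. -/

namespace Vale.Agent.P337

open Vale.Agent.PT Vale.Agent.P317 Finset

variable {α β γ δ : Type} [Ctx Bool α] [Ctx Bool β] [Ctx Bool γ] [Ctx Bool δ]

def pm (g k p : ℕ) : ℕ := g ^ k % (p - 1 + 1)

@[fun_prop] theorem CF.pm {f g p : α → ℕ} (hf : CF f) (hg : CF g) (hp : CF p) :
    CF fun a => pm (f a) (g a) (p a) := CF.powMod hf hg (by fun_prop) fun _ => by omega

theorem pm_cast (g k : ℕ) {p : ℕ} (hp : p.Prime) : (pm g k p : ZMod p) = (g : ZMod p) ^ k := by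
  rw [pm, Nat.sub_add_cancel hp.pos, ZMod.natCast_mod, Nat.cast_pow]

theorem pm_lt (g k : ℕ) {p : ℕ} (hp : p.Prime) : pm g k p < p := by
  rw [pm, Nat.sub_add_cancel hp.pos]; exact Nat.mod_lt _ hp.pos

theorem exists_gen {p : ℕ} (hp : p.Prime) :
    ∃ g < p, AllB p fun u => u = 0 ∨ ExB p fun k => pm g k p = u := by
  haveI := Fact.mk hp
  obtain ⟨g, hg⟩ := IsCyclic.exists_monoid_generator (α := (ZMod p)ˣ)
  refine ⟨(g : ZMod p).val, ZMod.val_lt _, fun u hu => or_iff_not_imp_left.2 fun h0 => ?_⟩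
  have hu0 : (u : ZMod p) ≠ 0 := fun h => h0 (Nat.eq_zero_of_dvd_of_lt ((ZMod.natCast_eq_zero_iff _ _).1 h) hu)
  obtain ⟨k, hk⟩ := hg (Units.mk0 _ hu0)
  have h2 := hp.two_le
  refine ⟨k % (p - 1), (Nat.mod_lt _ (by omega)).trans_le (by omega), ?_⟩
  have e : (pm (g : ZMod p).val (k % (p - 1)) p : ZMod p) = u := by
    rw [pm_cast _ _ hp, ZMod.natCast_zmod_val, ← Units.val_pow_eq_pow_val, ← ZMod.card_units p,
      ← Nat.card_eq_fintype_card, pow_mod_natCard]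
    exact congrArg Units.val hk
  rwa [ZMod.natCast_eq_natCast_iff', Nat.mod_eq_of_lt (pm_lt _ _ hp), Nat.mod_eq_of_lt hu] at e

theorem CF.prodMod {p N : α → ℕ} {f : α → ℕ → ℕ} (hp : CF p) (hN : CF N)
    (hf : CF fun x : α × ℕ => f x.1 x.2) : ∃ E : α → ℕ, CF E ∧ ∀ a, (p a).Prime →
      (E a : ZMod (p a)) = ∏ y ∈ range (N a), (f a y : ZMod (p a)) := by
  classical
  have hg : CF fun a => P337.fnd (p a) fun g => AllB (p a) fun u => u = 0 ∨ ExB (p a) fun k =>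
    P337.pm g k (p a) = u := by fun_prop
  set g := fun a => P337.fnd (p a) fun g => AllB (p a) fun u => u = 0 ∨ ExB (p a) fun k =>
    P337.pm g k (p a) = u with hgd
  refine ⟨fun a => if ExB (N a) fun y => f a y % p a = 0 then 0 else
    P337.pm (g a) (∑ y ∈ range (N a), P337.fnd (p a) fun k => P337.pm (g a) k (p a) = f a y % p a) (p a),
    by fun_prop, fun a ha => ?_⟩
  beta_reduce
  split_ifs with h
  · obtain ⟨y, hy, h⟩ := h
    rw [prod_eq_zero (mem_range.2 hy), Nat.cast_zero]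
    rw [← ZMod.natCast_mod, h, Nat.cast_zero]
  · rw [pm_cast _ _ ha, ← prod_pow_eq_pow_sum]
    refine prod_congr rfl fun y hy => ?_
    have h1 := fnd_spec (exists_gen ha) (f a y % p a) (Nat.mod_lt _ ha.pos)
    have h2 := fnd_spec (h1.resolve_left fun h' => h ⟨y, mem_range.1 hy, h'⟩)
    rw [← pm_cast _ _ ha, ← ZMod.natCast_mod (f a y)]
    exact congrArg _ h2

theorem primorial_ge {t : ℕ} (ht : 6 ≤ t) : 2 ^ (4 ^ t / 2) ≤ primorial (4 ^ t) := by
  have h := Chebyshev.theta_ge (4 ^ t)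
  rw [Chebyshev.theta_eq_log_primorial, Nat.floor_natCast] at h
  have l2 : 0 < Real.log 2 := Real.log_pos (by norm_num)
  have e1 : ((4 ^ t : ℕ) : ℝ) = (2 ^ t) ^ 2 := by push_cast; rw [← pow_mul, mul_comm, pow_mul]; norm_num
  have e2 : Real.log ((4 ^ t : ℕ) : ℝ) = 2 * t * Real.log 2 := by
    rw [e1, ← pow_mul, Real.log_pow]; push_cast; ring
  have e3 : Real.log (((4 ^ t : ℕ) : ℝ) + 1) ≤ (2 * t + 1) * Real.log 2 := by
    have : (1 : ℝ) ≤ ((4 ^ t : ℕ) : ℝ) := by exact_mod_cast Nat.one_le_pow _ _ (by norm_num)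
    calc _ ≤ Real.log (((4 ^ t : ℕ) : ℝ) * 2) := Real.log_le_log (by linarith) (by linarith)
      _ = _ := by rw [Real.log_mul (by linarith) (by norm_num), e2]; ring
  have e4 : √((4 ^ t : ℕ) : ℝ) = 2 ^ t := by rw [e1, Real.sqrt_sq (by positivity)]
  have e5 : 8 * t + 4 ≤ 2 ^ t := by
    clear h e1 e2 e3 e4
    induction t, ht using Nat.le_induction with
    | base => norm_num
    | succ t _ ih => rw [pow_succ]; omega
  have e6 : (8 * t + 4 : ℝ) ≤ 2 ^ t := by exact_mod_cast e5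
  have e7 : ((4 ^ t / 2 : ℕ) : ℝ) ≤ (2 ^ t) ^ 2 / 2 := by rw [← e1]; exact Nat.cast_div_le
  rw [e2, e4, e1] at h
  rw [e1] at e3
  have e8 : ((4 ^ t / 2 : ℕ) : ℝ) * Real.log 2 ≤ Real.log (primorial (4 ^ t)) := by
    refine le_trans ?_ h
    have t0 : (0 : ℝ) ≤ t := Nat.cast_nonneg _
    have : (2 ^ t : ℝ) ^ 2 / 2 + (2 * t + 1) + 2 * 2 ^ t * (2 * t) ≤ (2 ^ t) ^ 2 := by nlinarith
    nlinarith
  rw [← Real.log_pow, Real.log_le_log_iff (by positivity) (by exact_mod_cast primorial_pos _)] at e8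
  exact_mod_cast e8

def PrS (q : ℕ) : Finset ℕ := (range (4 ^ (q + 6) + 1)).filter fun p => p.Prime ∧ 2 ^ q < p

theorem prS_ge (q : ℕ) : 16 * 2 ^ 2 ^ q ≤ ∏ p ∈ PrS q, p := by
  have h1 := primorial_ge (t := q + 6) (by omega)
  have h2 : primorial (4 ^ (q + 6)) ≤ (∏ p ∈ PrS q, p) * primorial (2 ^ q) := by
    rw [primorial, primorial, ← prod_filter_mul_prod_filter_not _ fun p => 2 ^ q < p, filter_filter]
    refine Nat.mul_le_mul_left _ (prod_le_prod_of_subset_of_one_le' (fun p hp => ?_) fun p hp _ => ?_)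
    · simp only [mem_filter, mem_range] at hp ⊢
      exact ⟨by omega, hp.1.2⟩
    · exact (mem_filter.1 hp).2.pos
  have h3 := primorial_le_four_pow (2 ^ q)
  have h4 : 16 * 2 ^ 2 ^ q * 4 ^ 2 ^ q ≤ 2 ^ (4 ^ (q + 6) / 2) := by
    rw [show (16 : ℕ) = 2 ^ 4 by norm_num, show (4 : ℕ) ^ 2 ^ q = 2 ^ (2 * 2 ^ q) by rw [pow_mul]; norm_num,
      ← pow_add, ← pow_add]
    refine Nat.pow_le_pow_right (by norm_num) ?_
    have : 2 ^ q ≤ 4 ^ q := Nat.pow_le_pow_left (by norm_num) _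
    have := Nat.two_pow_pos q
    rw [pow_add]; omega
  exact Nat.le_of_mul_le_mul_right (h4.trans (h1.trans (h2.trans (Nat.mul_le_mul_left _ h3))))
    (by positivity)

theorem prS_le (q : ℕ) : ∏ p ∈ PrS q, p ≤ 4 ^ 4 ^ (q + 6) := by
  refine le_trans ?_ (primorial_le_four_pow _)
  refine prod_le_prod_of_subset_of_one_le' (fun p hp => ?_) fun p hp _ => (mem_filter.1 hp).2.pos
  simp only [PrS, mem_filter] at hp ⊢
  exact ⟨hp.1, hp.2.1⟩

theorem crt_window (P : Finset ℕ) (hP : ∀ p ∈ P, p.Prime) {S : ℕ} (hS : P.card ≤ S) (hS0 : 0 < S)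
    (A : ℕ → ℕ) {Y : ℤ} (hA : ∀ p ∈ P, ((A p * ∏ r ∈ P.erase p, r : ℕ) : ZMod p) = Y)
    (hY : 4 * |Y| ≤ (∏ p ∈ P, p : ℕ)) {z : ℕ}
    (hz : z = (∑ p ∈ P, A p * (32 * S) / p + 16 * S) % (32 * S)) :
    ((z : ℤ) - 16 * S) * (∏ p ∈ P, p : ℕ) ≤ 32 * S * Y ∧
      32 * S * Y ≤ ((z : ℤ) - 15 * S) * (∏ p ∈ P, p : ℕ) := by
  set M := ∏ p ∈ P, p with hM
  set T := ∑ p ∈ P, A p * ∏ r ∈ P.erase p, r with hT
  set Z := ∑ p ∈ P, A p * (32 * S) / p with hZ
  have M0 : 0 < M := prod_pos fun p hp => (hP p hp).pos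
  have h1 : (M : ℤ) ∣ T - Y := by
    rw [hM, Nat.cast_prod]
    refine prod_dvd_of_coprime (fun p hp r hr hpr => ?_) fun p hp => ?_
    · exact Nat.isCoprime_iff_coprime.2 ((Nat.coprime_primes (hP p hp) (hP r hr)).2 hpr)
    · rw [← ZMod.intCast_zmod_eq_zero_iff_dvd, Int.cast_sub, ← hA p hp, Int.cast_natCast, hT,
        Nat.cast_sum, sum_eq_single_of_mem p hp, sub_self]
      intro r _ hr
      rw [ZMod.natCast_eq_zero_iff]
      exact Dvd.dvd.mul_left (dvd_prod_of_mem _ (mem_erase.2 ⟨hr.symm, hp⟩)) _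
  obtain ⟨r, hr⟩ := h1
  have h2 : ∀ p ∈ P, A p * (32 * S) / p * M ≤ 32 * S * (A p * ∏ r ∈ P.erase p, r) ∧
      32 * S * (A p * ∏ r ∈ P.erase p, r) ≤ A p * (32 * S) / p * M + M := fun p hp => by
    have e1 := Nat.div_mul_le_self (A p * (32 * S)) p
    have e2 := (Nat.lt_div_mul_add (a := A p * (32 * S)) (hP p hp).pos).le
    rw [hM, ← mul_prod_erase _ _ hp]
    exact ⟨by nlinarith [Nat.mul_le_mul_right (∏ r ∈ P.erase p, r) e1],
      by nlinarith [Nat.mul_le_mul_right (∏ r ∈ P.erase p, r) e2]⟩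
  have h3 : Z * M ≤ 32 * S * T := by
    rw [hZ, hT, sum_mul, mul_sum]; exact sum_le_sum fun p hp => (h2 p hp).1
  have h4 : 32 * S * T ≤ Z * M + S * M := by
    rw [hZ, hT, sum_mul, mul_sum]
    refine (sum_le_sum fun p hp => (h2 p hp).2).trans ?_
    rw [sum_add_distrib, sum_const, smul_eq_mul]
    exact Nat.add_le_add_left (Nat.mul_le_mul_right _ hS) _
  zify at h3 h4 M0 hS0
  have hT' : (T : ℤ) = Y + M * r := by linarith
  rw [hT'] at h3 h4
  have a1 := le_abs_self Y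
  have a2 := neg_abs_le Y
  have h5 : (Z : ℤ) + 16 * S - 32 * S * r ≤ 24 * S :=
    le_of_mul_le_mul_right (a := (M : ℤ)) (by nlinarith) M0
  have h6 : 7 * (S : ℤ) ≤ Z + 16 * S - 32 * S * r :=
    le_of_mul_le_mul_right (a := (M : ℤ)) (by nlinarith) M0
  have h7 : (z : ℤ) = Z + 16 * S - 32 * S * r := by
    rw [hz]; push_cast
    rw [← Int.emod_eq_of_lt (a := (Z : ℤ) + 16 * S - 32 * S * r) (b := 32 * S) (by omega) (by omega),
      Int.sub_mul_emod_self_left]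
  rw [h7]
  constructor <;> nlinarith

theorem sign_logic {S K : ℕ} (hS : 0 < S) {M X : ℤ} (hM : 0 < M) (hK : M ≤ 2 ^ K) (hX : 16 * |X| ≤ M)
    (z : ℕ → ℕ) (h : ∀ k, 4 * |2 ^ k * X| ≤ M → ((z k : ℤ) - 16 * S) * M ≤ 32 * S * (2 ^ k * X) ∧
      32 * S * (2 ^ k * X) ≤ ((z k : ℤ) - 15 * S) * M) :
    (ExB K fun k => z k ≤ 14 * S ∧ AllB k fun j => 14 * S < z j ∧ z j < 18 * S) ↔ X < 0 := by
  classical
  zify at hS
  have h1 : ∀ k, (∀ j < k, 14 * S < z j ∧ z j < 18 * S) → 4 * |2 ^ k * X| ≤ M := fun k => by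
    induction k with
    | zero => intro _; simp only [pow_zero, one_mul]; linarith [abs_nonneg X]
    | succ k ih =>
      intro hk
      obtain ⟨e1, e2⟩ := h k (ih fun j hj => hk j (by omega))
      obtain ⟨e3, e4⟩ := hk k (by omega)
      zify at e3 e4
      have e5 : 32 * (2 ^ k * X) ≤ 3 * M := le_of_mul_le_mul_left (a := (S : ℤ)) (by nlinarith) hS
      have e6 : -(2 * M) ≤ 32 * (2 ^ k * X) := le_of_mul_le_mul_left (a := (S : ℤ)) (by nlinarith) hS
      rw [pow_succ', mul_assoc, abs_mul, abs_two]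
      rcases abs_cases (2 ^ k * X) with e | e <;> linarith
  constructor
  · rintro ⟨k, -, e1, e2⟩
    have e3 := (h k (h1 k e2)).2
    zify at e1
    by_contra hx
    have : 0 ≤ 32 * S * (2 ^ k * X) := by have := not_lt.1 hx; positivity
    nlinarith
  · intro hx
    have hex : ∃ k, k < K ∧ ¬ (14 * S < z k ∧ z k < 18 * S) := by
      by_contra hn
      push Not at hn
      have e1 := h1 K hn
      have e2 : 1 ≤ |X| := Int.one_le_abs hx.ne
      rw [abs_mul, abs_of_pos (by positivity)] at e1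
      nlinarith [pow_pos (show (0 : ℤ) < 2 by norm_num) K]
    have e0 := Nat.find_spec hex
    have e1 : ∀ j < Nat.find hex, 14 * S < z j ∧ z j < 18 * S := fun j hj => by
      have := Nat.find_min hex hj
      push Not at this
      exact this (by omega)
    refine ⟨_, e0.1, ?_, e1⟩
    have e2 := (h _ (h1 _ e1)).1
    have e3 : 32 * (S : ℤ) * (2 ^ Nat.find hex * X) < 0 :=
      mul_neg_of_pos_of_neg (by positivity) (mul_neg_of_pos_of_neg (by positivity) hx)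
    have e4 : (z (Nat.find hex) : ℤ) - 16 * S < 0 := by by_contra hn; nlinarith
    omega

theorem CF.neg {X : α → ℤ} {q : α → ℕ} {E : α → ℕ → ℕ} (hq : CU q)
    (hE : CF fun x : α × ℕ => E x.1 x.2) (hX : ∀ a, |X a| ≤ 2 ^ 2 ^ q a)
    (h : ∀ a p, p.Prime → 2 ^ q a < p → (E a p : ZMod p) = X a) : CF fun a => X a < 0 := by
  classical
  have hS : CF fun a => 4 ^ (q a + 6) + 1 := by fun_prop
  obtain ⟨co, hco, h2⟩ := CF.prodMod (p := fun x : α × ℕ => x.2) (N := fun x => 4 ^ (q x.1 + 6) + 1)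
    (f := fun x r => if (Nat.Prime r ∧ 2 ^ q x.1 < r) ∧ r ≠ x.2 then r else 1) (by fun_prop) (by fun_prop)
    (by fun_prop)
  set S := fun a => 4 ^ (q a + 6) + 1 with hSd
  set A := fun a k p => P337.pm 2 k p * E a p * P337.pm (co (a, p)) (p - 2) p with hA
  set z := fun a k => (∑ p ∈ range (S a), (if Nat.Prime p ∧ 2 ^ q a < p then A a k p * (32 * S a) / p else 0) +
    16 * S a) % (32 * S a) with hz
  have hz' : CF fun x : α × ℕ => z x.1 x.2 := by simp only [hz, hA]; fun_prop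
  have h3 : CF fun a => ExB (2 * S a) fun k => z a k ≤ 14 * S a ∧
      AllB k fun j => 14 * S a < z a j ∧ z a j < 18 * S a := by clear_value z S; fun_prop
  refine h3.iff fun a => sign_logic (M := (∏ p ∈ PrS (q a), p : ℕ)) (Nat.succ_pos _) ?_ ?_ ?_ _ fun k hk => ?_
  · exact Int.natCast_pos.2 (prod_pos fun p hp => (mem_filter.1 hp).2.1.pos)
  · rw [pow_mul]
    exact_mod_cast (prS_le _).trans (Nat.pow_le_pow_right (by norm_num) (Nat.le_succ _))
  · exact (mul_le_mul_of_nonneg_left (hX a) (by norm_num)).trans (by exact_mod_cast prS_ge (q a))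
  refine crt_window (PrS (q a)) (fun p hp => (mem_filter.1 hp).2.1) ((card_filter_le _ _).trans (card_range _).le)
    (Nat.succ_pos _) (A a k) (fun p hp => ?_) hk ?_
  · obtain ⟨hp1, hp2⟩ := (mem_filter.1 hp).2
    haveI := Fact.mk hp1
    have e1 : (co (a, p) : ZMod p) = (∏ r ∈ (PrS (q a)).erase p, r : ℕ) := by
      rw [h2 (a, p) hp1, ← Nat.cast_prod, ← prod_filter, ← filter_filter, filter_ne']
      rfl
    have e2 : (co (a, p) : ZMod p) ≠ 0 := by
      rw [e1, Ne, ZMod.natCast_eq_zero_iff, hp1.prime.dvd_finset_prod_iff]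
      rintro ⟨r, hr, h⟩
      exact (mem_erase.1 hr).1 ((Nat.prime_dvd_prime_iff_eq hp1
        (mem_filter.1 (mem_erase.1 hr).2).2.1).1 h).symm
    have e3 := ZMod.pow_card_sub_one_eq_one e2
    rw [Nat.cast_mul, ← e1, hA]
    simp only [Nat.cast_mul, pm_cast _ _ hp1, h a p hp1 hp2]
    rw [mul_assoc, ← pow_succ, show p - 2 + 1 = p - 1 by have := hp1.two_le; omega, e3]
    simp
  · rw [PrS, sum_filter]

end Vale.Agent.P337
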