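import Vale.Agent.P337.CH4
import Vale.Agent.P337.Bd

/-! Families of huge polynomials whose values modulo primes are computable in the hierarchy. -/

namespace Vale.Agent.P337

open Vale.Agent.PT Vale.Agent.P317 Finset MvPolynomial

variable {α β γ : Type} [Ctx Bool α] [Ctx Bool β] [Ctx Bool γ]

theorem sum_pow_pos (K : Type) [Field K] [Fintype K] {i : ℕ} (hi : i ≠ 0) :
    ∑ x : K, x ^ i = if Fintype.card K - 1 ∣ i then -1 else 0 := by
  classical
  let φ : Kˣ ↪ K := ⟨fun x ↦ x, Units.val_injective⟩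
  have : univ.map φ = univ \ {0} := by
    ext x
    simpa only [mem_map, mem_univ, Function.Embedding.coeFn_mk, true_and, mem_sdiff,
      mem_singleton, φ] using! isUnit_iff_ne_zero
  calc
    ∑ x : K, x ^ i = ∑ x ∈ univ \ {(0 : K)}, x ^ i := by
      rw [← sum_sdiff ({0} : Finset K).subset_univ, sum_singleton, zero_pow hi, add_zero]
    _ = ∑ x : Kˣ, (x ^ i : K) := by simp [φ, ← this, univ.sum_map φ]
    _ = _ := FiniteField.sum_pow_units K i

theorem ff_coeff {K : Type} [Field K] [Fintype K] {n N : ℕ} {Q : MvPolynomial (Fin n) K}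
    (hQ : Low (Fintype.card K - 1) Q) (hN : N < Fintype.card K - 1) :
    (-1) ^ n * ∑ c : Fin n → K, eval c Q * ∏ i, c i ^ (Fintype.card K - 1 - N) = coeff (cst n N) Q := by
  classical
  refine hQ.ind (p := fun Q => (-1) ^ n * ∑ c : Fin n → K, eval c Q *
    ∏ i, c i ^ (Fintype.card K - 1 - N) = coeff (cst n N) Q) (by simp) (fun x y hx hy => ?_) fun m a hm => ?_
  · simp only [map_add, add_mul, sum_add_distrib, mul_add, hx, hy, coeff_add]
  have e : ∀ i, ∑ x : K, x ^ (m i + (Fintype.card K - 1 - N)) = if m i = N then -1 else 0 := fun i => by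
    have := m.le_degree i
    rw [sum_pow_pos K (by omega)]
    congr 1
    refine propext ⟨fun ⟨k, hk⟩ => ?_, fun h => ⟨1, by omega⟩⟩
    have h1 : k < 2 := Nat.lt_of_mul_lt_mul_left (a := Fintype.card K - 1) (by omega)
    interval_cases k <;> omega
  simp only [eval_monomial, Finsupp.prod_fintype _ _ fun i => pow_zero _, mul_assoc, ← prod_mul_distrib,
    ← pow_add, ← mul_sum]
  rw [← Fintype.piFinset_univ, ← prod_univ_sum (fun _ => univ) fun i (x : K) =>
    x ^ (m i + (Fintype.card K - 1 - N)), coeff_monomial]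
  simp only [e]
  split_ifs with h
  · subst h
    simp only [cst_apply, if_true, prod_const, card_univ, Fintype.card_fin]
    rw [mul_left_comm, ← mul_pow]; simp
  · obtain ⟨i, hi⟩ : ∃ i, m i ≠ N := by
      by_contra h'
      push Not at h'
      exact h (Finsupp.ext h')
    rw [prod_eq_zero (mem_univ i) (if_neg hi)]; simp

theorem sum_dig {M : Type} [AddCommMonoid M] (B n : ℕ) (φ : (Fin n → ℕ) → M) :
    ∑ u ∈ range (B ^ n), φ (fun i => dig B i u) = ∑ f : Fin n → Fin B, φ fun i => f i := by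
  rw [sum_range, ← finFunctionFinEquiv.symm.sum_comp]
  exact sum_congr rfl fun u _ => congrArg φ (funext fun i => (finFunctionFinEquiv_symm_apply_val u i).symm)

theorem sum_dig_zmod {M : Type} [AddCommMonoid M] (p n : ℕ) [NeZero p] (φ : (Fin n → ZMod p) → M) :
    ∑ u ∈ range (p ^ n), φ (fun i => dig p i u) = ∑ c : Fin n → ZMod p, φ c := by
  rw [sum_dig p n fun f => φ fun i => f i]
  have h : Function.Bijective fun x : Fin p => ((x : ℕ) : ZMod p) :=
    (Fintype.bijective_iff_surjective_and_card _).2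
      ⟨fun y => ⟨⟨y.val, ZMod.val_lt y⟩, ZMod.natCast_zmod_val y⟩, by simp⟩
  exact Fintype.sum_bijective _ (Function.Bijective.comp_left (α := Fin n) h) _ _ fun _ => rfl

theorem CU.pb {f : α → ℕ} (h : CU f) : PB f (PT.size Bool) := h.2

def Bq (q : ℕ) (P : Pl) : Prop := Bd (2 ^ q) (2 ^ 2 ^ q) P

theorem Bq.mono {q q' : ℕ} {P : Pl} (h : Bq q P) (hq : q ≤ q') : Bq q' P :=
  Bd.mono h (Nat.pow_le_pow_right two_pos hq) (Nat.pow_le_pow_right two_pos (Nat.pow_le_pow_right two_pos hq))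

@[fun_prop] def Def (F : α → Pl) : Prop := ∃ q : α → ℕ, PB q (size Bool) ∧ (∀ a, Bq (q a) (F a)) ∧
  ∀ (δ : Type) [Ctx Bool δ] (a : δ → α) (p : δ → ℕ) (x : δ → ℕ → ℕ), CF a → CF p →
    (CF fun z : δ × ℕ => x z.1 z.2) → ∃ E : δ → ℕ, CF E ∧ ∀ d, (p d).Prime → 2 ^ q (a d) < p d →
      (E d : ZMod (p d)) = ev (fun i => (x d i : ZMod (p d))) (F (a d))

namespace Def

variable {F G : α → Pl} {f N : α → ℕ}

theorem congr (h : Def F) (e : ∀ a, F a = G a) : Def G := (funext e : F = G) ▸ h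

@[fun_prop] theorem comp {F : β → Pl} {g : α → β} (h : Def F) (hg : CF g) : Def fun a => F (g a) := by
  obtain ⟨q, h1, h2, h3⟩ := h
  exact ⟨fun a => q (g a), (h1.comp g).trans hg.1, fun a => h2 _, fun δ _ a p x ha hp hx =>
    h3 δ (fun d => g (a d)) p x (hg.comp ha) hp hx⟩

theorem ubound {F : α → ℕ → Pl} (h : Def fun x : α × ℕ => F x.1 x.2) (hN : CF N) :
    ∃ q : α → ℕ, CU q ∧ ∀ a y, y ≤ N a → Bq (q a) (F a y) := by
  obtain ⟨q, h1, h2, -⟩ := h
  obtain ⟨M, hM, h⟩ := unif h1 hN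
  exact ⟨M, hM, fun a y hy => (h2 (a, y)).mono (h a y hy)⟩

theorem bound (h : Def F) : ∃ q : α → ℕ, CU q ∧ ∀ a, Bq (q a) (F a) := by
  obtain ⟨q, h1, h2, -⟩ := h
  obtain ⟨M, hM, h⟩ := CU.ofPB h1
  exact ⟨M, hM, fun a => (h2 a).mono (h a)⟩

@[fun_prop] theorem X (hf : CF f) : Def fun a => (X (f a) : Pl) :=
  ⟨fun _ => 0, PB.const _ _, fun a => (Bd.X _).mono le_rfl (by norm_num), fun δ _ a p x ha hp hx =>
    ⟨fun d => x d (f (a d)), by fun_prop, fun d _ _ => by simp⟩⟩

@[fun_prop] theorem natCast (hf : CF f) : Def fun a => (f a : Pl) :=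
  ⟨fun a => (f a).size, (CU.size hf).2, fun a => (Bd.natCast _).mono (Nat.zero_le _)
    ((Nat.lt_size_self _).le.trans (Nat.pow_le_pow_right two_pos Nat.lt_two_pow_self.le)),
    fun δ _ a p x ha hp hx => ⟨fun d => f (a d), by fun_prop, fun d _ _ => by simp⟩⟩

@[fun_prop] theorem ite {c : α → Prop} {i : ∀ a, Decidable (c a)} (hc : CF c) (hF : Def F) (hG : Def G) :
    Def fun a => @ite _ (c a) (i a) (F a) (G a) := by
  obtain ⟨q, h1, h2, h3⟩ := hF
  obtain ⟨q', h1', h2', h3'⟩ := hG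
  refine ⟨fun a => q a + q' a, h1.add h1', fun a => ?_, fun δ _ a p x ha hp hx => ?_⟩
  · beta_reduce
    split_ifs
    · exact (h2 a).mono (by omega)
    · exact (h2' a).mono (by omega)
  obtain ⟨E, hE, h⟩ := h3 δ a p x ha hp hx
  obtain ⟨E', hE', h'⟩ := h3' δ a p x ha hp hx
  refine ⟨fun d => if c (a d) then E d else E' d, by fun_prop, fun d hd hq => ?_⟩
  beta_reduce
  split_ifs
  · exact h d hd (lt_of_le_of_lt (Nat.pow_le_pow_right two_pos (Nat.le_add_right _ _)) hq)
  · exact h' d hd (lt_of_le_of_lt (Nat.pow_le_pow_right two_pos (Nat.le_add_left _ _)) hq)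

@[fun_prop] theorem neg (hF : Def F) : Def fun a => -F a := by
  obtain ⟨q, h1, h2, h3⟩ := hF
  refine ⟨q, h1, fun a => Bd.neg (h2 a), fun δ _ a p x ha hp hx => ?_⟩
  obtain ⟨E, hE, h⟩ := h3 δ a p x ha hp hx
  refine ⟨fun d => (p d - 1) * E d, by fun_prop, fun d hd hq => ?_⟩
  simp [Nat.cast_sub hd.pos, h d hd hq]

@[fun_prop] theorem sum {F : α → ℕ → Pl} (hN : CF N) (hF : Def fun x : α × ℕ => F x.1 x.2) :
    Def fun a => ∑ y ∈ range (N a), F a y := by
  obtain ⟨q, h1, h2, h3⟩ := hF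
  obtain ⟨M, hM, hle⟩ := unif h1 hN
  refine ⟨fun a => (N a).size + M a + 1, CU.pb (by fun_prop), fun a => ?_, fun δ _ a p x ha hp hx => ?_⟩
  · refine (Bd.sum fun y hy => (h2 (a, y)).mono (hle a y (mem_range.1 hy).le)).mono
      (Nat.pow_le_pow_right two_pos (by simp only; omega)) ?_
    rw [card_range]
    refine (Nat.mul_le_mul_right _ (Nat.lt_size_self _).le).trans ?_
    rw [← pow_add]
    refine Nat.pow_le_pow_right two_pos ?_
    have e1 := (Nat.lt_two_pow_self (n := (N a).size)).le.trans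
      (Nat.pow_le_pow_right two_pos (Nat.le_add_right _ (M a)))
    have e2 := Nat.pow_le_pow_right two_pos (Nat.le_add_left (M a) (N a).size)
    rw [pow_succ]; omega
  obtain ⟨E, hE, h⟩ := h3 (δ × ℕ) (fun z => (a z.1, z.2)) (fun z => p z.1) (fun z => x z.1)
    (by fun_prop) (by fun_prop) (by fun_prop)
  refine ⟨fun d => ∑ y ∈ range (N (a d)), E (d, y), by fun_prop, fun d hd hq => ?_⟩
  rw [map_sum, Nat.cast_sum]
  refine sum_congr rfl fun y hy => h (d, y) hd (lt_of_le_of_lt (Nat.pow_le_pow_right two_pos ?_) hq)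
  have := hle (a d) y (mem_range.1 hy).le
  simp only; omega

@[fun_prop] theorem prod {F : α → ℕ → Pl} (hN : CF N) (hF : Def fun x : α × ℕ => F x.1 x.2) :
    Def fun a => ∏ y ∈ range (N a), F a y := by
  obtain ⟨q, h1, h2, h3⟩ := hF
  obtain ⟨M, hM, hle⟩ := unif h1 hN
  refine ⟨fun a => (N a).size + M a, CU.pb (by fun_prop), fun a => ?_, fun δ _ a p x ha hp hx => ?_⟩
  · have e : N a * 2 ^ M a ≤ 2 ^ ((N a).size + M a) := by
      rw [pow_add]; exact Nat.mul_le_mul_right _ (Nat.lt_size_self _).le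
    refine (Bd.prod fun y hy => (h2 (a, y)).mono (hle a y (mem_range.1 hy).le)).mono
      (by rwa [card_range]) ?_
    rw [card_range, ← pow_mul, mul_comm]
    exact Nat.pow_le_pow_right two_pos e
  obtain ⟨E, hE, h⟩ := h3 (δ × ℕ) (fun z => (a z.1, z.2)) (fun z => p z.1) (fun z => x z.1)
    (by fun_prop) (by fun_prop) (by fun_prop)
  obtain ⟨E', hE', h'⟩ := CF.prodMod (N := fun d => N (a d)) (f := fun d y => E (d, y)) hp (by fun_prop)
    (by fun_prop)
  refine ⟨E', hE', fun d hd hq => ?_⟩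
  rw [map_prod, h' d hd]
  refine prod_congr rfl fun y hy => h (d, y) hd (lt_of_le_of_lt (Nat.pow_le_pow_right two_pos ?_) hq)
  have := hle (a d) y (mem_range.1 hy).le
  simp only; omega

@[fun_prop] theorem add (hF : Def F) (hG : Def G) : Def fun a => F a + G a :=
  (sum (F := fun a y => if y = 0 then F a else G a) (CF.const 2) (by fun_prop)).congr fun a => by
    simp [sum_range_succ]

@[fun_prop] theorem mul (hF : Def F) (hG : Def G) : Def fun a => F a * G a :=
  (prod (F := fun a y => if y = 0 then F a else G a) (CF.const 2) (by fun_prop)).congr fun a => by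
    simp [prod_range_succ]

@[fun_prop] theorem sub (hF : Def F) (hG : Def G) : Def fun a => F a - G a :=
  (hF.add hG.neg).congr fun a => by ring

@[fun_prop] theorem pow (hF : Def F) (hN : CF N) : Def fun a => F a ^ N a :=
  (prod (F := fun a _ => F a) hN (by fun_prop)).congr fun a => by simp

@[fun_prop] theorem const (P : Pl) : Def fun _ : α => P := by
  induction P using MvPolynomial.induction_on with
  | C a =>
    rw [eq_intCast]
    obtain ⟨n, rfl | rfl⟩ := a.eq_nat_or_neg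
    · simpa using natCast (CF.const n)
    · simpa using (natCast (CF.const n)).neg
  | add p q hp hq => exact hp.add hq
  | mul_X p j hp => exact hp.mul (X (CF.const j))

@[fun_prop] theorem cf {lo n : α → ℕ} (hlo : CF lo) (hn : CU n) (hN : CF N) (hF : Def F) :
    Def fun a => cf (lo a) (n a) (N a) (F a) := by
  obtain ⟨q, h1, h2, h3⟩ := hF
  refine ⟨fun a => q a + (N a).size + 1, (h1.add (CU.size hN).2).add (PB.const _ _),
    fun a => Bq.mono (Bd.cf (h2 a) _ _ _) (by simp only; omega), fun δ _ a p x ha hp hx => ?_⟩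
  obtain ⟨E, hE, h⟩ := h3 (δ × ℕ) (fun z => a z.1) (fun z => p z.1) (fun z i =>
    if lo (a z.1) ≤ i ∧ i < lo (a z.1) + n (a z.1) then dig (p z.1) (i - lo (a z.1)) z.2 else x z.1 i)
    (by fun_prop) (by fun_prop) (by fun_prop)
  obtain ⟨E', hE', h'⟩ := CF.prodMod (p := fun z : δ × ℕ => p z.1) (N := fun z => n (a z.1))
    (f := fun z i => pm (dig (p z.1) i z.2) (p z.1 - 1 - N (a z.1)) (p z.1)) (by fun_prop) (by fun_prop)
    (by fun_prop)
  refine ⟨fun d => (p d - 1) ^ n (a d) * ∑ u ∈ range (p d ^ n (a d)), E (d, u) * E' (d, u), by fun_prop,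
    fun d hd hq => ?_⟩
  haveI := Fact.mk hd
  have e1 := Nat.pow_le_pow_right two_pos (Nat.le_add_right (q (a d)) (N (a d)).size)
  have e2 := Nat.pow_le_pow_right two_pos (Nat.le_add_left (N (a d)).size (q (a d)))
  have e3 := Nat.lt_size_self (N (a d))
  have e4 := Nat.two_pow_pos (q (a d))
  simp only [pow_succ] at hq
  rw [ev_cf, ← ff_coeff (((h2 (a d)).low.sp _ _ _).mono (by rw [ZMod.card]; omega)) (by rw [ZMod.card]; omega),
    ← sum_dig_zmod, ZMod.card]
  push_cast [Nat.cast_sub hd.pos]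
  rw [ZMod.natCast_self, zero_sub]
  congr 1
  refine sum_congr rfl fun u _ => ?_
  rw [h (d, u) hd (by simp only; omega), h' (d, u) hd, eval_sp, prod_range]
  simp only [pm_cast _ _ hd]
  congr 3
  funext j
  unfold blk
  split_ifs <;> rfl

theorem neg_iff (hF : Def F) : CF fun a => ev (0 : ℕ → ℤ) (F a) < 0 := by
  obtain ⟨q, h1, h2, h3⟩ := hF
  obtain ⟨M, hM, hle⟩ := CU.ofPB h1
  obtain ⟨E, hE, h⟩ := h3 (α × ℕ) Prod.fst Prod.snd (fun _ _ => 0) (by fun_prop) (by fun_prop) (by fun_prop)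
  refine CF.neg (E := fun a p => E (a, p)) hM hE (fun a => ?_) fun a p hp hq => ?_
  · exact_mod_cast ((h2 a).mono (hle a)).abs_ev
  · rw [h (a, p) hp (lt_of_le_of_lt (Nat.pow_le_pow_right two_pos (hle a)) hq), ← eq_intCast (Int.castRingHom _),
      hom_ev]
    simp

theorem pderiv (hF : Def F) (hf : CF f) : Def fun a => pderiv (f a) (F a) := by
  obtain ⟨q, hq, h⟩ := hF.bound
  have h1 : Def fun a => ∑ k ∈ range (2 ^ q a + 1),
      P337.cf (f a) 1 (k + 1) (F a) * ((k + 1 : ℕ) : Pl) * MvPolynomial.X (f a) ^ k := by fun_prop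
  refine h1.congr fun a => ?_
  rw [← ev_id (MvPolynomial.pderiv _ _), ev_pderiv, Polynomial.eval_eq_sum_range' (n := 2 ^ q a + 1)
    (Nat.lt_succ_of_le ((Polynomial.natDegree_derivative_le _).trans
      ((Nat.sub_le _ _).trans ((h a).low.uv _ _))))]
  refine sum_congr rfl fun k _ => ?_
  rw [Polynomial.coeff_derivative, ← ev_cf1, ev_id, Nat.cast_succ]

end Def

end Vale.Agent.P337
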