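import Mathlib

namespace Vale.Agent.P337

/-- A string function computed by a multi-stack Turing machine with finite alphabets in
polynomial time. -/
def PolyTime (f : List Bool → List Bool) : Prop :=
  ∃ h : Turing.TM2ComputableInPolyTime id id f, ∀ k, Finite (h.tm.Γ k)

/-- The class `P`. -/
def InP (L : Set (List Bool)) : Prop := ∃ f, PolyTime f ∧ ∀ x, x ∈ L ↔ f x = [true]

/-- Self-delimiting code of a string: its length in unary, a zero, the string. -/
def frame (x : List Bool) : List Bool := List.replicate x.length true ++ false :: x

open Classical in
/-- The answers of the oracle `A` in the first `t` rounds: in each round `ask` reads `w` followed by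
all previous answers and writes the next query. -/
noncomputable def answers (A : Set (List Bool)) (ask : List Bool → List Bool) (w : List Bool) :
    ℕ → List Bool
  | 0 => []
  | t + 1 => answers A ask w t ++ [decide (ask (w ++ answers A ask w t) ∈ A)]

/-- The oracle machine `(ask, out)` accepts the input `x` with the coin tosses `ρ`, after as many
rounds of queries to `A` as there are coin tosses. -/
def Accepts (A : Set (List Bool)) (ask out : List Bool → List Bool) (x ρ : List Bool) : Prop :=
  out (frame x ++ frame ρ ++ answers A ask (frame x ++ frame ρ) ρ.length) = [true]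

/-- `L` is in `PP` relative to the oracle `A`: a polynomial-time oracle machine with polynomially many
fair coins accepts `x` with probability more than one half exactly when `x ∈ L`. -/
def InPP (A L : Set (List Bool)) : Prop :=
  ∃ (ask out : List Bool → List Bool) (p : Polynomial ℕ), PolyTime ask ∧ PolyTime out ∧
    ∀ x, x ∈ L ↔ 2 ^ p.eval x.length <
      2 * {ρ : Fin (p.eval x.length) → Bool | Accepts A ask out x (List.ofFn ρ)}.ncard

/-- The levels of the counting hierarchy. -/
def Level : ℕ → Set (Set (List Bool))
  | 0 => {L | InP L}
  | j + 1 => {L | ∃ A ∈ Level j, InPP A L}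

/-- Value of a monomial (integer coefficient, list of exponents of `x 0, x 1, …`). -/
noncomputable def evalMono (x : ℕ → ℝ) (m : ℤ × List ℕ) : ℝ :=
  (m.1 : ℝ) * ∏ i ∈ Finset.range m.2.length, x i ^ m.2.getD i 0

/-- Value of a polynomial given as a list of monomials. -/
noncomputable def evalPoly (x : ℕ → ℝ) (p : List (ℤ × List ℕ)) : ℝ := (p.map (evalMono x)).sum

/-- Boolean formulas with atoms `p = 0` and `p > 0`. -/
inductive Formula : Type
  | eq (p : List (ℤ × List ℕ)) : Formula
  | pos (p : List (ℤ × List ℕ)) : Formula
  | and (φ ψ : Formula) : Formula
  | or (φ ψ : Formula) : Formula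
  | not (φ : Formula) : Formula

/-- Truth of a formula at a real point. -/
def holds (x : ℕ → ℝ) : Formula → Prop
  | .eq p => evalPoly x p = 0
  | .pos p => 0 < evalPoly x p
  | .and φ ψ => holds x φ ∧ holds x ψ
  | .or φ ψ => holds x φ ∨ holds x ψ
  | .not φ => ¬ holds x φ

/-- A monomial over the alphabet `0, …, 10`: the sign (`5` or `6`), the binary digits of the absolute
value of the coefficient (`7` and `8`), and each exponent in unary (`9`) closed by `10`. -/
def encMono (m : ℤ × List ℕ) : List ℕ :=
  (if m.1 < 0 then 6 else 5) :: (m.1.natAbs.bits.map fun b => if b then 8 else 7) ++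
    m.2.flatMap fun e => List.replicate e 9 ++ [10]

/-- A formula in Polish notation over the alphabet `0, …, 10`. -/
def encFormula : Formula → List ℕ
  | .and φ ψ => 0 :: (encFormula φ ++ encFormula ψ)
  | .or φ ψ => 1 :: (encFormula φ ++ encFormula ψ)
  | .not φ => 2 :: encFormula φ
  | .eq p => 3 :: p.flatMap encMono
  | .pos p => 4 :: p.flatMap encMono

/-- A letter as four bits. -/
def letter (k : ℕ) : List Bool := [k.testBit 0, k.testBit 1, k.testBit 2, k.testBit 3]

/-- The binary code of a sentence. -/
def code (φ : Formula) : List Bool := (encFormula φ).flatMap letter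

/-- The language of codes of true existential sentences over the reals. -/
def ETR : Set (List Bool) := {s | ∃ φ, s = code φ ∧ ∃ x : ℕ → ℝ, holds x φ}

end Vale.Agent.P337
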