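import Vale.Agent.P337.CH2
import Vale.Agent.P337.Defs

/-! The auxiliary hierarchy is contained in the counting hierarchy. -/

namespace Vale.Agent.P337

open Vale.Agent.PT Vale.Agent.P317 Finset

def un1 (u : List Bool) : List Bool := (rest u).take (lead u)

def un2 (u : List Bool) : List Bool := (rest u).drop (lead u)

theorem lead_frame (x y : List Bool) : lead (frame x ++ y) = x.length := by
  have : ∀ k z, lead (List.replicate k true ++ false :: z) = k := fun k z => by
    induction k with
    | zero => simp [lead]
    | succ k ih =>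
      simp only [lead, List.replicate_succ, List.cons_append, List.foldr_cons, cond_true] at ih ⊢
      rw [ih]
  rw [frame, List.append_assoc, List.cons_append, this]

theorem rest_frame (x y : List Bool) : rest (frame x ++ y) = x ++ y := by
  rw [rest, lead_frame, frame, List.append_assoc, List.cons_append,
    List.append_cons _ false (x ++ y)]
  exact List.drop_left' (by simp)

theorem un1_frame (x y : List Bool) : un1 (frame x ++ y) = x := by
  rw [un1, lead_frame, rest_frame, List.take_left]

theorem un2_frame (x y : List Bool) : un2 (frame x ++ y) = y := by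
  rw [un2, lead_frame, rest_frame, List.drop_left]

theorem poly_of_pt {f : List Bool → List Bool} (h : PT Bool f) : PolyTime f :=
  PT.toTM2 id id f h fun _ => rfl

open Classical in
theorem bit_answers (A : Set (List Bool)) (w : List Bool) (t : ℕ) :
    (answers A id w (t + 1)).head? = some (decide (w ∈ A)) := by
  induction t with
  | zero => simp [answers]
  | succ t ih => rw [answers, List.head?_append, ih]; rfl

theorem ncard_take {m M : ℕ} (h : m ≤ M) (R : ℕ → Prop) :
    {ρ : Fin M → Bool | R (valU ((List.ofFn ρ).take m))}.ncard * 2 ^ m = cnt (2 ^ m) R * 2 ^ M := by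
  classical
  obtain ⟨k, rfl⟩ := Nat.exists_eq_add_of_le h
  have h1 := Ex_eq_sum (m + k) fun l => if R (valU (l.take m)) then 1 else 0
  have h2 : Ex (m + k) (fun l => if R (valU (l.take m)) then (1 : ℝ) else 0) =
      Ex m fun l => if R (valU l) then 1 else 0 := by
    rw [Ex_append]
    refine Ex_congr fun l hl => ?_
    simp only [List.take_left' hl, Ex_const]
  rw [h2, Ex_val m fun v => if R v then 1 else 0] at h1
  have h3 : ({ρ : Fin (m + k) → Bool | R (valU ((List.ofFn ρ).take m))}.ncard : ℝ) =
      ∑ ρ : Fin (m + k) → Bool, if R (valU ((List.ofFn ρ).take m)) then 1 else 0 := by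
    rw [sum_boole, ← Set.ncard_coe_finset]
    congr 2
    ext ρ; simp
  have h4 : (cnt (2 ^ m) R : ℝ) = ∑ v ∈ range (2 ^ m), if R v then 1 else 0 := by
    rw [cnt_eq_sum]; push_cast; rfl
  have : ({ρ : Fin (m + k) → Bool | R (valU ((List.ofFn ρ).take m))}.ncard : ℝ) * 2 ^ m =
      cnt (2 ^ m) R * 2 ^ (m + k) := by
    rw [h3, h4, ← h1]; field_simp
  exact_mod_cast this

theorem lv_level (j : ℕ) : ∀ P : List Bool → Prop, Lv j (List Bool) P → {x | P x} ∈ Level j := by
  classical
  induction j with
  | zero =>
    intro P h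
    refine ⟨fun x => cond (decide (P x)) [true] [false],
      poly_of_pt (PT.cond' (pt_toBool h) (PT.const _) (PT.const _)), fun x => ?_⟩
    by_cases hp : P x <;> simp [hp]
  | succ j ih =>
    rintro P ⟨m, R, hm, hR, h⟩
    obtain ⟨c, d, hc⟩ := hm.pb
    have h1 : PT Bool un1 := by unfold un1; fun_prop
    have h2 : PT Bool un2 := by unfold un2; fun_prop
    have h3 : PT Bool fun u => (un1 u, Bin.mk (valU ((un1 (un2 u)).take (m (un1 u))))) :=
      h1.pair (pt_mk (by fun_prop))
    refine ⟨_, ih _ (hR.pre h3), id, fun u => cond (bit (un2 (un2 u)) 0) [true] [false],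
      Polynomial.C c * (Polynomial.X + 1) ^ d + 1, poly_of_pt PT.id', poly_of_pt (by fun_prop), fun x => ?_⟩
    have e : (Polynomial.C c * (Polynomial.X + 1) ^ d + 1).eval x.length = c * (x.length + 1) ^ d + 1 := by
      simp
    rw [e]
    have hle : m x ≤ c * (x.length + 1) ^ d + 1 := by
      have := hc x; rw [size_list] at this; omega
    have e2 := ncard_take hle fun y => R (x, Bin.mk y)
    have e3 : ∀ ρ : Fin (c * (x.length + 1) ^ d + 1) → Bool,
        Accepts {u | R (un1 u, Bin.mk (valU ((un1 (un2 u)).take (m (un1 u)))))} id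
          (fun u => cond (bit (un2 (un2 u)) 0) [true] [false]) x (List.ofFn ρ) ↔
        R (x, Bin.mk (valU ((List.ofFn ρ).take (m x)))) := fun ρ => by
      have e4 := bit_answers {u | R (un1 u, Bin.mk (valU ((un1 (un2 u)).take (m (un1 u)))))}
        (frame x ++ frame (List.ofFn ρ)) (c * (x.length + 1) ^ d)
      have e5 : un1 (frame (List.ofFn ρ)) = List.ofFn ρ := by
        simpa using un1_frame (List.ofFn ρ) []
      simp only [Set.mem_setOf_eq, un1_frame, un2_frame, e5] at e4
      rw [Accepts, List.append_assoc, un2_frame, un2_frame, List.length_ofFn, bit, List.getD_eq_getElem?_getD,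
        ← List.head?_eq_getElem?, e4]
      generalize List.ofFn ρ = l
      by_cases hr : R (x, Bin.mk (valU (l.take (m x)))) <;> simp [hr]
    simp only [e3, Set.mem_setOf_eq]
    rw [h, ← Nat.mul_lt_mul_right (Nat.two_pow_pos (c * (x.length + 1) ^ d + 1)), mul_assoc, ← e2,
      ← mul_assoc, mul_comm (2 ^ m x), Nat.mul_lt_mul_right (Nat.two_pow_pos _)]

theorem cf_level {P : List Bool → Prop} (h : CF P) : ∃ j, {x | P x} ∈ Level j :=
  let ⟨j, h⟩ := h.toCH; ⟨j, lv_level j P h⟩

end Vale.Agent.P337
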