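import Vale.Agent.P337.Bd
import Vale.Agent.P337.CH3
import Vale.Agent.P337.Defs

/-! Parsing codes of sentences. -/

namespace Vale.Agent.P337

open Vale.Agent.P317 Finset MvPolynomial

def syms : List Bool → List ℕ
  | a :: b :: c :: d :: s => (b2n a + 2 * b2n b + 4 * b2n c + 8 * b2n d) :: syms s
  | _ => []

theorem length_syms (s : List Bool) : (syms s).length = s.length / 4 := by
  induction s using syms.induct with
  | case1 a b c d s ih => simp only [syms, List.length_cons, ih]; omega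
  | case2 s h =>
    rcases s with _ | ⟨a, _ | ⟨b, _ | ⟨c, _ | ⟨d, s⟩⟩⟩⟩ <;> first | exact (h _ _ _ _ _ rfl).elim | simp [syms]

theorem getD_syms (s : List Bool) (i : ℕ) : (syms s).getD i 0 = if i < s.length / 4 then
    b2n (bit s (4 * i)) + 2 * b2n (bit s (4 * i + 1)) + 4 * b2n (bit s (4 * i + 2)) +
      8 * b2n (bit s (4 * i + 3)) else 0 := by
  induction s using syms.induct generalizing i with
  | case1 a b c d s ih =>
    cases i with
    | zero => rw [if_pos (by simp only [List.length_cons]; omega)]; rfl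
    | succ i =>
      rw [syms, List.getD_cons_succ, ih]
      exact if_congr (by simp only [List.length_cons]; omega) rfl rfl
  | case2 s h =>
    rcases s with _ | ⟨a, _ | ⟨b, _ | ⟨c, _ | ⟨d, s⟩⟩⟩⟩ <;> first | exact (h _ _ _ _ _ rfl).elim | simp [syms]

theorem syms_flatMap (t : List ℕ) (h : ∀ k ∈ t, k < 16) : syms (t.flatMap letter) = t := by
  induction t with
  | nil => rfl
  | cons k t ih =>
    have hk := h k List.mem_cons_self
    rw [List.flatMap_cons, letter]
    simp only [List.cons_append, List.nil_append, syms, ih fun j hj => h j (List.mem_cons_of_mem _ hj)]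
    interval_cases k <;> rfl

theorem flatMap_syms (s : List Bool) (h : s.length % 4 = 0) : (syms s).flatMap letter = s := by
  induction s using syms.induct with
  | case1 a b c d s ih =>
    rw [syms, List.flatMap_cons, ih (by simp only [List.length_cons] at h; omega)]
    cases a <;> cases b <;> cases c <;> cases d <;> rfl
  | case2 s h' =>
    rcases s with _ | ⟨a, _ | ⟨b, _ | ⟨c, _ | ⟨d, s⟩⟩⟩⟩ <;>
      first | exact (h' _ _ _ _ _ rfl).elim | rfl | simp at h

theorem length_letters (t : List ℕ) : (t.flatMap letter).length % 4 = 0 := by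
  induction t with
  | nil => rfl
  | cons k t ih => simp only [List.flatMap_cons, letter, List.length_append, List.length_cons, List.length_nil]; omega

def coef : List ℕ → ℕ
  | [] => 0
  | k :: t => if k = 7 then 2 * coef t else if k = 8 then 2 * coef t + 1 else 0

noncomputable def mon : ℕ → List ℕ → Pl
  | _, [] => 1
  | o, k :: t => if k = 9 then X o * mon o t else if k = 10 then mon (o + 1) t else
      if 7 ≤ k then mon o t else 1

noncomputable def poly : List ℕ → Pl
  | [] => 0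
  | k :: t => if k = 5 then coef t * mon 0 t + poly t else if k = 6 then -(coef t * mon 0 t) + poly t else
      if 5 ≤ k then poly t else 0

def ht : List ℕ → ℕ
  | [] => 0
  | k :: t => if k ≤ 1 then ht t - 1 else if k = 3 ∨ k = 4 then ht t + 1 else ht t

def st (σ : ℕ → ℕ) : List ℕ → ℕ
  | [] => 0
  | k :: t => if k = 0 then 2 * (st σ t / 4) + if st σ t % 2 = 1 ∧ st σ t / 2 % 2 = 1 then 1 else 0
      else if k = 1 then 2 * (st σ t / 4) + if st σ t % 2 = 1 ∨ st σ t / 2 % 2 = 1 then 1 else 0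
      else if k = 2 then 2 * (st σ t / 2) + if st σ t % 2 = 1 then 0 else 1
      else if k = 3 then 2 * st σ t + if σ t.length = 0 then 1 else 0
      else if k = 4 then 2 * st σ t + if σ t.length = 1 then 1 else 0 else st σ t

def ok (k hd h : ℕ) : Prop := (k ≤ 1 ∧ hd < 5 ∧ 2 ≤ h) ∨ (k = 2 ∧ hd < 5 ∧ 1 ≤ h) ∨
  ((k = 3 ∨ k = 4) ∧ hd < 7) ∨ k = 5 ∨ ((k = 6 ∨ k = 7) ∧ (hd = 7 ∨ hd = 8)) ∨ k = 8 ∨
  (k = 10 ∧ (hd < 7 ∨ 9 ≤ hd)) ∨ (k = 9 ∧ 9 ≤ hd)

def wf : List ℕ → Prop
  | [] => True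
  | k :: t => ok k (t.getD 0 0) (ht t) ∧ wf t

theorem coef_lt (t : List ℕ) : coef t < 2 ^ t.length := by
  induction t with
  | nil => simp [coef]
  | cons k t ih => rw [coef, List.length_cons, pow_succ]; split_ifs <;> omega

theorem ht_le (t : List ℕ) : ht t ≤ t.length := by
  induction t with
  | nil => simp [ht]
  | cons k t ih => rw [ht, List.length_cons]; split_ifs <;> omega

theorem st_lt (σ : ℕ → ℕ) (t : List ℕ) : st σ t < 2 ^ t.length := by
  induction t with
  | nil => simp [st]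
  | cons k t ih => rw [st, List.length_cons, pow_succ]; split_ifs <;> omega

theorem AllB_succ {N : ℕ} {P : ℕ → Prop} : AllB (N + 1) P ↔ P 0 ∧ AllB N fun i => P (i + 1) :=
  Nat.forall_lt_succ_left

theorem AllB_zero {P : ℕ → Prop} : AllB 0 P := fun _ h => absurd h (Nat.not_lt_zero _)

open Classical in
theorem cnt_succ (N : ℕ) (P : ℕ → Prop) :
    cnt (N + 1) P = cnt N (fun i => P (i + 1)) + if P 0 then 1 else 0 := by
  rw [cnt_eq_sum, cnt_eq_sum, sum_range_succ']

theorem wf_iff (t : List ℕ) :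
    wf t ↔ AllB t.length fun v => ok (t.getD v 0) (t.getD (v + 1) 0) (ht (t.drop (v + 1))) := by
  induction t with
  | nil => simp [wf, AllB_zero]
  | cons k t ih => simp only [wf, List.length_cons, AllB_succ, ih]; rfl

open Classical in
theorem mon_eq (t : List ℕ) : ∀ o N, t.length ≤ N → mon o t = ∏ i ∈ range N,
    if (AllB i fun j => 7 ≤ t.getD j 0) ∧ t.getD i 0 = 9 then X (o + cnt i fun j => t.getD j 0 = 10)
    else 1 := by
  induction t with
  | nil => intro o N _; simp [mon]
  | cons k t ih =>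
    intro o N hN
    obtain ⟨N, rfl⟩ := Nat.exists_eq_add_one_of_ne_zero (n := N) (by rintro rfl; simp at hN)
    replace hN : t.length ≤ N := by simpa using hN
    rw [mon, prod_range_succ']
    simp only [AllB_succ, cnt_succ, List.getD_cons_succ, List.getD_cons_zero, AllB_zero, true_and]
    by_cases h1 : k = 9
    · subst h1; rw [ih o N hN, mul_comm]; simp [cnt]
    by_cases h2 : k = 10
    · subst h2; rw [ih (o + 1) N hN]; simp [add_assoc, add_comm 1]
    by_cases h3 : 7 ≤ k
    · rw [ih o N hN]; simp [h1, h2, h3]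
    · simp [h1, h2, h3]

open Classical in
theorem poly_eq (t : List ℕ) : ∀ N, t.length ≤ N → poly t = ∑ v ∈ range N,
    if AllB v fun j => 5 ≤ t.getD j 0 then
      if t.getD v 0 = 5 then (coef (t.drop (v + 1)) : Pl) * mon 0 (t.drop (v + 1)) else
      if t.getD v 0 = 6 then -((coef (t.drop (v + 1)) : Pl) * mon 0 (t.drop (v + 1))) else 0 else 0 := by
  induction t with
  | nil => intro N _; simp [poly]
  | cons k t ih =>
    intro N hN
    obtain ⟨N, rfl⟩ := Nat.exists_eq_add_one_of_ne_zero (n := N) (by rintro rfl; simp at hN)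
    have hN : t.length ≤ N := by simpa using hN
    rw [poly, sum_range_succ', ih N hN]
    simp only [AllB_succ, List.getD_cons_succ, List.getD_cons_zero, AllB_zero, if_true, List.drop_succ_cons,
      List.drop_zero]
    split_ifs with h1 h2 h3
    · subst h1; simp [add_comm]
    · subst h2; simp [add_comm]
    · simp [h3]
    · simp [h3]

theorem low_mon (t : List ℕ) : ∀ o, Low (t.length + 1) (mon o t) := by
  induction t with
  | nil => exact fun _ => Low.one
  | cons k t ih =>
    intro o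
    rw [mon, List.length_cons]
    split_ifs
    · exact ((Low.X o).mul (ih o)).mono (by omega)
    · exact (ih _).mono (by omega)
    · exact (ih _).mono (by omega)
    · exact Low.one.mono (by omega)

theorem low_poly (t : List ℕ) : Low (t.length + 1) (poly t) := by
  induction t with
  | nil => exact Low.zero
  | cons k t ih =>
    have h : Low (t.length + 1) ((coef t : Pl) * mon 0 t) := by
      rw [← map_natCast (C : ℤ →+* Pl)]
      exact ((Low.C _).mul (low_mon t 0)).mono (by omega)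
    rw [poly, List.length_cons]
    split_ifs
    · exact (h.add ih).mono (by omega)
    · exact (h.neg.add ih).mono (by omega)
    · exact ih.mono (by omega)
    · exact Low.zero

theorem ev_mon_congr {θ θ' : ℕ → ℝ} (t : List ℕ) : ∀ o, (∀ j < o + t.length, θ j = θ' j) →
    ev θ (mon o t) = ev θ' (mon o t) := by
  induction t with
  | nil => simp [mon]
  | cons k t ih =>
    intro o h
    rw [List.length_cons] at h
    rw [mon]
    split_ifs
    · rw [map_mul, map_mul, ev_X, ev_X, h o (by omega), ih o fun j hj => h j (by omega)]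
    · exact ih _ fun j hj => h j (by omega)
    · exact ih _ fun j hj => h j (by omega)
    · simp

theorem ev_poly_congr {θ θ' : ℕ → ℝ} (t : List ℕ) (h : ∀ j < t.length, θ j = θ' j) :
    ev θ (poly t) = ev θ' (poly t) := by
  induction t with
  | nil => simp [poly]
  | cons k t ih =>
    rw [List.length_cons] at h
    have h1 := ih fun j hj => h j (by omega)
    have h2 := ev_mon_congr t 0 fun j hj => h j (by omega)
    rw [poly]
    split_ifs <;> simp [h1, h2]

def encE (es : List ℕ) : List ℕ := es.flatMap fun e => List.replicate e 9 ++ [10]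

def encB (l : List Bool) : List ℕ := l.map fun b => if b then 8 else 7

theorem encMono_eq (m : ℤ × List ℕ) (t : List ℕ) :
    encMono m ++ t = (if m.1 < 0 then 6 else 5) :: (encB m.1.natAbs.bits ++ (encE m.2 ++ t)) := by
  simp [encMono, encE, encB]

theorem encE_cons (e : ℕ) (es t : List ℕ) :
    encE (e :: es) ++ t = List.replicate e 9 ++ 10 :: (encE es ++ t) := by simp [encE]

/-! soundness of the well-formedness test -/

def S0 (h : ℕ) (t : List ℕ) : Prop := ∃ Φ : List Formula, Φ.length = h ∧ t = Φ.flatMap encFormula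

def S1 (h : ℕ) (t : List ℕ) : Prop := ∃ (p : List (ℤ × List ℕ)) (u : List ℕ), S0 h u ∧ t = p.flatMap encMono ++ u

def S2 (h : ℕ) (t : List ℕ) : Prop := ∃ es u, S1 h u ∧ t = encE es ++ u

def S3 (h : ℕ) (t : List ℕ) : Prop := ∃ e u, S2 h u ∧ t = List.replicate e 9 ++ 10 :: u

def S4 (h : ℕ) (t : List ℕ) : Prop := ∃ (n : ℕ) (u : List ℕ), n ≠ 0 ∧ S2 h u ∧ t = encB n.bits ++ u

theorem S0.s1 {h : ℕ} {t : List ℕ} (H : S0 h t) : S1 h t := ⟨[], t, H, rfl⟩

theorem S1.s2 {h : ℕ} {t : List ℕ} (H : S1 h t) : S2 h t := ⟨[], t, H, rfl⟩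

theorem S3.s2 {h : ℕ} {t : List ℕ} : S3 h t → S2 h t := by
  rintro ⟨e, _, ⟨es, u, H, rfl⟩, rfl⟩
  exact ⟨e :: es, u, H, (encE_cons _ _ _).symm⟩

theorem S2.sign {h : ℕ} {u : List ℕ} (H : S2 h u) (c : ℤ) :
    S1 h ((if c < 0 then 6 else 5) :: (encB c.natAbs.bits ++ u)) := by
  obtain ⟨es, _, ⟨p, u, H, rfl⟩, rfl⟩ := H
  exact ⟨(c, es) :: p, u, H, by rw [List.flatMap_cons, List.append_assoc, encMono_eq]⟩

theorem wf_sound (t : List ℕ) (h : wf t) : (t.getD 0 0 < 5 → S0 (ht t) t) ∧ (t.getD 0 0 < 7 → S1 (ht t) t) ∧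
    (t.getD 0 0 < 7 ∨ 9 ≤ t.getD 0 0 → S2 (ht t) t) ∧ (9 ≤ t.getD 0 0 → S3 (ht t) t) ∧
    (t.getD 0 0 = 7 ∨ t.getD 0 0 = 8 → S4 (ht t) t) := by
  induction t with
  | nil =>
    have : S0 0 [] := ⟨[], rfl, rfl⟩
    exact ⟨fun _ => this, fun _ => this.s1, fun _ => this.s1.s2, by simp, by simp⟩
  | cons k t ih =>
    obtain ⟨i0, i1, i2, i3, i4⟩ := ih h.2
    have i5 : ∃ (n : ℕ) (u : List ℕ), S2 (ht t) u ∧ t = encB n.bits ++ u := by
      by_cases h' : t.getD 0 0 = 7 ∨ t.getD 0 0 = 8
      · obtain ⟨n, u, -, h⟩ := i4 h'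
        exact ⟨n, u, h⟩
      · exact ⟨0, t, i2 (by omega), rfl⟩
    rw [List.getD_cons_zero]
    have q0 : k < 5 → S0 (ht (k :: t)) (k :: t) → _ := fun a b => (⟨fun _ => b, fun _ => b.s1,
      fun _ => b.s1.s2, by omega, by omega⟩ : (k < 5 → S0 (ht (k :: t)) (k :: t)) ∧
        (k < 7 → S1 (ht (k :: t)) (k :: t)) ∧ (k < 7 ∨ 9 ≤ k → S2 (ht (k :: t)) (k :: t)) ∧
        (9 ≤ k → S3 (ht (k :: t)) (k :: t)) ∧ (k = 7 ∨ k = 8 → S4 (ht (k :: t)) (k :: t)))
    rcases h.1 with ⟨a, b, c⟩ | ⟨rfl, b, c⟩ | ⟨a, b⟩ | rfl | ⟨rfl | rfl, b⟩ | rfl | ⟨rfl, b⟩ | ⟨rfl, b⟩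
    · obtain ⟨Φ, e1, e2⟩ := i0 b
      obtain _ | ⟨φ, _ | ⟨ψ, Φ⟩⟩ := Φ <;> simp only [List.length_cons, List.length_nil] at e1 <;> try omega
      refine q0 (by omega) ?_
      rw [ht, if_pos a]
      interval_cases k
      · exact ⟨.and φ ψ :: Φ, by simp; omega, by simp [e2, encFormula]⟩
      · exact ⟨.or φ ψ :: Φ, by simp; omega, by simp [e2, encFormula]⟩
    · obtain ⟨Φ, e1, e2⟩ := i0 b
      obtain _ | ⟨φ, Φ⟩ := Φ <;> simp only [List.length_cons, List.length_nil] at e1 <;> try omega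
      exact q0 (by omega) ⟨.not φ :: Φ, by simpa [ht], by simp [e2, encFormula]⟩
    · obtain ⟨p, _, ⟨Φ, e1, rfl⟩, e2⟩ := i1 b
      refine q0 (by omega) ?_
      rcases a with rfl | rfl
      · exact ⟨.eq p :: Φ, by simpa [ht], by simp [e2, encFormula]⟩
      · exact ⟨.pos p :: Φ, by simpa [ht], by simp [e2, encFormula]⟩
    · obtain ⟨n, u, e1, e2⟩ := i5
      have : S1 (ht (5 :: t)) (5 :: t) := by
        simpa [ht, ← e2, not_lt.2 (Int.natCast_nonneg n)] using e1.sign n
      exact ⟨by omega, fun _ => this, fun _ => this.s2, by omega, by omega⟩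
    · obtain ⟨n, u, e0, e1, e2⟩ := i4 b
      have : S1 (ht (6 :: t)) (6 :: t) := by
        simpa [ht, ← e2, Nat.pos_of_ne_zero e0] using e1.sign (-n)
      exact ⟨by omega, fun _ => this, fun _ => this.s2, by omega, by omega⟩
    · obtain ⟨n, u, e0, e1, e2⟩ := i4 b
      refine ⟨by omega, by omega, by omega, by omega, fun _ => ⟨Nat.bit false n, u, by simpa [Nat.bit],
        by simpa [ht], ?_⟩⟩
      rw [Nat.bits_append_bit _ _ fun h => absurd h e0, e2]; rfl
    · obtain ⟨n, u, e1, e2⟩ := i5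
      refine ⟨by omega, by omega, by omega, by omega, fun _ => ⟨Nat.bit true n, u, by simp [Nat.bit],
        by simpa [ht], ?_⟩⟩
      rw [Nat.bits_append_bit _ _ fun _ => rfl, e2]; rfl
    · have : S3 (ht (10 :: t)) (10 :: t) := ⟨0, t, by simpa [ht] using i2 b, rfl⟩
      exact ⟨by omega, by omega, fun _ => this.s2, fun _ => this, by omega⟩
    · obtain ⟨e, u, e1, e2⟩ := i3 b
      have : S3 (ht (9 :: t)) (9 :: t) := ⟨e + 1, u, by simpa [ht], by rw [e2]; rfl⟩
      exact ⟨by omega, by omega, fun _ => this.s2, fun _ => this, by omega⟩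

/-! completeness and semantics -/

theorem encE_spec (x : ℕ → ℝ) (es : List ℕ) {t : List ℕ} (h : t.getD 0 0 < 7) :
    ((encE es ++ t).getD 0 0 < 7 ∨ 9 ≤ (encE es ++ t).getD 0 0) ∧ (wf t → wf (encE es ++ t)) ∧
      poly (encE es ++ t) = poly t ∧
      ∀ o, ev x (mon o (encE es ++ t)) = ∏ i ∈ range es.length, x (o + i) ^ es.getD i 0 := by
  induction es with
  | nil =>
    refine ⟨Or.inl h, id, rfl, fun o => ?_⟩
    cases t with
    | nil => simp [mon, encE]
    | cons k t =>
      rw [List.getD_cons_zero] at h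
      simp [encE, mon, show k ≠ 9 by omega, show k ≠ 10 by omega, show ¬ 7 ≤ k by omega]
  | cons e es ih =>
    obtain ⟨i1, i2, i3, i4⟩ := ih
    rw [encE_cons]
    have : 9 ≤ (List.replicate e 9 ++ 10 :: (encE es ++ t)).getD 0 0 ∧
        (wf t → wf (List.replicate e 9 ++ 10 :: (encE es ++ t))) ∧
        poly (List.replicate e 9 ++ 10 :: (encE es ++ t)) = poly t ∧
        ∀ o, ev x (mon o (List.replicate e 9 ++ 10 :: (encE es ++ t))) =
          x o ^ e * ev x (mon (o + 1) (encE es ++ t)) := by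
      induction e with
      | zero => exact ⟨by simp, fun h => ⟨by unfold ok; omega, i2 h⟩, by simpa [poly], by simp [mon]⟩
      | succ e ih =>
        obtain ⟨j1, j2, j3, j4⟩ := ih
        rw [List.replicate_succ, List.cons_append]
        exact ⟨by simp, fun h => ⟨by unfold ok; omega, j2 h⟩, by simpa [poly],
          fun o => by simp [mon, j4, pow_succ', mul_assoc]⟩
    refine ⟨Or.inr this.1, this.2.1, this.2.2.1, fun o => ?_⟩
    rw [this.2.2.2, i4, List.length_cons, prod_range_succ', mul_comm]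
    simp [add_assoc, add_comm 1]

theorem encB_spec (n : ℕ) {t : List ℕ} (h : t.getD 0 0 < 7 ∨ 9 ≤ t.getD 0 0) :
    (n ≠ 0 → (encB n.bits ++ t).getD 0 0 = 7 ∨ (encB n.bits ++ t).getD 0 0 = 8) ∧
      (wf t → wf (encB n.bits ++ t)) ∧ poly (encB n.bits ++ t) = poly t ∧ coef (encB n.bits ++ t) = n ∧
      mon 0 (encB n.bits ++ t) = mon 0 t := by
  induction n using Nat.binaryRec' with
  | zero =>
    refine ⟨by simp, id, rfl, ?_, rfl⟩
    cases t with
    | nil => rfl
    | cons k t =>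
      rw [List.getD_cons_zero] at h
      simp [encB, coef, show k ≠ 7 by omega, show k ≠ 8 by omega]
  | bit b n hb ih =>
    obtain ⟨i1, i2, i3, i4, i5⟩ := ih
    rw [Nat.bits_append_bit n b hb]
    cases b
    · have := i1 fun h => by simpa using hb h
      exact ⟨fun _ => Or.inl rfl, fun h => ⟨by unfold ok; exact Or.inr (Or.inr (Or.inr (Or.inr (Or.inl
        ⟨Or.inr rfl, this⟩)))), i2 h⟩, i3, congrArg (2 * ·) i4, i5⟩
    · exact ⟨fun _ => Or.inr rfl, fun h => ⟨by unfold ok; simp, i2 h⟩, i3, congrArg (2 * · + 1) i4, i5⟩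

theorem encP_spec (x : ℕ → ℝ) (p : List (ℤ × List ℕ)) {t : List ℕ} (h : t.getD 0 0 < 5) :
    (p.flatMap encMono ++ t).getD 0 0 < 7 ∧ (wf t → wf (p.flatMap encMono ++ t)) ∧
      ev x (poly (p.flatMap encMono ++ t)) = evalPoly x p := by
  induction p with
  | nil =>
    refine ⟨by simp only [List.flatMap_nil, List.nil_append]; omega, id, ?_⟩
    cases t with
    | nil => simp [poly, evalPoly]
    | cons k t =>
      rw [List.getD_cons_zero] at h
      simp [evalPoly, poly, show k ≠ 5 by omega, show k ≠ 6 by omega, show ¬ 5 ≤ k by omega]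
  | cons m p ih =>
    obtain ⟨i1, i2, i3⟩ := ih
    obtain ⟨j1, j2, j3, j4⟩ := encE_spec x m.2 i1
    obtain ⟨k1, k2, k3, k4, k5⟩ := encB_spec m.1.natAbs j1
    rw [List.flatMap_cons, List.append_assoc, encMono_eq, evalPoly, List.map_cons, List.sum_cons, ← evalPoly,
      evalMono]
    split_ifs with hm
    · have := k1 (by omega)
      refine ⟨by simp, fun h => ⟨by unfold ok; omega, k2 (j2 (i2 h))⟩, ?_⟩
      simp [poly, k3, k4, k5, j3, j4, i3, abs_of_neg (Int.cast_lt_zero.2 hm : (m.1 : ℝ) < 0)]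
    · refine ⟨by simp, fun h => ⟨by unfold ok; omega, k2 (j2 (i2 h))⟩, ?_⟩
      simp [poly, k3, k4, k5, j3, j4, i3, abs_of_nonneg (Int.cast_nonneg (not_lt.1 hm) : (0 : ℝ) ≤ m.1)]

theorem mem_encP {p : List (ℤ × List ℕ)} {k : ℕ} (h : k ∈ p.flatMap encMono) : 5 ≤ k ∧ k < 16 := by
  simp only [encMono, List.mem_flatMap, List.mem_append, List.mem_cons, List.mem_map, List.mem_replicate,
    List.not_mem_nil, or_false] at h
  obtain ⟨m, -, (rfl | ⟨b, -, rfl⟩) | ⟨e, -, ⟨-, rfl⟩ | rfl⟩⟩ := h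
  · split_ifs <;> omega
  · split_ifs <;> omega
  · omega
  · omega

theorem pass (σ : ℕ → ℕ) {u : List ℕ} (h : ∀ k ∈ u, 5 ≤ k ∧ k < 16) (t : List ℕ) :
    st σ (u ++ t) = st σ t ∧ ht (u ++ t) = ht t := by
  induction u with
  | nil => exact ⟨rfl, rfl⟩
  | cons k u ih =>
    have h1 := (h k List.mem_cons_self).1
    obtain ⟨i1, i2⟩ := ih fun j hj => h j (List.mem_cons_of_mem _ hj)
    rw [List.cons_append, st, ht, i1, i2]
    split_ifs <;> omega

theorem mem_encF {k : ℕ} (φ : Formula) (h : k ∈ encFormula φ) : k < 16 := by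
  induction φ with
  | eq p | pos p => exact (List.mem_cons.1 h).elim (by omega) fun h => (mem_encP h).2
  | and φ ψ i1 i2 | or φ ψ i1 i2 =>
    exact (List.mem_cons.1 h).elim (by omega) fun h => (List.mem_append.1 h).elim i1 i2
  | not φ i1 => exact (List.mem_cons.1 h).elim (by omega) i1

theorem encF_wf (φ : Formula) : ∀ {t : List ℕ}, t.getD 0 0 < 5 → wf t →
    (encFormula φ ++ t).getD 0 0 < 5 ∧ wf (encFormula φ ++ t) ∧ ht (encFormula φ ++ t) = ht t + 1 := by
  induction φ with
  | eq p | pos p =>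
    intro t h1 h2
    obtain ⟨i1, i2, -⟩ := encP_spec 0 p h1
    rw [encFormula, List.cons_append]
    exact ⟨by simp, ⟨by unfold ok; omega, i2 h2⟩, by simp [ht, (pass 0 (fun _ => mem_encP) t).2]⟩
  | and φ ψ i1 i2 | or φ ψ i1 i2 =>
    intro t h1 h2
    obtain ⟨j1, j2, j3⟩ := i2 h1 h2
    obtain ⟨k1, k2, k3⟩ := i1 j1 j2
    rw [encFormula, List.cons_append, List.append_assoc]
    exact ⟨by simp, ⟨by unfold ok; omega, k2⟩, by simp [ht, k3, j3]⟩
  | not φ i1 =>
    intro t h1 h2
    obtain ⟨k1, k2, k3⟩ := i1 h1 h2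
    rw [encFormula, List.cons_append]
    exact ⟨by simp, ⟨by unfold ok; omega, k2⟩, by simp [ht, k3]⟩

theorem encF_head (φ : Formula) (t : List ℕ) : (encFormula φ ++ t).getD 0 0 < 5 := by
  cases φ <;> simp [encFormula]

open Classical in
theorem encF_st {σ : ℕ → ℕ} {x : ℕ → ℝ} {T : List ℕ} (H : ∀ k u, k :: u <:+ T →
    (σ u.length = 0 ↔ ev x (poly u) = 0) ∧ (σ u.length = 1 ↔ 0 < ev x (poly u))) (φ : Formula) :
    ∀ {t : List ℕ}, encFormula φ ++ t <:+ T → t.getD 0 0 < 5 →
      st σ (encFormula φ ++ t) = 2 * st σ t + if holds x φ then 1 else 0 := by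
  induction φ with
  | eq p | pos p =>
    intro t h1 h2
    rw [encFormula, List.cons_append] at h1 ⊢
    obtain ⟨j1, j2⟩ := H _ _ h1
    rw [(encP_spec x p h2).2.2] at j1 j2
    rw [st]
    simp only [j1, j2, (pass σ (fun _ => mem_encP) t).1, holds]
    simp
    congr
  | and φ ψ i1 i2 | or φ ψ i1 i2 =>
    intro t h1 h2
    rw [encFormula, List.cons_append, List.append_assoc] at h1 ⊢
    have h3 := (List.suffix_cons _ _).trans h1
    rw [st, i1 h3 (encF_head _ _), i2 ((List.suffix_append _ _).trans h3) h2, holds]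
    by_cases a : holds x φ <;> by_cases b : holds x ψ <;> simp [a, b] <;> (try split_ifs) <;> omega
  | not φ i1 =>
    intro t h1 h2
    rw [encFormula, List.cons_append] at h1 ⊢
    rw [st, i1 ((List.suffix_cons _ _).trans h1) h2, holds]
    by_cases a : holds x φ <;> simp [a] <;> omega

end Vale.Agent.P337
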