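import Vale.Agent.P337.Zero
import Vale.Agent.P337.Parse
import Vale.Agent.P337.Emb

/-! The existential theory of the reals is in the counting hierarchy. -/

namespace Vale.Agent.P337

open Vale.Agent.PT Vale.Agent.P317 Finset MvPolynomial

variable {α δ : Type} [Ctx Bool α] [Ctx Bool δ] {l : α → List Bool} {v : α → ℕ}

def sy (s : List Bool) (i : ℕ) : ℕ := (syms s).getD i 0

def suf (s : List Bool) (v : ℕ) : List ℕ := (syms s).drop v

theorem getD_suf (s : List Bool) (v i : ℕ) : (suf s v).getD i 0 = sy s (v + i) := by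
  simp [suf, sy]

theorem drop_suf (s : List Bool) (v i : ℕ) : (suf s v).drop i = suf s (v + i) := by
  simp [suf]

theorem length_suf (s : List Bool) (v : ℕ) : (suf s v).length = s.length / 4 - v := by
  simp [suf, length_syms]

@[fun_prop] theorem CF.length (hl : CF l) : CF fun a => (l a).length := (CU.length hl).cf

@[fun_prop] theorem CF.sy (hl : CF l) (hv : CF v) : CF fun a => sy (l a) (v a) := by
  have h : ∀ {f : α → ℕ}, CF f → CF fun a => b2n (P317.bit (l a) (f a)) := fun {f} hf =>
    (CF.cond (CF.bit hl hf) (const 1) (const 0)).congr fun a => by cases P317.bit (l a) (f a) <;> rfl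
  simp only [P337.sy, getD_syms]
  have h0 := h (f := fun a => 4 * v a) (by fun_prop)
  have h1 := h (f := fun a => 4 * v a + 1) (by fun_prop)
  have h2 := h (f := fun a => 4 * v a + 2) (by fun_prop)
  have h3 := h (f := fun a => 4 * v a + 3) (by fun_prop)
  exact CF.cond (by fun_prop) (((h0.add ((const 2).mul h1)).add ((const 4).mul h2)).add ((const 8).mul h3))
    (const 0)

theorem CF.foldr (hl : CF l) (hv : CF v) (F : α → List ℕ → ℕ) (h0 : ∀ a, F a [] = 0)
    (H : α × ℕ × ℕ × ℕ → ℕ) (hH : CF H) (hF : ∀ a k t, F a (k :: t) = H (a, k, t.length, F a t))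
    (hb : ∀ a t, F a t ≤ 2 ^ t.length) : CF fun a => F a (suf (l a) (v a)) := by
  have := CF.iter (m := fun a => (l a).length / 4 - v a) (by fun_prop)
    (fun a i => F a (suf (l a) ((l a).length / 4 - i)))
    ((const 0).congr fun a => by rw [List.length_eq_zero_iff.1 (show (suf _ _).length = 0 by
      rw [length_suf]; omega), h0])
    (fun x => H (x.1, P337.sy (l x.1) ((l x.1).length / 4 - (x.2.1 + 1)), x.2.1, x.2.2)) (by fun_prop)
    (fun a i hi => ?_) (N := fun a => 2 ^ (l a).length) (by fun_prop)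
    fun a i _ => (hb _ _).trans (Nat.pow_le_pow_right two_pos (by rw [length_suf]; omega))
  · refine this.congr fun a => ?_
    rcases le_total (v a) ((l a).length / 4) with h | h
    · rw [Nat.sub_sub_self h]
    · rw [List.length_eq_zero_iff.1 (show (suf _ _).length = 0 by rw [length_suf]; omega),
        List.length_eq_zero_iff.1 (show (suf _ (v a)).length = 0 by rw [length_suf]; omega)]
  · have h1 : (l a).length / 4 - (i + 1) < (syms (l a)).length := by rw [length_syms]; omega
    have h2 : (l a).length / 4 - (i + 1) + 1 = (l a).length / 4 - i := by omega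
    simp only [suf, P337.sy]
    rw [List.drop_eq_getElem_cons h1, hF, h2, List.getD_eq_getElem _ _ h1, List.length_drop, length_syms]
    congr 4
    omega

@[fun_prop] theorem CF.coef (hl : CF l) (hv : CF v) : CF fun a => coef (suf (l a) (v a)) :=
  CF.foldr hl hv (fun _ => P337.coef) (fun _ => rfl)
    (fun x => if x.2.1 = 7 then 2 * x.2.2.2 else if x.2.1 = 8 then 2 * x.2.2.2 + 1 else 0) (by fun_prop)
    (fun _ _ _ => rfl) fun _ t => (coef_lt t).le

@[fun_prop] theorem CF.ht (hl : CF l) (hv : CF v) : CF fun a => ht (suf (l a) (v a)) :=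
  CF.foldr hl hv (fun _ => P337.ht) (fun _ => rfl)
    (fun x => if x.2.1 ≤ 1 then x.2.2.2 - 1 else if x.2.1 = 3 ∨ x.2.1 = 4 then x.2.2.2 + 1 else x.2.2.2)
    (by fun_prop) (fun _ _ _ => rfl) fun _ t => (ht_le t).trans Nat.lt_two_pow_self.le

theorem CF.st (hl : CF l) (hv : CF v) : CF fun a => st (fun i => P337.dig 3 i (v a)) (suf (l a) 0) :=
  CF.foldr hl (const 0) (fun a => P337.st fun i => P337.dig 3 i (v a)) (fun _ => rfl)
    (fun x => if x.2.1 = 0 then 2 * (x.2.2.2 / 4) + if x.2.2.2 % 2 = 1 ∧ x.2.2.2 / 2 % 2 = 1 then 1 else 0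
      else if x.2.1 = 1 then 2 * (x.2.2.2 / 4) + if x.2.2.2 % 2 = 1 ∨ x.2.2.2 / 2 % 2 = 1 then 1 else 0
      else if x.2.1 = 2 then 2 * (x.2.2.2 / 2) + if x.2.2.2 % 2 = 1 then 0 else 1
      else if x.2.1 = 3 then 2 * x.2.2.2 + if P337.dig 3 x.2.2.1 (v x.1) = 0 then 1 else 0
      else if x.2.1 = 4 then 2 * x.2.2.2 + if P337.dig 3 x.2.2.1 (v x.1) = 1 then 1 else 0 else x.2.2.2)
    (by fun_prop) (fun _ _ _ => rfl) fun _ t => (st_lt _ t).le

theorem CF.wf (hl : CF l) : CF fun a => wf (suf (l a) 0) := by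
  simp only [wf_iff, getD_suf, drop_suf, length_suf]
  unfold ok
  fun_prop

@[fun_prop] theorem Def.mon (hl : CF l) (hv : CF v) : Def fun a => mon 0 (suf (l a) (v a)) := by
  have : ∀ a, (suf (l a) (v a)).length ≤ (l a).length := fun a => by rw [length_suf]; omega
  classical
  have h : Def fun a => ∏ i ∈ range (l a).length, if (AllB i fun j => 7 ≤ sy (l a) (v a + j)) ∧
      sy (l a) (v a + i) = 9 then MvPolynomial.X (0 + cnt i fun j => sy (l a) (v a + j) = 10) else 1 := by
    fun_prop
  refine h.congr fun a => ?_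
  simp only [mon_eq _ 0 _ (this a), ← getD_suf]

@[fun_prop] theorem Def.poly (hl : CF l) (hv : CF v) : Def fun a => poly (suf (l a) (v a)) := by
  have : ∀ a, (suf (l a) (v a)).length ≤ (l a).length := fun a => by rw [length_suf]; omega
  classical
  have h : Def fun a => ∑ i ∈ range (l a).length, if AllB i fun j => 5 ≤ sy (l a) (v a + j) then
      if sy (l a) (v a + i) = 5 then
        (coef (suf (l a) (v a + (i + 1))) : Pl) * P337.mon 0 (suf (l a) (v a + (i + 1))) else
      if sy (l a) (v a + i) = 6 then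
        -((coef (suf (l a) (v a + (i + 1))) : Pl) * P337.mon 0 (suf (l a) (v a + (i + 1)))) else 0 else 0 := by
    fun_prop
  refine h.congr fun a => ?_
  simp only [poly_eq _ _ (this a), ← getD_suf, ← drop_suf]

noncomputable def rr (s : List Bool) (w i : ℕ) : Pl :=
  if dig 3 i w = 0 then poly (suf s (s.length / 4 - i)) else
  if dig 3 i w = 1 then poly (suf s (s.length / 4 - i)) * X (s.length / 4 + i) ^ 2 - 1 else
    poly (suf s (s.length / 4 - i)) * X (s.length / 4 + i) ^ 2 + 1

noncomputable def gg (s : List Bool) (w : ℕ) : Pl := ∑ i ∈ range (s.length / 4), rr s w i ^ 2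

theorem low_gg (s : List Bool) (w : ℕ) : Low (2 * (s.length / 4 + 2) + 1) (gg s w) := by
  refine Low.sum fun i _ => Low.pow ?_ 2
  have h1 : Low (s.length / 4 + 1) (poly (suf s (s.length / 4 - i))) :=
    (low_poly _).mono (by rw [length_suf]; omega)
  have h2 := h1.mul ((Low.X (s.length / 4 + i)).pow 2)
  unfold rr
  split_ifs
  · exact h1.mono (by omega)
  · exact (h2.mono (by omega)).sub (Low.one.mono (by omega))
  · exact (h2.mono (by omega)).add (Low.one.mono (by omega))

theorem suffix_eq {s : List Bool} {k : ℕ} {u : List ℕ} (h : k :: u <:+ suf s 0) :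
    u.length < s.length / 4 ∧ u = suf s (s.length / 4 - u.length) := by
  have h1 := h.length_le
  rw [length_suf] at h1
  refine ⟨h1, ?_⟩
  have := List.suffix_iff_eq_drop.1 ((List.suffix_cons k u).trans h)
  rwa [drop_suf, length_suf, zero_add, Nat.sub_zero] at this

theorem etr_iff (s : List Bool) : (s.length % 4 = 0 ∧ wf (suf s 0) ∧ sy s 0 < 5 ∧ ht (suf s 0) = 1 ∧
    ExB (3 ^ (s.length / 4)) fun w => st (fun i => dig 3 i w) (suf s 0) % 2 = 1 ∧
      ∃ x : Fin (2 * (s.length / 4)) → ℝ, ev (blk 0 0 x) (gg s w) = 0) ↔ s ∈ ETR := by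
  classical
  constructor
  · rintro ⟨h1, h2, h3, h4, w, -, h5, x, h6⟩
    obtain ⟨Φ, e1, e2⟩ := (wf_sound _ h2).1 h3
    obtain ⟨φ, rfl⟩ := List.length_eq_one_iff.1 (e1.trans h4)
    rw [List.flatMap_cons, List.flatMap_nil] at e2
    refine ⟨φ, ?_, blk 0 0 x, ?_⟩
    · rw [code, ← List.append_nil (encFormula φ), ← e2]; exact (flatMap_syms s h1).symm
    have h7 := encF_st (σ := fun i => dig 3 i w) (x := blk 0 0 x) (T := suf s 0) (fun k u hu => ?_) φ
      (t := []) (by rw [e2]) (by simp)
    · rw [← e2] at h7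
      by_contra h
      simp [h7, h] at h5
    obtain ⟨a1, a2⟩ := suffix_eq hu
    rw [gg, map_sum, sum_eq_zero_iff_of_nonneg fun i _ => by rw [map_pow]; positivity] at h6
    have h8 := h6 _ (mem_range.2 a1)
    rw [map_pow, pow_eq_zero_iff two_ne_zero, rr, ← a2] at h8
    have z0 := sq_nonneg (blk 0 0 x (s.length / 4 + u.length))
    split_ifs at h8 with b1 b2
    · simp [b1, h8]
    · simp only [map_sub, map_mul, map_pow, ev_X, map_one] at h8
      have : 0 < ev (blk 0 0 x) (poly u) := by by_contra h; nlinarith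
      simp [b2, this, this.ne']
    · simp only [map_add, map_mul, map_pow, ev_X, map_one] at h8
      have : ev (blk 0 0 x) (poly u) < 0 := by by_contra h; nlinarith
      simp [b1, b2, this.ne, this.le]
  · rintro ⟨φ, rfl, x, hx⟩
    have e : suf (code φ) 0 = encFormula φ ++ [] := by
      rw [List.append_nil]; exact syms_flatMap _ fun _ => mem_encF φ
    obtain ⟨h1, h2, h3⟩ := encF_wf φ (t := []) (by simp) trivial
    rw [← e] at h1 h2 h3
    set N := (code φ).length / 4 with hN
    let p : ℕ → ℝ := fun i => ev x (poly (suf (code φ) (N - i)))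
    obtain ⟨w, hw, h4⟩ := exists_dig (B := 3) N (fun i => if p i = 0 then 0 else if 0 < p i then 1 else 2)
      fun j _ => by split_ifs <;> omega
    refine ⟨length_letters _, h2, h1, h3, w, hw, ?_, fun i => if i.1 < N then x i else √(|p (i - N)|⁻¹), ?_⟩
    · have h7 := encF_st (σ := fun i => dig 3 i w) (x := x) (T := suf (code φ) 0) (fun k u hu => ?_) φ
        (t := []) (by rw [e]) (by simp)
      · rw [e, h7, if_pos hx]; simp
      obtain ⟨a1, a2⟩ := suffix_eq hu
      have : ev x (poly u) = p u.length := congrArg (fun u => ev x (poly u)) a2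
      rw [this, h4 _ a1]
      split_ifs with b1 b2
      · simp [b1]
      · simp [b1, b2]
      · simp [b1, b2]
    · rw [gg, map_sum]
      refine sum_eq_zero fun i hi => ?_
      have hi := mem_range.1 hi
      set c : Fin (2 * N) → ℝ := fun i => if i.1 < N then x i else √(|p (i - N)|⁻¹) with hc
      have a1 : ev (blk 0 0 c) (poly (suf (code φ) (N - i))) = p i := ev_poly_congr _ fun j hj => by
        rw [length_suf] at hj
        simp [blk, hc, show j < 2 * N by omega, show j < N by omega]
      have a2 : blk 0 0 c (N + i) ^ 2 = |p i|⁻¹ := by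
        simp [blk, hc, show N + i < 2 * N by omega, Real.sq_sqrt]
      rw [map_pow, pow_eq_zero_iff two_ne_zero, rr, h4 i hi, ← hN]
      by_cases b1 : p i = 0
      · simp [b1, a1]
      by_cases b2 : 0 < p i
      · simp [b1, b2, a1, a2, abs_of_pos b2]
      · simp [b1, b2, a1, a2, abs_of_nonpos (not_lt.1 b2)]

theorem etr_cf : CF fun s : List Bool => s ∈ ETR := by
  have h1 := CF.wf (l := fun s : List Bool => s) CF.id'
  have h2 := CF.st (l := fun x : List Bool × ℕ => x.1) (v := fun x => x.2) (by fun_prop) (by fun_prop)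
  have h3 := zero_ch (n := fun x : List Bool × ℕ => 2 * (x.1.length / 4))
    (e := fun x => 2 * (x.1.length / 4 + 2) + 1) (g := fun x => gg x.1 x.2) (by fun_prop) (by fun_prop)
    (by unfold gg rr; fun_prop) (fun _ => odd_two_mul_add_one _) (fun _ => low_gg _ _) fun a θ => by
      rw [gg, map_sum]; exact sum_nonneg fun i _ => by rw [map_pow]; positivity
  have h4 := CF.ex' (N := fun s : List Bool => 3 ^ (s.length / 4)) (by fun_prop)
    (((h2.mod (CF.const 2)).eq (CF.const 1)).and h3)
  refine CF.iff (CF.and (by fun_prop) (h1.and (CF.and (by fun_prop) (CF.and (by fun_prop) h4)))) etr_iff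

end Vale.Agent.P337
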