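import Vale.Agent.P337.Sys

/-! Real-algebraic lemmas. -/

namespace Vale.Agent.P337

open Finset Polynomial

theorem IntB.norm_le {L : ℕ} {p : ℂ[X]} (h : IntB L p) (k : ℕ) : ‖p.coeff k‖ ≤ L := by
  obtain ⟨z, h, e⟩ := h k
  rw [e, Complex.norm_intCast]; exact_mod_cast h

theorem IntB.one_le_lead {L : ℕ} {p : ℂ[X]} (h : IntB L p) (hp : p ≠ 0) : 1 ≤ ‖p.leadingCoeff‖ := by
  obtain ⟨z, -, e⟩ := h p.natDegree
  have h0 := leadingCoeff_ne_zero.2 hp
  rw [leadingCoeff, e] at h0 ⊢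
  rw [Complex.norm_intCast]
  exact_mod_cast Int.one_le_abs (by exact_mod_cast h0)

theorem IntB.one_le {L : ℕ} {p : ℂ[X]} (h : IntB L p) (hp : p ≠ 0) {t : ℂ} (ht : (L : ℝ) + 2 ≤ ‖t‖) :
    1 ≤ ‖p.eval t‖ := by
  have h1 := h.one_le_lead hp
  by_cases h0 : p.natDegree = 0
  · rwa [eq_C_of_natDegree_eq_zero h0, eval_C, ← h0]
  by_contra hlt
  have e1 : (p - C (p.eval t)).leadingCoeff = p.leadingCoeff := by
    rw [leadingCoeff, natDegree_sub_C, coeff_sub, coeff_C_of_ne_zero h0, sub_zero, leadingCoeff]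
  have := root_lt (p := p - C (p.eval t)) (L := L + 1) (by positivity)
    (leadingCoeff_ne_zero.1 (e1 ▸ leadingCoeff_ne_zero.2 hp)) (e1 ▸ h1) (fun k _ => ?_) (r := t) (by simp)
  · linarith
  rw [coeff_sub]
  refine (norm_sub_le _ _).trans (add_le_add (h.norm_le k) ?_)
  rw [coeff_C]; split_ifs
  · exact (not_le.1 hlt).le
  · simp

theorem dom {D L : ℕ} (u : ℕ → ℂ[X]) (hu : ∀ k ≤ D, IntB L (u k)) (hD : u D ≠ 0) {t Λ : ℂ}
    (ht : (L : ℝ) + 2 ≤ ‖t‖) (hΛ : (D + 1) * (L * ‖t‖ ^ D) + 1 ≤ ‖Λ‖) :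
    ∑ k ∈ range (D + 1), (u k).eval Λ * t ^ k ≠ 0 := by
  let w : ℕ → ℂ[X] := fun j => ∑ k ∈ range (D + 1), monomial k ((u k).coeff j)
  have h1 : ∀ j k, (w j).coeff k = if k ∈ range (D + 1) then (u k).coeff j else 0 := fun j k => by
    simp only [w, finsetSum_coeff, coeff_monomial, sum_ite_eq']
  have h2 : ∀ j, IntB L (w j) := fun j k => by
    rw [h1]; split_ifs with h
    · exact hu k (Nat.le_of_lt_succ (mem_range.1 h)) j
    · exact ⟨0, by simp, by simp⟩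
  let P : ℂ[X] := ∑ k ∈ range (D + 1), u k * C (t ^ k)
  have h3 : ∀ j, P.coeff j = (w j).eval t := fun j => by
    simp only [P, w, finsetSum_coeff, coeff_mul_C, eval_finsetSum, eval_monomial]
  have h4 : P ≠ 0 := fun h => by
    have := (h2 (u D).natDegree).one_le (fun h => leadingCoeff_ne_zero.2 hD (by
      have := h1 (u D).natDegree D
      rw [h, if_pos (self_mem_range_succ D)] at this
      exact this.symm)) ht
    rw [← h3, h] at this
    norm_num at this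
  intro h
  have t1 : 1 ≤ ‖t‖ := by linarith [Nat.cast_nonneg (α := ℝ) L]
  refine (root_lt (L := (D + 1) * (L * ‖t‖ ^ D)) (by positivity) h4 ?_ (fun j _ => ?_) (r := Λ) ?_).not_ge hΛ
  · have := leadingCoeff_ne_zero.2 h4
    rw [leadingCoeff, h3] at this ⊢
    exact (h2 _).one_le (fun h => this (by simp [h])) ht
  · simp only [P, finsetSum_coeff, coeff_mul_C]
    refine (norm_sum_le _ _).trans ((sum_le_card_nsmul _ _ (L * ‖t‖ ^ D) fun k hk => ?_).trans (by simp))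
    have hk := Nat.le_of_lt_succ (mem_range.1 hk)
    rw [norm_mul, norm_pow]
    exact mul_le_mul ((hu k hk).norm_le j) (pow_le_pow_right₀ t1 hk) (by positivity) (by positivity)
  · simpa [P, eval_finsetSum] using h

section min

variable {X : Type} [TopologicalSpace X] {g φ : X → ℝ} (hg : Continuous g) (hφ : Continuous φ)
  (g0 : ∀ x, 0 ≤ g x) (hK : ∀ T, IsCompact {x | φ x ≤ T})
include hg hφ g0 hK

theorem exists_min {Λ : ℝ} (hΛ : 0 ≤ Λ) (x0 : X) : ∃ x, ∀ y, Λ * g x + φ x ≤ Λ * g y + φ y := by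
  have h0 : x0 ∈ {x | φ x ≤ Λ * g x0 + φ x0} := le_add_of_nonneg_left (mul_nonneg hΛ (g0 _))
  obtain ⟨x, -, hx⟩ := (hK _).exists_isMinOn ⟨x0, h0⟩ (f := fun x => Λ * g x + φ x) (by fun_prop)
  refine ⟨x, fun y => ?_⟩
  by_cases hy : φ y ≤ Λ * g x0 + φ x0
  · exact hx hy
  · have : Λ * g x + φ x ≤ _ := hx h0
    linarith [mul_nonneg hΛ (g0 y)]

variable {T : ℝ} {R : ℝ → ℝ} (hR : ∀ s t, T ≤ s → s ≤ t → R s ≤ R t) (R0 : 0 ≤ R T)
  (h : ∀ Λ x, (∀ y, Λ * g x + φ x ≤ Λ * g y + φ y) → T ≤ Λ * g x + φ x → Λ < R (Λ * g x + φ x))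
include R0 h

include hR in
theorem min_lt {Λ : ℝ} (hΛ : R T ≤ Λ) {z : X} (hz : g z = 0) :
    ∃ x, (∀ y, Λ * g x + φ x ≤ Λ * g y + φ y) ∧ Λ * g x + φ x < T := by
  obtain ⟨x, hx⟩ := exists_min hg hφ g0 hK (R0.trans hΛ) z
  obtain ⟨x', hx'⟩ := exists_min hg hφ g0 hK ((R0.trans hΛ).trans (le_max_left _ (R (φ z)))) z
  refine ⟨x, hx, (hx x').trans_lt (not_le.1 fun h1 => ?_)⟩
  have h2 := h1.trans (add_le_add_left (mul_le_mul_of_nonneg_right (le_max_left Λ (R (φ z))) (g0 x')) _)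
  have h3 := hx' z
  rw [hz, mul_zero, zero_add] at h3
  exact ((h _ _ hx' h2).trans_le (hR _ _ h2 h3)).not_ge (le_max_right _ _)

theorem zero_of_lt {Λ : ℝ} (hΛ : R T ≤ Λ) {x : X} (hx : Λ * g x + φ x < T) : ∃ z, g z = 0 := by
  by_contra hn
  have gp : ∀ x, 0 < g x := fun x => (g0 x).lt_of_ne fun h => hn ⟨x, h.symm⟩
  have h0 : x ∈ {x | φ x ≤ T} := by
    have := mul_nonneg (R0.trans hΛ) (g0 x)
    simp only [Set.mem_setOf_eq]; linarith
  obtain ⟨z, -, hz⟩ := (hK T).exists_isMaxOn ⟨x, h0⟩ (f := fun x => (T - φ x) / g x)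
    ((continuous_const.sub hφ).div hg fun x => (gp x).ne').continuousOn
  have h1 : Λ < (T - φ z) / g z := lt_of_lt_of_le (by rw [lt_div_iff₀ (gp x)]; linarith) (hz h0)
  have h2 : (T - φ z) / g z * g z + φ z = T := by rw [div_mul_cancel₀ _ (gp z).ne']; ring
  have h3 := h _ z (fun y => ?_) h2.ge
  · rw [h2] at h3; linarith
  rw [h2]
  by_cases hy : φ y ≤ T
  · have : (T - φ y) / g y ≤ _ := hz hy
    rw [div_le_iff₀ (gp y)] at this; linarith
  · have := mul_nonneg ((R0.trans hΛ).trans h1.le) (g0 y)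
    linarith

end min

theorem compact_sub {n d : ℕ} (hd : Even d) (hd2 : 2 ≤ d) (β : Fin n → ℝ) (T : ℝ) :
    IsCompact {x : Fin n → ℝ | ∑ i, (x i ^ d - β i * x i) ≤ T} := by
  refine Metric.isCompact_of_isClosed_isBounded (isClosed_le (by fun_prop) continuous_const)
    ((Metric.isBounded_closedBall (x := 0) (r := ∑ i, |β i| + |T| + 1)).subset fun x hx => ?_)
  rw [mem_closedBall_zero_iff]
  by_contra hn
  have h1 : ‖x‖ ^ d ≤ ∑ i, x i ^ d := by
    have b0 : 0 ≤ ∑ i, |β i| := by positivity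
    obtain ⟨i, hi⟩ : ∃ i, ‖x‖ ≤ ‖x i‖ := by
      by_contra h
      push Not at h
      exact lt_irrefl _ ((pi_norm_lt_iff (by linarith [abs_nonneg T])).2 h)
    calc ‖x‖ ^ d ≤ |x i| ^ d := pow_le_pow_left₀ (norm_nonneg _) hi _
      _ = x i ^ d := hd.pow_abs _
      _ ≤ _ := single_le_sum (f := fun i => x i ^ d) (fun i _ => hd.pow_nonneg _) (mem_univ i)
  have h2 : ∑ i, β i * x i ≤ (∑ i, |β i|) * ‖x‖ := by
    rw [sum_mul]
    refine sum_le_sum fun i _ => (le_abs_self _).trans ?_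
    rw [abs_mul]; exact mul_le_mul_of_nonneg_left (norm_le_pi_norm x i) (abs_nonneg _)
  have b0 : 0 ≤ ∑ i, |β i| := by positivity
  have h3 : ‖x‖ ^ 2 ≤ ‖x‖ ^ d := pow_le_pow_right₀ (by linarith [abs_nonneg T]) hd2
  simp only [Set.mem_setOf_eq, sum_sub_distrib] at hx
  nlinarith [le_abs_self T, abs_nonneg T]

theorem thom_aux {r r' : ℝ} (n : ℕ) : ∀ p : ℝ[X], p.natDegree < n →
    (∀ j < n, SignType.sign ((derivative^[j] p).eval r) = SignType.sign ((derivative^[j] p).eval r')) →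
    ∀ x ∈ Set.Icc r r', SignType.sign (p.eval x) = SignType.sign (p.eval r) := by
  induction n with
  | zero => intro p h; omega
  | succ n ih =>
    intro p hp h x hx
    by_cases h0 : p.natDegree = 0
    · rw [eq_C_of_natDegree_eq_zero h0, eval_C, eval_C]
    have h1 := ih p.derivative ((natDegree_derivative_lt h0).trans_le (by omega)) fun j hj => h (j + 1) (by omega)
    have h2 : SignType.sign (p.eval r) = SignType.sign (p.eval r') := h 0 (by omega)
    have hr : r ∈ Set.Icc r r' := ⟨le_rfl, hx.1.trans hx.2⟩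
    have hr' : r' ∈ Set.Icc r r' := ⟨hx.1.trans hx.2, le_rfl⟩
    rcases le_total 0 (p.derivative.eval r) with h3 | h3
    · have := monotoneOn_of_deriv_nonneg (convex_Icc r r') p.continuous.continuousOn
        p.differentiable.differentiableOn fun y hy => by
          rw [Polynomial.deriv, ← sign_nonneg_iff, h1 y (interior_subset hy), sign_nonneg_iff]; exact h3
      exact le_antisymm (h2 ▸ SignType.sign.monotone (this hx hr' hx.2)) (SignType.sign.monotone (this hr hx hx.1))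
    · have := antitoneOn_of_deriv_nonpos (convex_Icc r r') p.continuous.continuousOn
        p.differentiable.differentiableOn fun y hy => by
          rw [Polynomial.deriv, ← sign_nonpos_iff, h1 y (interior_subset hy), sign_nonpos_iff]; exact h3
      exact le_antisymm (SignType.sign.monotone (this hr hx hx.1)) (h2 ▸ SignType.sign.monotone (this hx hr' hx.2))

theorem thom {p : ℝ[X]} (hp : p ≠ 0) {r r' : ℝ} (h : r ≠ r') (hr : p.eval r = 0) (hr' : p.eval r' = 0) :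
    ∃ j, 0 < j ∧ j ≤ p.natDegree ∧
      SignType.sign ((derivative^[j] p).eval r) ≠ SignType.sign ((derivative^[j] p).eval r') := by
  wlog hlt : r < r' generalizing r r'
  · obtain ⟨j, h1, h2, h3⟩ := this h.symm hr' hr (lt_of_le_of_ne (not_lt.1 hlt) h.symm)
    exact ⟨j, h1, h2, h3.symm⟩
  by_contra hn
  push Not at hn
  have := thom_aux (r := r) (r' := r') _ p (Nat.lt_succ_self _) fun j hj => by
    rcases Nat.eq_zero_or_pos j with rfl | h0
    · simp [hr, hr']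
    · exact hn j h0 (by omega)
  refine hp (eq_zero_of_infinite_isRoot p ((Set.Icc_infinite hlt).mono fun x hx => ?_))
  simpa [hr] using this x hx

theorem isolate {X : Type} {B : ℕ} (c : ℕ → X → Prop) (k : ℕ) : ∀ S : Finset X,
    (∀ x ∈ S, ∀ x' ∈ S, x ≠ x' → ∃ z < B, ∃ z' < B, c z x ∧ c z' x' ∧ ∀ u, ¬ (c z u ∧ c z' u)) →
    (∀ x ∈ S, ∃ z < B, c z x) → S.Nonempty → S.card ≤ 2 ^ k →
    ∃ w : ℕ → ℕ, (∀ j < k, w j < B) ∧ ∃ x ∈ S, (∀ j < k, c (w j) x) ∧
      ∀ x' ∈ S, (∀ j < k, c (w j) x') → x' = x := by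
  classical
  induction k with
  | zero =>
    rintro S - - ⟨x, hx⟩ h
    exact ⟨fun _ => 0, by simp, x, hx, by simp, fun x' hx' _ => card_le_one.1 h _ hx' _ hx⟩
  | succ k ih =>
    rintro S h1 h2 ⟨x, hx⟩ h
    obtain ⟨z, hz, h3, h4⟩ : ∃ z < B, (S.filter (c z)).Nonempty ∧ (S.filter (c z)).card ≤ 2 ^ k := by
      by_cases h5 : ∃ x' ∈ S, x ≠ x'
      · obtain ⟨x', hx', hne⟩ := h5
        obtain ⟨z, hz, z', hz', e1, e2, e3⟩ := h1 x hx x' hx' hne
        have e4 : (S.filter (c z)).card + (S.filter (c z')).card ≤ S.card := by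
          rw [← card_union_of_disjoint (disjoint_filter.2 fun u _ h h' => e3 u ⟨h, h'⟩)]
          exact card_le_card (union_subset (filter_subset _ _) (filter_subset _ _))
        by_cases e5 : (S.filter (c z)).card ≤ 2 ^ k
        · exact ⟨z, hz, ⟨x, mem_filter.2 ⟨hx, e1⟩⟩, e5⟩
        · exact ⟨z', hz', ⟨x', mem_filter.2 ⟨hx', e2⟩⟩, by omega⟩
      · push Not at h5
        obtain ⟨z, hz, e⟩ := h2 x hx
        refine ⟨z, hz, ⟨x, mem_filter.2 ⟨hx, e⟩⟩, (card_filter_le _ _).trans ?_⟩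
        exact (card_le_one.2 fun a ha b hb => (h5 a ha).symm.trans (h5 b hb)).trans (Nat.two_pow_pos k)
    obtain ⟨w, e1, y, hy, e2, e3⟩ := ih _ (fun a ha b hb => h1 a (mem_filter.1 ha).1 b (mem_filter.1 hb).1)
      (fun a ha => h2 a (mem_filter.1 ha).1) h3 h4
    refine ⟨Function.update w k z, fun j hj => ?_, y, (mem_filter.1 hy).1, fun j hj => ?_, fun x' hx' e => ?_⟩
    · rcases eq_or_ne j k with rfl | hjk
      · simpa
      · rw [Function.update_of_ne hjk]; exact e1 j (by omega)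
    · rcases eq_or_ne j k with rfl | hjk
      · simpa using (mem_filter.1 hy).2
      · rw [Function.update_of_ne hjk]; exact e2 j (by omega)
    · refine e3 x' (mem_filter.2 ⟨hx', by simpa using e k (by omega)⟩) fun j hj => ?_
      simpa [Function.update_of_ne hj.ne] using e j (by omega)

section formula

variable {B B' : Type} [CommRing B] [CommRing B']

def condF (τ : B) (y : ℕ → B) (z : ℕ) : B := (-1) ^ z * (τ * y (z / 4) - (-1) ^ (z / 2))

def aF (H : ℕ) (Y : B) : B := ∏ i ∈ range H, (Y - 2 ^ i)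

def bF (H : ℕ) (Y : B) : B := ∏ i ∈ range H, (Y + 2 ^ i)

def qF (H s : ℕ) (Y : ℕ → B) : B :=
  ∑ j ∈ range s, ∏ i ∈ range s, (if i = j then aF H (Y i) else bF H (Y i)) ^ (2 * s) -
    ∏ i ∈ range s, bF H (Y i) ^ (2 * s)

theorem map_condF (φ : B →+* B') (τ : B) (y : ℕ → B) (z : ℕ) :
    φ (condF τ y z) = condF (φ τ) (fun j => φ (y j)) z := by simp [condF]

theorem map_qF (φ : B →+* B') (H s : ℕ) (Y : ℕ → B) : φ (qF H s Y) = qF H s fun j => φ (Y j) := by
  simp [qF, aF, bF, apply_ite φ, map_ofNat]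

theorem prod_ite_eq_mul {s j : ℕ} (hj : j < s) (a b : ℕ → B) :
    ∏ i ∈ range s, (if i = j then a i else b i) ^ (2 * s) =
      (a j ^ 2) ^ s * ∏ i ∈ (range s).erase j, b i ^ (2 * s) := by
  rw [← mul_prod_erase _ _ (mem_range.2 hj), if_pos rfl, pow_mul]
  congr 1
  exact prod_congr rfl fun i hi => by rw [if_neg (mem_erase.1 hi).1]

theorem qF_nonneg {H s j : ℕ} {Y : ℕ → ℝ} (hj : j < s) (h : Y j ≤ 0) : 0 ≤ qF H s Y := by
  have ev : ∀ x : ℝ, 0 ≤ x ^ (2 * s) := fun x => (even_two_mul s).pow_nonneg x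
  rw [qF, sub_nonneg]
  refine le_trans ?_ (single_le_sum (fun j _ => prod_nonneg fun i _ => ev _) (mem_range.2 hj))
  rw [prod_ite_eq_mul hj, ← mul_prod_erase _ _ (mem_range.2 hj), pow_mul]
  refine mul_le_mul_of_nonneg_right (pow_le_pow_left₀ (sq_nonneg _) ?_ _) (prod_nonneg fun i _ => ev _)
  rw [aF, bF, ← prod_pow, ← prod_pow]
  exact prod_le_prod (fun i _ => sq_nonneg _) fun i _ => by nlinarith [pow_pos (two_pos (α := ℝ)) i]

theorem qF_neg {H s : ℕ} {Y : ℕ → ℝ} (h : ∀ j < s, 1 ≤ Y j ∧ Y j < 2 ^ H) : qF H s Y < 0 := by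
  have h1 : ∀ j < s, 0 < bF H (Y j) := fun j hj => prod_pos fun i _ => by
    have := (h j hj).1; positivity
  have h2 : 0 < ∏ i ∈ range s, bF H (Y i) ^ (2 * s) := prod_pos fun i hi => pow_pos (h1 i (mem_range.1 hi)) _
  have h3 : ∀ j ∈ range s, ∏ i ∈ range s, (if i = j then aF H (Y i) else bF H (Y i)) ^ (2 * s) ≤
      (1 / 2) ^ s * ∏ i ∈ range s, bF H (Y i) ^ (2 * s) := fun j hj => by
    obtain ⟨e1, e2⟩ := h j (mem_range.1 hj)
    rw [prod_ite_eq_mul (mem_range.1 hj), ← mul_prod_erase _ _ hj, pow_mul, ← mul_assoc, ← mul_pow]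
    refine mul_le_mul_of_nonneg_right (pow_le_pow_left₀ (sq_nonneg _) ?_ _)
      (prod_nonneg fun i _ => (even_two_mul s).pow_nonneg _)
    obtain ⟨k, e3, e4⟩ := exists_nat_pow_near e1 one_lt_two
    have hk : k ∈ range H := mem_range.2 ((pow_lt_pow_iff_right₀ one_lt_two).1 (e3.trans_lt e2))
    rw [aF, bF, ← prod_pow, ← prod_pow, ← mul_prod_erase _ _ hk, ← mul_prod_erase _ _ hk, ← mul_assoc]
    rw [pow_succ] at e4
    exact mul_le_mul (by nlinarith) (prod_le_prod (fun i _ => sq_nonneg _) fun i _ => by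
      nlinarith [pow_pos (two_pos (α := ℝ)) i]) (prod_nonneg fun i _ => sq_nonneg _) (by positivity)
  have h4 : (s : ℝ) * (1 / 2) ^ s < 1 := by
    rw [one_div, inv_pow, mul_inv_lt_iff₀ (by positivity), one_mul]
    exact_mod_cast Nat.lt_two_pow_self
  have h5 := sum_le_card_nsmul _ _ _ h3
  rw [card_range, nsmul_eq_mul] at h5
  rw [qF]; nlinarith

theorem condF_abs {τ : ℝ} {y : ℕ → ℝ} {z : ℕ} (hτ : 0 ≤ τ) (h : y (z / 4) ≠ 0 → 2 ≤ τ * |y (z / 4)|) :
    1 ≤ |condF τ y z| ∧ |condF τ y z| ≤ τ * |y (z / 4)| + 1 := by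
  have e1 : |(-1 : ℝ) ^ (z / 2)| = 1 := by simp
  have e2 := abs_sub (τ * y (z / 4)) ((-1) ^ (z / 2))
  have e3 := abs_sub_abs_le_abs_sub (τ * y (z / 4)) ((-1) ^ (z / 2))
  rw [abs_mul, abs_of_nonneg hτ, e1] at e2 e3
  rw [condF, abs_mul, abs_pow, abs_neg, abs_one, one_pow, one_mul]
  refine ⟨?_, e2⟩
  by_cases h0 : y (z / 4) = 0
  · simp [h0]
  · linarith [h h0]

theorem condF_sep {τ : ℝ} {y y' : ℕ → ℝ} {i : ℕ} (h : y i ≠ 0 → 2 ≤ τ * |y i|)
    (h' : y' i ≠ 0 → 2 ≤ τ * |y' i|) (hs : SignType.sign (y i) ≠ SignType.sign (y' i)) :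
    ∃ z < 4 * (i + 1), ∃ z' < 4 * (i + 1), 0 < condF τ y z ∧ 0 < condF τ y' z' ∧
      ∀ u : ℕ → ℝ, condF τ u z' = -condF τ u z := by
  have e0 : ∀ u : ℕ → ℝ, condF τ u (4 * i) = τ * u i - 1 ∧ condF τ u (4 * i + 1) = -(τ * u i - 1) ∧
      condF τ u (4 * i + 2) = τ * u i + 1 ∧ condF τ u (4 * i + 3) = -(τ * u i + 1) := fun u => by
    have a1 : (-1 : ℝ) ^ (4 * i) = 1 := by rw [pow_mul]; norm_num
    have a2 : (-1 : ℝ) ^ (2 * i) = 1 := by rw [pow_mul]; norm_num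
    simp only [condF, pow_add, a1, a2, show 4 * i / 4 = i by omega, show (4 * i + 1) / 4 = i by omega,
      show (4 * i + 2) / 4 = i by omega, show (4 * i + 3) / 4 = i by omega, show 4 * i / 2 = 2 * i by omega,
      show (4 * i + 1) / 2 = 2 * i by omega, show (4 * i + 2) / 2 = 2 * i + 1 by omega,
      show (4 * i + 3) / 2 = 2 * i + 1 by omega]
    norm_num
  have p1 : ∀ u : ℕ → ℝ, (u i ≠ 0 → 2 ≤ τ * |u i|) → (u i < 0 ∧ τ * u i ≤ -2) ∨ (u i = 0 ∧ τ * u i = 0) ∨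
      (0 < u i ∧ 2 ≤ τ * u i) := fun u hu => by
    rcases lt_trichotomy (u i) 0 with a | a | a
    · have := hu a.ne; rw [abs_of_neg a] at this; exact Or.inl ⟨a, by linarith⟩
    · simp [a]
    · have := hu a.ne'; rw [abs_of_pos a] at this; exact Or.inr (Or.inr ⟨a, this⟩)
  have q1 : 0 < τ * y i - 1 → τ * y' i - 1 < 0 → _ := fun a b => (⟨4 * i, by omega, 4 * i + 1, by omega,
    by rwa [(e0 _).1], by rw [(e0 _).2.1]; linarith, fun u => by rw [(e0 _).1, (e0 _).2.1]⟩ :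
    ∃ z < 4 * (i + 1), ∃ z' < 4 * (i + 1), 0 < condF τ y z ∧ 0 < condF τ y' z' ∧
      ∀ u : ℕ → ℝ, condF τ u z' = -condF τ u z)
  have q2 : τ * y i - 1 < 0 → 0 < τ * y' i - 1 → _ := fun a b => (⟨4 * i + 1, by omega, 4 * i, by omega,
    by rw [(e0 _).2.1]; linarith, by rwa [(e0 _).1], fun u => by rw [(e0 _).1, (e0 _).2.1, neg_neg]⟩ :
    ∃ z < 4 * (i + 1), ∃ z' < 4 * (i + 1), 0 < condF τ y z ∧ 0 < condF τ y' z' ∧
      ∀ u : ℕ → ℝ, condF τ u z' = -condF τ u z)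
  rcases p1 y h with a | a | a <;> rcases p1 y' h' with b | b | b
  · simp [a.1, b.1] at hs
  · exact ⟨4 * i + 3, by omega, 4 * i + 2, by omega, by rw [(e0 _).2.2.2]; linarith,
      by rw [(e0 _).2.2.1]; linarith, fun u => by rw [(e0 _).2.2.1, (e0 _).2.2.2, neg_neg]⟩
  · exact q2 (by linarith) (by linarith)
  · exact ⟨4 * i + 2, by omega, 4 * i + 3, by omega, by rw [(e0 _).2.2.1]; linarith,
      by rw [(e0 _).2.2.2]; linarith, fun u => by rw [(e0 _).2.2.1, (e0 _).2.2.2]⟩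
  · simp [a.1, b.1] at hs
  · exact q2 (by linarith) (by linarith)
  · exact q1 (by linarith) (by linarith)
  · exact q1 (by linarith) (by linarith)
  · simp [a.1, b.1] at hs

end formula

open Classical in
theorem pair_prod {X : Type} (st : X → X) (hst : ∀ c, st (st c) = c) {M : Multiset X} {F Ψ : X → ℂ}
    (hM : (M.map F).Nodup) (h1 : ∀ c ∈ M, st c ∈ M) (hF : ∀ c, F (st c) = (starRingEnd ℂ) (F c))
    (hΨ : ∀ c, Ψ (st c) = (starRingEnd ℂ) (Ψ c)) : ∃ ρ : ℝ, 0 ≤ ρ ∧ ((∀ c ∈ M, Ψ c ≠ 0) → 0 < ρ) ∧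
      (M.map Ψ).prod = ρ * ∏ c ∈ M.toFinset.filter fun c => st c = c, Ψ c := by
  refine ⟨∏ c ∈ M.toFinset.filter fun c => 0 < (F c).im, Complex.normSq (Ψ c),
    prod_nonneg fun _ _ => Complex.normSq_nonneg _, fun h => prod_pos fun c hc =>
      Complex.normSq_pos.2 (h c (Multiset.mem_toFinset.1 (mem_filter.1 hc).1)), ?_⟩
  have e1 : (M.map Ψ).prod = ∏ c ∈ M.toFinset, Ψ c := by
    rw [Finset.prod, Multiset.toFinset_val, (Multiset.Nodup.of_map _ hM).dedup]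
  have e2 : (M.toFinset.filter fun c => st c = c) = M.toFinset.filter fun c => (F c).im = 0 :=
    filter_congr fun c hc => by
      have hc := Multiset.mem_toFinset.1 hc
      rw [← Complex.conj_eq_iff_im, ← hF]
      exact ⟨fun h => by rw [h], fun h => Multiset.inj_on_of_nodup_map hM _ (h1 c hc) _ hc h⟩
  have e3 : ∏ c ∈ (M.toFinset.filter fun c => ¬ (F c).im = 0).filter (fun c => ¬ 0 < (F c).im), Ψ c =
      ∏ c ∈ M.toFinset.filter fun c => 0 < (F c).im, (starRingEnd ℂ) (Ψ c) := by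
    refine prod_nbij' st st (fun c hc => ?_) (fun c hc => ?_) (fun c _ => hst c) (fun c _ => hst c)
      fun c _ => by rw [← hΨ, hst]
    · simp only [mem_filter, Multiset.mem_toFinset, hF, Complex.conj_im] at hc ⊢
      exact ⟨h1 c hc.1.1, neg_pos.2 (lt_of_le_of_ne (not_lt.1 hc.2) hc.1.2)⟩
    · simp only [mem_filter, Multiset.mem_toFinset, hF, Complex.conj_im] at hc ⊢
      exact ⟨⟨h1 c hc.1, by linarith⟩, by linarith⟩
  have e4 : (M.toFinset.filter fun c => ¬ (F c).im = 0).filter (fun c => 0 < (F c).im) =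
      M.toFinset.filter fun c => 0 < (F c).im := by
    rw [filter_filter]; exact filter_congr fun c _ => ⟨fun h => h.2, fun h => ⟨h.ne', h⟩⟩
  rw [e1, e2, ← prod_filter_mul_prod_filter_not _ fun c => (F c).im = 0, mul_comm,
    ← prod_filter_mul_prod_filter_not _ fun c => 0 < (F c).im, e3, e4, ← prod_mul_distrib]
  simp only [Complex.mul_conj, Complex.ofReal_prod]

theorem generic {n e : ℕ} (he : 0 < e) : ∃ b < e ^ n * e ^ n * ((e + 1) * n) + 1,
    ∀ M : Multiset (Fin n → ℂ), M.card = e ^ n → (∀ c, (∀ i : Fin n, c i ^ e = (b : ℂ) ^ (e * i)) → c ∈ M) →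
      (M.map fun c => ∑ i : Fin n, (c i ^ (e + 1) - (e + 1) * (b : ℂ) ^ (e * i) * c i)).Nodup := by
  classical
  let Ω := Fintype.piFinset fun _ : Fin n => nthRootsFinset e (1 : ℂ)
  have hΩ : Ω.card = e ^ n := by
    simp [Ω, (Complex.isPrimitiveRoot_exp e he.ne').card_nthRootsFinset]
  let P : (Fin n → ℂ) → ℂ[X] := fun ω => ∑ i : Fin n, monomial ((e + 1) * i) (ω i)
  have h1 : ∏ p ∈ Ω.offDiag, (P p.1 - P p.2) ≠ 0 := prod_ne_zero_iff.2 fun p hp h =>
    (mem_offDiag.1 hp).2.2 (funext fun i => by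
      simpa [P, finsetSum_coeff, coeff_monomial, Fin.val_inj] using
        congrArg (coeff · ((e + 1) * i)) (sub_eq_zero.1 h))
  have h2 : ∀ ω, (P ω).natDegree ≤ (e + 1) * n := fun ω => natDegree_sum_le_of_forall_le _ _ fun i _ =>
    (natDegree_monomial_le _).trans (Nat.mul_le_mul_left _ i.2.le)
  have h3 : (∏ p ∈ Ω.offDiag, (P p.1 - P p.2)).natDegree ≤ e ^ n * e ^ n * ((e + 1) * n) :=
    (natDegree_prod_le _ _).trans ((sum_le_card_nsmul _ _ _ fun p _ =>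
      (natDegree_sub_le _ _).trans (max_le (h2 _) (h2 _))).trans
        (Nat.mul_le_mul_right _ (by rw [offDiag_card, hΩ]; omega)))
  obtain ⟨b, hb⟩ : ∃ b : Fin (e ^ n * e ^ n * ((e + 1) * n) + 1),
      (∏ p ∈ Ω.offDiag, (P p.1 - P p.2)).eval ((b : ℕ) : ℂ) ≠ 0 := by
    by_contra h
    push Not at h
    exact h1 (eq_zero_of_natDegree_lt_card_of_eval_eq_zero _
      (Nat.cast_injective.comp Fin.val_injective) h (by simpa using Nat.lt_succ_of_le h3))
  refine ⟨b, b.2, fun M hM h => Multiset.toFinset_card_eq_card_iff_nodup.1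
    (le_antisymm (Multiset.toFinset_card_le _) ?_)⟩
  rw [Multiset.card_map, hM]
  refine hΩ.ge.trans (card_le_card_of_injOn (fun ω => -e * (P ω).eval ((b : ℕ) : ℂ)) (fun ω hω => ?_)
    fun ω hω ω' hω' h => ?_)
  · have h4 : ∀ i, ω i ^ e = 1 := fun i => (mem_nthRootsFinset he 1).1 (Fintype.mem_piFinset.1 hω i)
    refine mem_coe.2 (Multiset.mem_toFinset.2 (Multiset.mem_map.2 ⟨fun i => (b : ℕ) ^ (i : ℕ) * ω i,
      h _ fun i => by rw [mul_pow, h4, mul_one, ← pow_mul, mul_comm e i], ?_⟩))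
    simp only [P, eval_finsetSum, eval_monomial, mul_sum]
    refine sum_congr rfl fun i _ => ?_
    rw [mul_pow, pow_succ (ω i), h4]; ring
  · by_contra hne
    rw [eval_prod, prod_ne_zero_iff] at hb
    have := hb (ω, ω') (mem_offDiag.2 ⟨hω, hω', hne⟩)
    rw [eval_sub, sub_ne_zero] at this
    exact this (mul_left_cancel₀ (neg_ne_zero.2 (Nat.cast_ne_zero.2 he.ne')) h)

theorem ev_th (P : Pl) (Λ : ℂ) : ev (th Λ) P = (uv 0 (0 : ℕ → ℂ) P).eval Λ := by
  rw [eval_uv]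
  congr 2
  funext j
  by_cases h : j = 0 <;> simp [th, h]

theorem grid {N : ℕ} {P : Pl} (hP : Low (N + 1) P) (h : ev (th (0 : ℂ)) P ≠ 0) (Λ : ℕ) :
    ∃ l < N + 1, ev (th ((Λ + l : ℕ) : ℂ)) P ≠ 0 := by
  by_contra hn
  push Not at hn
  refine h ?_
  rw [ev_th, eq_zero_of_natDegree_lt_card_of_eval_eq_zero (uv 0 0 P) (ι := Fin (N + 1))
    (f := fun l => ((Λ + l : ℕ) : ℂ)) (fun a b h => Fin.ext (by simpa using h))
    (fun l => by rw [← ev_th]; exact hn l l.2) (by simpa using Nat.lt_succ_of_le (hP.uv _ _)), eval_zero]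

theorem Bd.intB {D L : ℕ} {P : Pl} (h : Bd D L P) : IntB L (uv 0 (0 : ℕ → ℂ) P) := fun k =>
  ⟨_, (h.cf 0 1 k).abs_ev, by rw [← ev_cf1, ← ev_zero_cast, th_zero]⟩

end Vale.Agent.P337
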