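import Vale.Agent.P337.Real

/-! Deciding whether a system with distinct values has a real solution where a given polynomial is
positive. -/

namespace Vale.Agent.P337

open Vale.Agent.PT Finset MvPolynomial

variable {α δ : Type} [Ctx Bool α] [Ctx Bool δ]

theorem ofReal_ev {n : ℕ} {c : Fin n → ℂ} (hc : star c = c) (P : Pl) :
    ((ev (pt 0 fun i => (c i).re) P : ℝ) : ℂ) = ev (pt 0 c) P := by
  have := hom_pt Complex.ofRealHom 0 (fun i => (c i).re) P
  simp only [map_zero, Complex.ofRealHom_eq_coe] at this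
  rw [this]
  congr 3
  exact funext fun i => Complex.conj_eq_iff_re.1 (congrFun hc i)

theorem star_ev {n : ℕ} (c : Fin n → ℂ) (P : Pl) :
    ev (pt 0 (star c)) P = (starRingEnd ℂ) (ev (pt 0 c) P) := by
  rw [hom_pt, map_zero]; rfl

theorem Sys.star_mem (S : Sys α) {a : α} {c : Fin (S.n a) → ℂ} (h : c ∈ S.pts a 0) : star c ∈ S.pts a 0 := by
  rw [Sys.mem_pts] at h ⊢
  intro i
  rw [star_ev]
  simpa using congrArg (starRingEnd ℂ) (h i)

theorem Sys.real (S : Sys α) {F : α → Pl} (hF : Def F) (a : α) :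
    ∃ p : Polynomial ℝ, p.map Complex.ofRealHom = Wp (S.val a 0 (F a)) := by
  obtain ⟨W, -, h⟩ := S.char (g := fun a => a) CF.id' hF
  refine (Polynomial.mem_lifts _).1 ((Polynomial.lifts_iff_coeff_lifts _).2 fun k => ?_)
  rw [← h a 0 k 0, pt_zero, ev_zero_cast]
  exact ⟨(ev (0 : ℕ → ℤ) (W a k) : ℤ), by simp⟩

theorem two_le_of {K x : ℝ} (h : x ≠ 0 → 1 ≤ K * |x|) : x ≠ 0 → 2 ≤ 2 * K * |x| := fun h0 => by
  linarith [h h0]

theorem Sys.realPt (S : Sys α) {F U : α → Pl} (hF : Def F) (hU : Def U) :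
    CF fun a => (S.val a 0 (F a)).Nodup ∧ ∃ x : Fin (S.n a) → ℝ, (fun i => (x i : ℂ)) ∈ S.pts a 0 ∧
      0 < ev (pt 0 x) (U a) := by
  classical
  have hD := S.hD
  obtain ⟨V, hV, eV⟩ := S.deriv (g := fun a => a) CF.id' hF
  obtain ⟨Δ, hΔ, eΔ⟩ := S.disc (g := fun a => a) CF.id' hF
  set y : α → ℕ → Pl := fun a j => if j = 0 then U a else V a j with hyd
  have hy : Def fun x : α × ℕ => y x.1 x.2 := by simp only [hyd]; fun_prop
  obtain ⟨q0, hq0, e0⟩ := S.bound (g := Prod.fst) (by fun_prop) hy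
  obtain ⟨q1, hq1, e1⟩ := unif hq0.pb hD
  set Q : α × ℕ → Pl := fun x => qF (2 * 2 ^ q1 x.1 + 2) ((S.D x.1).size + 1) fun j =>
    condF (2 * 2 ^ 2 ^ q1 x.1) (y x.1) (dig (4 * (S.D x.1 + 1)) j (4 * (S.D x.1 + 1) * x.2)) with hQd
  have hQ : Def Q := by
    simp only [hQd]; unfold qF aF bF condF; clear_value y; fun_prop
  obtain ⟨q2, hq2, e2⟩ := S.bound (g := Prod.fst) (by fun_prop) hQ
  obtain ⟨N, hN, eN⟩ := S.norm (g := Prod.fst) (y := fun x => 2 * 2 ^ 2 ^ q2 x * Q x + 1) (by fun_prop)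
    (by fun_prop)
  have h1 : CF fun x : α × ℕ => ev (0 : ℕ → ℤ) (Δ x.1 ^ 2 * N x) < 0 := Def.neg_iff (by fun_prop)
  refine (CF.ex (N := fun a => (4 * (S.D a + 1)) ^ (S.D a).size)
    (R := fun a v => ev (0 : ℕ → ℤ) (Δ a ^ 2 * N (a, v)) < 0) (by fun_prop) h1).iff fun a => ?_
  have e3 : ∀ v, ev (0 : ℕ → ℤ) (Δ a ^ 2 * N (a, v)) < 0 ↔
      (S.val a 0 (F a)).Nodup ∧ ev (0 : ℕ → ℤ) (N (a, v)) < 0 := fun v => by
    rw [← eΔ, ev_zero_cast, map_mul, map_pow, Int.cast_ne_zero]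
    exact ⟨fun h => ⟨fun h' => by simp [h'] at h, neg_of_mul_neg_right h (sq_nonneg _)⟩,
      fun h => mul_neg_of_pos_of_neg (by have := h.1; positivity) h.2⟩
  simp only [ExB, e3]
  rw [show ∀ (p : Prop) (q r : ℕ → Prop), (∃ v, q v ∧ p ∧ r v) ↔ p ∧ ∃ v, q v ∧ r v by tauto]
  refine and_congr_right fun hnd => ?_
  -- real points
  set S0 := (S.pts a 0).toFinset.filter fun c => star c = c with hS0
  set τ : ℝ := 2 * 2 ^ 2 ^ q1 a
  set B := 4 * (S.D a + 1) with hB
  let r : (Fin (S.n a) → ℂ) → Pl →+* ℝ := fun c => ev (pt 0 fun i => (c i).re)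
  have b1 : ∀ c ∈ S0, ∀ j ≤ S.D a, |r c (y a j)| ≤ 2 ^ 2 ^ q1 a ∧
      (r c (y a j) ≠ 0 → 2 ≤ τ * |r c (y a j)|) := fun c hc j hj => by
    obtain ⟨h1, h2⟩ := mem_filter.1 hc
    have h3 := e0 (a, j) _ (Multiset.mem_map_of_mem _ (Multiset.mem_toFinset.1 h1))
    have h4 : (2 : ℝ) ^ 2 ^ q0 (a, j) ≤ 2 ^ 2 ^ q1 a :=
      pow_le_pow_right₀ one_le_two (Nat.pow_le_pow_right two_pos (e1 a j hj))
    rw [← ofReal_ev h2, Complex.norm_real, Real.norm_eq_abs, Complex.ofReal_ne_zero] at h3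
    exact ⟨h3.1.trans h4, two_le_of fun h => (h3.2 h).trans (mul_le_mul_of_nonneg_right h4 (abs_nonneg _))⟩
  have b2 : ∀ c v, r c (Q (a, v)) = qF (2 * 2 ^ q1 a + 2) ((S.D a).size + 1) fun j =>
      condF τ (fun i => r c (y a i)) (dig B j (B * v)) := fun c v => by
    simp only [hQd, map_qF, map_condF, map_mul, map_pow, map_ofNat]; rfl
  have b3 : ∀ v, ∃ ρ : ℝ, 0 < ρ ∧ (ev (0 : ℕ → ℤ) (N (a, v)) : ℝ) =
      ρ * ∏ c ∈ S0, (2 * 2 ^ 2 ^ q2 (a, v) * r c (Q (a, v)) + 1) := fun v => by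
    obtain ⟨ρ, -, h2, h3⟩ := pair_prod (Ψ := fun c => ev (pt 0 c) (2 * 2 ^ 2 ^ q2 (a, v) * Q (a, v) + 1))
      star star_star hnd (fun c => S.star_mem) (fun c => star_ev c _) fun c => star_ev c (2 * 2 ^ 2 ^ q2 (a, v) * Q (a, v) + 1)
    refine ⟨((S.D a).factorial : ℝ) ^ (S.D a + 1) * ρ, mul_pos (by positivity) (h2 fun c hc h => ?_), ?_⟩
    · have h4 := (e2 (a, v) _ (Multiset.mem_map_of_mem _ hc)).2
      simp only [map_add, map_mul, map_pow, map_ofNat, map_one] at h
      have h5 := h4 fun h' => by simp [h'] at h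
      have h6 := congrArg Norm.norm (eq_neg_of_add_eq_zero_left h)
      simp only [norm_mul, norm_pow, Complex.norm_ofNat, norm_neg, norm_one] at h6
      linarith
    · apply Complex.ofReal_injective
      rw [Complex.ofReal_intCast, ← ev_zero_cast, eN, Sys.val, h3]
      push_cast
      rw [mul_assoc _ (ρ : ℂ)]
      congr 2
      refine prod_congr (by ext; simp [hS0]) fun c hc => ?_
      simp [r, ofReal_ev (mem_filter.1 hc).2, map_ofNat]
  have B0 : 0 < B := by omega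
  have d0 : ∀ v, dig B 0 (B * v) = 0 := fun v => by simpa using dig_zero v B0
  have c0 : ∀ c, condF τ (fun i => r c (y a i)) 0 = τ * r c (U a) - 1 := fun c => by simp [condF, hyd]
  have τ0 : 0 < τ := by positivity
  constructor
  · rintro ⟨v, -, hv⟩
    obtain ⟨ρ, h1, h2⟩ := b3 v
    have h3 : (ev (0 : ℕ → ℤ) (N (a, v)) : ℝ) < 0 := by exact_mod_cast hv
    obtain ⟨c, hc, h4⟩ : ∃ c ∈ S0, 2 * 2 ^ 2 ^ q2 (a, v) * r c (Q (a, v)) + 1 < 0 := by
      by_contra h
      push Not at h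
      exact (h2 ▸ h3).not_ge (mul_nonneg h1.le (prod_nonneg h))
    obtain ⟨h5, h6⟩ := mem_filter.1 hc
    refine ⟨fun i => (c i).re, ?_, ?_⟩
    · rw [show (fun i => ((c i).re : ℂ)) = c from funext fun i => Complex.conj_eq_iff_re.1 (congrFun h6 i)]
      exact Multiset.mem_toFinset.1 h5
    · by_contra h
      have : 0 ≤ r c (Q (a, v)) := by
        rw [b2]
        refine qF_nonneg (Nat.succ_pos _) ?_
        rw [d0, c0]
        linarith [mul_nonneg τ0.le (neg_nonneg.2 (not_lt.1 h))]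
      exact h4.not_ge (by positivity)
  · rintro ⟨x, h1, h2⟩
    obtain ⟨p, hp⟩ := S.real hF a
    have p0 : p ≠ 0 := fun h => Wp_ne _ (by rw [← hp, h, Polynomial.map_zero])
    have b4 : ∀ c ∈ S0, ∀ j, r c (V a j) = (Polynomial.derivative^[j] p).eval (r c (F a)) := fun c hc j => by
      apply Complex.ofReal_injective
      rw [ofReal_ev (mem_filter.1 hc).2, eV, ← hp, ← ofReal_ev (mem_filter.1 hc).2,
        Polynomial.iterate_derivative_map]
      exact Polynomial.eval_map_apply Complex.ofRealHom _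
    have b5 : ∀ c ∈ S0, p.eval (r c (F a)) = 0 := fun c hc => by
      apply Complex.ofReal_injective
      have := Wp_root (Multiset.mem_map_of_mem (fun c => ev (pt 0 c) (F a))
        (Multiset.mem_toFinset.1 (mem_filter.1 hc).1))
      rw [← Sys.val, ← hp, ← ofReal_ev (mem_filter.1 hc).2] at this
      exact (Polynomial.eval_map_apply Complex.ofRealHom _).symm.trans this
    have b6 : ∀ c ∈ S0, ∀ z < B, 1 ≤ |condF τ (fun i => r c (y a i)) z| ∧
        |condF τ (fun i => r c (y a i)) z| < 2 ^ (2 * 2 ^ q1 a + 2) := fun c hc z hz => by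
      obtain ⟨h3, h4⟩ := b1 c hc (z / 4) (by omega)
      obtain ⟨h5, h6⟩ := condF_abs (y := fun i => r c (y a i)) τ0.le h4
      refine ⟨h5, h6.trans_lt ?_⟩
      have : (1 : ℝ) ≤ 2 ^ 2 ^ q1 a := one_le_pow₀ one_le_two
      rw [pow_add, mul_comm 2, pow_mul]
      nlinarith [mul_le_mul_of_nonneg_left h3 τ0.le]
    have hx : (fun i => (x i : ℂ)) ∈ S0 := mem_filter.2 ⟨Multiset.mem_toFinset.2 h1, funext fun i => by simp⟩
    refine (isolate (B := B) (fun z c => 0 < condF τ (fun i => r c (y a i)) z)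
      (S.D a).size (S0.filter fun c => 0 < condF τ (fun i => r c (y a i)) 0) (fun c hc c' hc' hne => ?_)
      (fun c hc => ⟨0, B0, (mem_filter.1 hc).2⟩) ⟨_, mem_filter.2 ⟨hx, ?_⟩⟩ ?_).elim
      fun w ⟨w1, c, hc, w2, w3⟩ => ?_
    rotate_right
    · obtain ⟨v, hv, hw⟩ := exists_dig _ w w1
      have d1 : ∀ j < (S.D a).size, dig B (j + 1) (B * v) = w j := fun j hj => by
        rw [← hw j hj]; simpa using dig_succ j v B0
      refine ⟨v, hv, ?_⟩
      obtain ⟨ρ, h3, h4⟩ := b3 v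
      obtain ⟨h5, h6⟩ := mem_filter.1 hc
      have h7 : r c (Q (a, v)) < 0 := by
        rw [b2]
        refine qF_neg fun j hj => ?_
        have := b6 c h5 (dig B j (B * v)) (Nat.mod_lt _ B0)
        rwa [abs_of_pos] at this
        cases j with
        | zero => rwa [d0]
        | succ j => rw [d1 j (by omega)]; exact w2 j (by omega)
      have h8 := (e2 (a, v) _ (Multiset.mem_map_of_mem _ (Multiset.mem_toFinset.1 (mem_filter.1 h5).1))).2
      rw [← ofReal_ev (mem_filter.1 h5).2, Complex.norm_real, Real.norm_eq_abs, Complex.ofReal_ne_zero,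
        abs_of_neg h7] at h8
      have h9 : (ev (0 : ℕ → ℤ) (N (a, v)) : ℝ) < 0 := by
        rw [h4, ← mul_prod_erase _ _ h5]
        refine mul_neg_of_pos_of_neg h3 (mul_neg_of_neg_of_pos (by linarith [h8 h7.ne])
          (prod_pos fun c' hc' => ?_))
        have : 0 ≤ r c' (Q (a, v)) := by
          rw [b2]
          by_contra hn
          have : ∀ j < (S.D a).size + 1, 0 < condF τ (fun i => r c' (y a i)) (dig B j (B * v)) :=
            fun j hj => not_le.1 fun h => hn (qF_nonneg hj h)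
          refine (mem_erase.1 hc').1 (w3 c' (mem_filter.2 ⟨(mem_erase.1 hc').2, ?_⟩) fun j hj => ?_)
          · rw [← d0 v]; exact this 0 (by omega)
          · rw [← d1 j hj]; exact this _ (by omega)
        positivity
      exact_mod_cast h9
    · have hc := (mem_filter.1 hc).1
      have hc' := (mem_filter.1 hc').1
      obtain ⟨j, j0, j1, hj⟩ := thom p0 (r := r c (F a)) (r' := r c' (F a)) (fun h => hne
        (Multiset.inj_on_of_nodup_map hnd _ (Multiset.mem_toFinset.1 (mem_filter.1 hc).1) _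
          (Multiset.mem_toFinset.1 (mem_filter.1 hc').1) (by
            rw [← ofReal_ev (mem_filter.1 hc).2, ← ofReal_ev (mem_filter.1 hc').2]
            exact congrArg _ h))) (b5 c hc) (b5 c' hc')
      rw [← Polynomial.natDegree_map Complex.ofRealHom, hp, Wp_natDegree, Sys.card_val] at j1
      obtain ⟨z, hz, z', hz', h3, h4, h5⟩ := condF_sep (τ := τ) (y := fun i => r c (y a i))
        (y' := fun i => r c' (y a i)) (b1 c hc j j1).2 (b1 c' hc' j j1).2
        (by simp only [hyd, if_neg j0.ne', b4 c hc, b4 c' hc']; exact hj)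
      exact ⟨z, by omega, z', by omega, h3, h4, fun u h => by rw [h5] at h; linarith [h.1, h.2]⟩
    · have h3 : r (fun i => (x i : ℂ)) (U a) = ev (pt 0 x) (U a) := by simp [r]
      have h4 := (b1 _ hx 0 (Nat.zero_le _)).2
      simp only [hyd, if_true, h3, abs_of_pos h2] at h4
      rw [c0, h3]; linarith [h4 h2.ne']
    · refine (card_filter_le _ _).trans ((card_filter_le _ _).trans ((Multiset.toFinset_card_le _).trans ?_))
      rw [← Multiset.card_map fun c => ev (pt 0 c) (F a), ← Sys.val, Sys.card_val]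
      exact (Nat.lt_size_self _).le

end Vale.Agent.P337
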