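import Vale.Agent.P337.Trace2

/-! Definable traces, characteristic polynomials, norms and discriminants. -/

namespace Vale.Agent.P337

open Vale.Agent.PT Finset MvPolynomial

variable {α δ : Type} [Ctx Bool α] [Ctx Bool δ]

def th {K : Type} [CommRing K] (Λ : K) (j : ℕ) : K := if j = 0 then Λ else 0

def pt {K : Type} [CommRing K] {n : ℕ} (Λ : K) (c : Fin n → K) : ℕ → K := blk 2 (th Λ) c

theorem th_zero {K : Type} [CommRing K] : th (0 : K) = 0 := funext fun j => by simp [th]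

theorem pt_zero {K : Type} [CommRing K] {n : ℕ} (Λ : K) : pt Λ (0 : Fin n → K) = th Λ :=
  funext fun j => by
    unfold pt blk
    split_ifs with h
    · rw [th, if_neg (by omega)]; rfl
    · rfl

theorem hom_pt {K K' : Type} [CommRing K] [CommRing K'] {n : ℕ} (φ : K →+* K') (Λ : K) (c : Fin n → K)
    (P : Pl) : φ (ev (pt Λ c) P) = ev (pt (φ Λ) fun i => φ (c i)) P := by
  rw [hom_ev, pt, hom_blk]
  congr 3
  funext j
  simp [th, apply_ite φ]

theorem ev_zero_cast (P : Pl) : ev (th (0 : ℂ)) P = (ev (0 : ℕ → ℤ) P : ℤ) := by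
  rw [← eq_intCast (Int.castRingHom ℂ), hom_ev, th_zero]
  simp [Pi.zero_def]

structure Sys (α : Type) [Ctx Bool α] where
  n : α → ℕ
  d : α → ℕ
  G : α → ℕ → Pl
  hn : CU n
  hd : CU d
  hG : Def fun x : α × ℕ => G x.1 x.2
  pos : ∀ a, 0 < d a
  low : ∀ a i, Low (d a) (G a i)

theorem fac_ne (n k : ℕ) : (n.factorial : ℂ) ^ k ≠ 0 := pow_ne_zero _ (Nat.cast_ne_zero.2 n.factorial_ne_zero)

theorem Wp_natDegree (s : Multiset ℂ) : (Wp s).natDegree = s.card := by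
  rw [Wp, Polynomial.natDegree_C_mul (fac_ne _ _), Polynomial.natDegree_multiset_prod_X_sub_C_eq_card]

theorem Wp_top (s : Multiset ℂ) : (Wp s).coeff s.card ≠ 0 := by
  rw [← Wp_natDegree, Polynomial.coeff_natDegree, Wp, Polynomial.leadingCoeff_mul,
    Polynomial.leadingCoeff_C, (Polynomial.monic_multiset_prod_of_monic _ _ fun a _ =>
      Polynomial.monic_X_sub_C a).leadingCoeff, mul_one]
  exact fac_ne _ _

theorem Wp_ne (s : Multiset ℂ) : Wp s ≠ 0 := fun h => Wp_top s (by simp [h])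

theorem Wp_eval (s : Multiset ℂ) (t : ℂ) : (Wp s).eval t =
    (s.card.factorial : ℂ) ^ (s.card + 1) * (s.map fun y => t - y).prod := by
  simp [Wp, Polynomial.eval_multiset_prod]

theorem Wp_root {s : Multiset ℂ} {t : ℂ} (h : t ∈ s) : (Wp s).eval t = 0 := by
  rw [Wp_eval, Multiset.prod_eq_zero (Multiset.mem_map.2 ⟨t, h, sub_self _⟩), mul_zero]

theorem Wp_nodup (s : Multiset ℂ) : (∀ r ∈ s, (Wp s).derivative.eval r ≠ 0) ↔ s.Nodup := by
  classical
  rw [Multiset.nodup_iff_count_eq_one]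
  refine forall₂_congr fun r hr => ?_
  have := Multiset.count_pos.2 hr
  rw [Wp, Polynomial.derivative_C_mul, Polynomial.eval_mul, Polynomial.eval_C,
    Polynomial.eval_multiset_prod_X_sub_C_derivative hr, mul_ne_zero_iff_left (fac_ne _ _), Ne,
    Multiset.prod_eq_zero_iff, Multiset.mem_map]
  simp only [sub_eq_zero, exists_eq_right', ← Multiset.count_pos, Multiset.count_erase_self]
  omega

theorem root_lt {p : Polynomial ℂ} {L : ℝ} (hL : 0 ≤ L) (hp : p ≠ 0) (h1 : 1 ≤ ‖p.leadingCoeff‖)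
    (h2 : ∀ k < p.natDegree, ‖p.coeff k‖ ≤ L) {r : ℂ} (hr : p.eval r = 0) : ‖r‖ < L + 1 := by
  lift L to NNReal using hL
  have h := Polynomial.IsRoot.norm_lt_cauchyBound hp hr
  have h4 : (range p.natDegree).sup (‖p.coeff ·‖₊) ≤ L := Finset.sup_le fun k hk => h2 k (mem_range.1 hk)
  have h5 : 1 ≤ ‖p.leadingCoeff‖₊ := h1
  have h3 : p.cauchyBound ≤ L + 1 := add_le_add_left ((div_le_self zero_le h5).trans h4) _
  exact_mod_cast h.trans_le h3

def IntB (L : ℕ) (p : Polynomial ℂ) : Prop := ∀ k, ∃ z : ℤ, |z| ≤ L ∧ p.coeff k = z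

theorem IntB.root {L : ℕ} {p : Polynomial ℂ} (h : IntB L p) (hp : p ≠ 0) {r : ℂ} (hr : p.eval r = 0) :
    ‖r‖ < L + 1 := by
  refine root_lt (Nat.cast_nonneg _) hp ?_ (fun k _ => ?_) hr
  · obtain ⟨z, -, e⟩ := h p.natDegree
    have h0 := Polynomial.leadingCoeff_ne_zero.2 hp
    rw [Polynomial.leadingCoeff, e] at h0 ⊢
    rw [Complex.norm_intCast]
    exact_mod_cast Int.one_le_abs (by exact_mod_cast h0)
  · obtain ⟨z, h, e⟩ := h k
    rw [e, Complex.norm_intCast]; exact_mod_cast h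

theorem IntB.root' {L : ℕ} {p : Polynomial ℂ} (h : IntB L p) (hp : p ≠ 0) {r : ℂ} (hr : p.eval r = 0)
    (h0 : r ≠ 0) : 1 ≤ (L + 1) * ‖r‖ := by
  haveI := invertibleOfNonzero h0
  have h1 : IntB L p.reverse := fun k => by rw [Polynomial.coeff_reverse]; exact h _
  have h2 := h1.root (Polynomial.reverse_eq_zero.not.2 hp)
    ((Polynomial.eval₂_reverse_eq_zero_iff (RingHom.id ℂ) r p).2 hr)
  rw [invOf_eq_inv, norm_inv, inv_lt_iff_one_lt_mul₀ (norm_pos_iff.2 h0)] at h2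
  exact h2.le

namespace Sys

variable (S : Sys α)

def D (a : α) : ℕ := S.d a ^ S.n a

noncomputable def pts (a : α) (Λ : ℂ) : Multiset (Fin (S.n a) → ℂ) :=
  P337.pts (S.d a) fun i => sp 2 (S.n a) (th Λ) (S.G a i)

noncomputable def val (a : α) (Λ : ℂ) (P : Pl) : Multiset ℂ := (S.pts a Λ).map fun c => ev (pt Λ c) P

theorem ok (a : α) (Λ : ℂ) : 0 < S.d a ∧ ∀ i : Fin (S.n a), Low (S.d a) (sp 2 (S.n a) (th Λ) (S.G a i)) :=
  ⟨S.pos a, fun _ => (S.low a _).sp _ _ _⟩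

theorem card_val (a : α) (Λ : ℂ) (P : Pl) : (S.val a Λ P).card = S.D a := by
  rw [val, Multiset.card_map]; exact (pts_spec (S.ok a Λ)).1

theorem mem_pts {a : α} {Λ : ℂ} {c : Fin (S.n a) → ℂ} :
    c ∈ S.pts a Λ ↔ ∀ i, c i ^ S.d a + ev (pt Λ c) (S.G a i) = 0 := by
  rw [pts, (pts_spec (S.ok a Λ)).2.1]; simp only [eval_sp]; rfl

theorem hD : CF S.D := S.hd.cf.pow S.hn

variable {g : δ → α} (hg : CF g) {y : δ → Pl} (hy : Def y)
include hg hy

theorem trace : ∃ T : δ → Pl, Def T ∧ ∀ a Λ, ev (th Λ) (T a) = (S.val (g a) Λ (y a)).sum := by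
  obtain ⟨q, hq, h⟩ := hy.bound
  have hn := S.hn
  have hd := S.hd
  have hG := S.hG
  refine ⟨fun a => trF (fun i => X (2 + i)) (S.G (g a)) (cf 2 (S.n (g a)) (S.d (g a) *
    (2 ^ q a + 1 + S.n (g a) * S.d (g a)) + (S.d (g a) - 1))) (S.n (g a)) (S.d (g a))
    (2 ^ q a + 1 + S.n (g a) * S.d (g a)) (y a), ?_, fun a Λ => ?_⟩
  · unfold trF nmF rhoF moF mrF ssF
    fun_prop
  · rw [map_trF _ _ _ _ _ _ (sp 2 (S.n (g a)) (th Λ)) _ _ (ev_cf _ _ _ _),
      trF_eq (S.ok (g a) Λ).2 (S.pos _) (fun i => by rw [sp, ev_X, blk_add]) (fun _ => rfl)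
        ((h a).low.sp _ _ _) le_rfl, (pts_spec (S.ok (g a) Λ)).2.2]
    simp only [eval_sp]; rfl

theorem char : ∃ W : δ → ℕ → Pl, (Def fun x : δ × ℕ => W x.1 x.2) ∧ ∀ a Λ k (c : Fin (S.n (g a)) → ℂ),
    ev (pt Λ c) (W a k) = (Wp (S.val (g a) Λ (y a))).coeff k := by
  obtain ⟨T, hT, h⟩ := S.trace (g := fun x : δ × ℕ => g x.1) (y := fun x => (-y x.1) ^ x.2)
    (by fun_prop) (by fun_prop)
  have hn := S.hn
  have hD := S.hD
  refine ⟨fun a k => if S.D (g a) < k then 0 else cf 2 (S.n (g a)) 0 (cf 1 1 (S.D (g a) - k)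
    (nwF (S.D (g a)) (fun j => cf 1 1 0 (T (a, j))) (X 1))), ?_, fun a Λ k c => ?_⟩
  · unfold nwF lgF facE facG
    fun_prop
  beta_reduce
  split_ifs with hk
  · rw [map_zero, Polynomial.coeff_eq_zero_of_natDegree_lt]
    rwa [Wp_natDegree, card_val]
  have e : ∀ j, uv 1 (th Λ) (cf 1 1 0 (T (a, j))) =
      Polynomial.C (((S.val (g a) Λ (y a)).map Neg.neg).map (· ^ j)).sum := fun j => by
    refine Polynomial.funext fun s => ?_
    have : blk 1 (Function.update (th Λ) 1 s) (0 : Fin 1 → ℂ) = th Λ := funext fun i => by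
      unfold blk
      split_ifs with h
      · rw [th, if_neg (by omega)]; rfl
      · exact Function.update_of_ne (by omega) _ _
    rw [eval_uv, ev_cf_zero, this, h, Polynomial.eval_C]
    simp [val]
  rw [ev_cf_zero, pt, blk_blk, ← pt, pt_zero, ev_cf1, map_nwF, Wp_coeff _ (by rw [card_val]; omega),
    card_val, ← newton _ _ (Nat.sub_le _ _)]
  simp only [e]
  simp [uv]

theorem norm : ∃ N : δ → Pl, Def N ∧ ∀ a Λ, ev (th Λ) (N a) =
    ((S.D (g a)).factorial : ℂ) ^ (S.D (g a) + 1) * (S.val (g a) Λ (y a)).prod := by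
  obtain ⟨W, hW, h⟩ := S.char hg hy.neg
  refine ⟨fun a => W a 0, by fun_prop, fun a Λ => ?_⟩
  rw [← pt_zero, h, Polynomial.coeff_zero_eq_eval_zero, Wp_eval, card_val]
  simp [val]

theorem bound : ∃ q : δ → ℕ, CU q ∧ ∀ a, ∀ r ∈ S.val (g a) 0 (y a),
    ‖r‖ ≤ 2 ^ 2 ^ q a ∧ (r ≠ 0 → 1 ≤ 2 ^ 2 ^ q a * ‖r‖) := by
  obtain ⟨W, hW, h⟩ := S.char hg hy
  have hD := S.hD
  obtain ⟨q, hq, h'⟩ := hW.ubound (N := fun a => S.D (g a)) (by fun_prop)
  refine ⟨fun a => q a + 1, by fun_prop, fun a r hr => ?_⟩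
  have h1 : IntB (2 ^ 2 ^ q a) (Wp (S.val (g a) 0 (y a))) := fun k => by
    by_cases hk : k ≤ S.D (g a)
    · exact ⟨_, (h' a k hk).abs_ev, by rw [← h a 0 k 0, pt_zero, ev_zero_cast]⟩
    · exact ⟨0, by simp, by
        rw [Polynomial.coeff_eq_zero_of_natDegree_lt (by rw [Wp_natDegree, card_val]; omega)]; simp⟩
  have h2 : ((2 ^ 2 ^ q a : ℕ) : ℝ) + 1 ≤ 2 ^ 2 ^ (q a + 1) := by
    have : (2 : ℝ) ^ 1 ≤ 2 ^ 2 ^ q a := pow_le_pow_right₀ (by norm_num) (Nat.two_pow_pos _)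
    rw [pow_succ, pow_mul]; push_cast; nlinarith
  exact ⟨(h1.root (Wp_ne _) (Wp_root hr)).le.trans h2, fun h0 => (h1.root' (Wp_ne _) (Wp_root hr) h0).trans
    (mul_le_mul_of_nonneg_right h2 (norm_nonneg _))⟩

theorem deriv : ∃ V : δ → ℕ → Pl, (Def fun x : δ × ℕ => V x.1 x.2) ∧ ∀ a Λ j (c : Fin (S.n (g a)) → ℂ),
    ev (pt Λ c) (V a j) =
      (Polynomial.derivative^[j] (Wp (S.val (g a) Λ (y a)))).eval (ev (pt Λ c) (y a)) := by
  obtain ⟨W, hW, h⟩ := S.char hg hy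
  have hD := S.hD
  refine ⟨fun a j => ∑ m ∈ range (S.D (g a) + 1), (∏ t ∈ range j, ((m + j - t : ℕ) : Pl)) * W a (m + j) *
    y a ^ m, by fun_prop, fun a Λ j c => ?_⟩
  rw [Polynomial.eval_eq_sum_range' (n := S.D (g a) + 1) (Nat.lt_succ_of_le
    ((Polynomial.natDegree_iterate_derivative _ _).trans (by rw [Wp_natDegree, card_val]; omega))), map_sum]
  refine sum_congr rfl fun m _ => ?_
  rw [Polynomial.coeff_iterate_derivative, Nat.descFactorial_eq_prod_range, map_mul, map_mul, h]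
  simp

theorem disc : ∃ Δ : δ → Pl, Def Δ ∧ ∀ a (Λ : ℂ), ev (th Λ) (Δ a) ≠ 0 ↔ (S.val (g a) Λ (y a)).Nodup := by
  obtain ⟨V, hV, h⟩ := S.deriv hg hy
  obtain ⟨N, hN, h'⟩ := S.norm hg (y := fun a => V a 1) (by fun_prop)
  refine ⟨N, hN, fun a Λ => ?_⟩
  rw [h', mul_ne_zero_iff_left (fac_ne _ _), Ne, Multiset.prod_eq_zero_iff, ← Wp_nodup, val,
    Multiset.mem_map]
  simp only [h, Function.iterate_one, val, Multiset.forall_mem_map_iff]
  simp

end Sys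

end Vale.Agent.P337
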