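import Vale.Agent.P337.DefC

/-! An explicit formula for traces in `K[x] / (x_i ^ d + G_i)`. -/

namespace Vale.Agent.P337

open Finset MvPolynomial

section formula

variable {B R B' R' : Type} [CommRing B] [CommRing R] [CommRing B'] [CommRing R']
  (x G : ℕ → B) (κ : B → R) (n d J : ℕ)

def moF (a : ℕ) : B := ∏ i ∈ range n, x i ^ dig d i a

def mrF (a : ℕ) : B := ∏ i ∈ range n, x i ^ (d - 1 - dig d i a)

def ssF : B := ∏ i ∈ range n, ∑ k ∈ range (J + 1), (-G i) ^ k * (x i ^ d) ^ (J - k)

def rhoF (h : B) (b : ℕ) : R := κ (h * (mrF x n d b * ssF x G n d J))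

def nmF (b a : ℕ) : R := (if b = a then 1 else 0) - rhoF x G κ n d J (moF x n d a) b

def trF (h : B) : R := ∑ k ∈ range (n * d + 1), ∑ w ∈ range ((d ^ n) ^ (min k (n * d) + 1)),
  (∏ i ∈ range k, nmF x G κ n d J (dig (d ^ n) i w) (dig (d ^ n) (i + 1) w)) *
    rhoF x G κ n d J (h * moF x n d (dig (d ^ n) 0 w)) (dig (d ^ n) k w)

theorem map_trF (φ : B →+* B') (ψ : R →+* R') (κ' : B' → R') (hκ : ∀ P, ψ (κ P) = κ' (φ P)) (h : B) :
    ψ (trF x G κ n d J h) = trF (fun i => φ (x i)) (fun i => φ (G i)) κ' n d J (φ h) := by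
  simp [trF, nmF, rhoF, moF, mrF, ssF, hκ, apply_ite ψ]

theorem dig_zero {D r : ℕ} (y : ℕ) (h : r < D) : dig D 0 (r + D * y) = r := by
  simp [dig, Nat.mod_eq_of_lt h]

theorem dig_succ {D r : ℕ} (i y : ℕ) (h : r < D) : dig D (i + 1) (r + D * y) = dig D i y := by
  rw [dig, dig, pow_succ', ← Nat.div_div_eq_div_mul, Nat.add_mul_div_left _ _ (by omega),
    Nat.div_eq_of_lt h, zero_add]

theorem path_sum (D : ℕ) (N : ℕ → ℕ → R) (k : ℕ) (Φ : ℕ → ℕ → R) :
    ∑ w ∈ range (D ^ (k + 1)), (∏ i ∈ range k, N (dig D i w) (dig D (i + 1) w)) * Φ (dig D 0 w) (dig D k w) =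
      ∑ a : Fin D, ∑ b : Fin D, ((Matrix.of fun a b : Fin D => N a b) ^ k) a b * Φ a b := by
  induction k generalizing Φ with
  | zero =>
    rw [zero_add, pow_one, sum_range]
    refine sum_congr rfl fun a _ => ?_
    simp [dig, Nat.mod_eq_of_lt a.2, Matrix.one_apply]
  | succ k ih =>
    rw [pow_succ, sum_range_mul, sum_comm, sum_range]
    refine sum_congr rfl fun a _ => ?_
    simp only [prod_range_succ', dig_zero _ a.2, dig_succ _ _ a.2, mul_assoc]
    rw [ih fun c b => N a c * Φ a b, sum_comm]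
    simp only [pow_succ', Matrix.mul_apply, sum_mul, Matrix.of_apply]
    exact sum_congr rfl fun _ _ => sum_congr rfl fun _ _ => by ring

end formula

section top

variable {σ R : Type} [CommRing R]

def Top (m : σ →₀ ℕ) (P : MvPolynomial σ R) : Prop := Low m.degree (P - monomial m 1)

theorem Top.monomial (m : σ →₀ ℕ) : Top m (monomial m (1 : R)) := by simpa [Top] using Low.zero

theorem Top.low {m : σ →₀ ℕ} {P : MvPolynomial σ R} (h : Top m P) : Low (m.degree + 1) P := by
  simpa using (Low.mono h (Nat.le_succ _)).add (Low.monomial (Nat.lt_succ_self _) 1)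

theorem Top.mul {m m' : σ →₀ ℕ} {P Q : MvPolynomial σ R} (h : Top m P) (h' : Top m' Q) :
    Top (m + m') (P * Q) := by
  have e1 := h'.low
  have e2 := (Low.mul h e1).add ((Low.mul h' (Low.monomial (Nat.lt_succ_self m.degree) 1)).mono
    (Nat.le_of_eq (add_comm _ _)))
  rw [Top, map_add, ← mul_one (1 : R), ← monomial_mul]
  convert e2 using 1; ring

theorem Top.prod {ι : Type} {s : Finset ι} {m : ι → σ →₀ ℕ} {P : ι → MvPolynomial σ R}
    (h : ∀ i, Top (m i) (P i)) : Top (∑ i ∈ s, m i) (∏ i ∈ s, P i) := by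
  classical
  induction s using Finset.induction_on with
  | empty => exact Top.monomial 0
  | insert i s hi ih => rw [sum_insert hi, prod_insert hi]; exact (h i).mul ih

end top

section field

variable {K : Type} [Field K] {n d : ℕ} (G : Fin n → MvPolynomial (Fin n) K)

noncomputable def ex (n d a : ℕ) : Fin n →₀ ℕ := Finsupp.equivFunOnFinite.symm fun i => dig d i a

noncomputable def exr (n d a : ℕ) : Fin n →₀ ℕ := Finsupp.equivFunOnFinite.symm fun i => d - 1 - dig d i a

theorem prod_X_pow (e : Fin n → ℕ) :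
    ∏ i, (X i : MvPolynomial (Fin n) K) ^ e i = monomial (Finsupp.equivFunOnFinite.symm e) 1 := by
  rw [monomial_eq, C_1, one_mul, Finsupp.prod_fintype _ _ fun _ => pow_zero _]; rfl

theorem ex_inj {a b : Fin (d ^ n)} (h : ex n d a = ex n d b) : a = b :=
  finFunctionFinEquiv.symm.injective (funext fun i => Fin.ext (by
    rw [finFunctionFinEquiv_symm_apply_val, finFunctionFinEquiv_symm_apply_val]
    exact DFunLike.congr_fun h i))

noncomputable def sysF (d : ℕ) (i : Fin n) : MvPolynomial (Fin n) K := X i ^ d + G i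

noncomputable def IK (d J : ℕ) : Submodule K (MvPolynomial (Fin n) K) :=
  Submodule.span K {P | ∃ m i, m.degree + d ≤ J ∧ P = monomial m 1 * sysF G d i}

theorem IK_mono {J J' : ℕ} (h : J ≤ J') : IK G d J ≤ IK G d J' :=
  Submodule.span_mono fun _ ⟨m, i, h1, h2⟩ => ⟨m, i, h1.trans h, h2⟩

noncomputable def tau (K : Type) [Field K] (n d : ℕ) : (Fin (d ^ n) → K) →ₗ[K] MvPolynomial (Fin n) K :=
  Fintype.linearCombination K fun a => monomial (ex n d a) 1

theorem monomial_smul (m : Fin n →₀ ℕ) (c : K) : monomial m c = c • monomial m (1 : K) := by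
  rw [smul_monomial, smul_eq_mul, mul_one]

theorem mul_mem_IK {J : ℕ} {P : MvPolynomial (Fin n) K} (h : Low J P) (i : Fin n) :
    P * sysF G d i ∈ IK G d (J + d) := by
  refine h.ind (p := fun P => P * sysF G d i ∈ IK G d (J + d)) (by simp)
    (fun x y hx hy => by rw [add_mul]; exact add_mem hx hy) fun m c hm => ?_
  rw [monomial_smul, smul_mul_assoc]
  exact Submodule.smul_mem _ _ (Submodule.subset_span ⟨m, i, by omega, rfl⟩)

variable {G} (hG : ∀ i, Low d (G i))
include hG

theorem division (J : ℕ) : ∀ P, Low J P → P ∈ LinearMap.range (tau K n d) ⊔ IK G d J := by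
  classical
  induction J with
  | zero => exact fun P h => h.ind (zero_mem _) (fun _ _ => add_mem) fun m c hm => by omega
  | succ J ih =>
    refine fun P h => h.ind (zero_mem _) (fun _ _ => add_mem) fun m c hm => ?_
    rw [monomial_smul]
    refine Submodule.smul_mem _ _ ?_
    by_cases hb : ∀ i, m i < d
    · obtain ⟨v, hv, h⟩ := exists_dig (B := d) n (fun j => if h : j < n then m ⟨j, h⟩ else 0)
        fun j hj => by simp [hj, hb]
      refine Submodule.mem_sup_left ⟨Pi.single ⟨v, hv⟩ 1, ?_⟩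
      rw [tau, Fintype.linearCombination_apply_single, one_smul]
      congr 2
      ext i
      simpa [ex] using h i i.2
    · push Not at hb
      obtain ⟨i, hi⟩ := hb
      obtain ⟨m', rfl⟩ := exists_add_of_le (Finsupp.single_le_iff.2 hi)
      rw [map_add, Finsupp.degree_single] at hm
      have e : monomial (Finsupp.single i d + m') (1 : K) =
          monomial m' 1 * sysF G d i - G i * monomial m' 1 := by
        rw [sysF, X_pow_eq_monomial, mul_add, monomial_mul, add_comm m', mul_comm (G i)]; simp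
      rw [e]
      refine sub_mem (Submodule.mem_sup_right (Submodule.subset_span ⟨m', i, by omega, rfl⟩)) ?_
      exact sup_le_sup_left (IK_mono G (Nat.le_succ J)) _
        (ih _ (((hG i).mul (Low.monomial (Nat.lt_succ_self _) 1)).mono (by omega)))

omit hG in
noncomputable def SS (G : Fin n → MvPolynomial (Fin n) K) (d J : ℕ) (i : Fin n) : MvPolynomial (Fin n) K :=
  ∑ k ∈ range (J + 1), (-G i) ^ k * (X i ^ d) ^ (J - k)

theorem top_SS (hd : 0 < d) (J : ℕ) (i : Fin n) : Top (Finsupp.single i (d * J)) (SS G d J i) := by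
  obtain ⟨e, rfl⟩ := Nat.exists_eq_add_of_le' hd
  rw [Top, SS, sum_range_succ', ← X_pow_eq_monomial, pow_mul, Finsupp.degree_single]
  simp only [pow_zero, one_mul, Nat.sub_zero, add_sub_cancel_right]
  refine Low.sum fun k hk => ?_
  obtain ⟨j, rfl⟩ := Nat.exists_eq_add_of_lt (mem_range.1 hk)
  refine (((hG i).neg.pow _).mul (((Low.X i).pow _).pow _)).mono ?_
  rw [show k + j + 1 - (k + 1) = j by omega]
  nlinarith

omit hG in
noncomputable def rho (G : Fin n → MvPolynomial (Fin n) K) (d J : ℕ) :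
    MvPolynomial (Fin n) K →ₗ[K] (Fin (d ^ n) → K) :=
  LinearMap.pi fun b => lcoeff K (cst n (d * J + (d - 1))) ∘ₗ
    LinearMap.mulRight K (monomial (exr n d b) 1 * ∏ i, SS G d J i)

omit hG in
theorem rho_apply (J : ℕ) (P : MvPolynomial (Fin n) K) (b : Fin (d ^ n)) : rho G d J P b =
    coeff (cst n (d * J + (d - 1))) (P * (monomial (exr n d b) 1 * ∏ i, SS G d J i)) := rfl

theorem rho_IK (hd : 0 < d) {J : ℕ} : IK G d J ≤ LinearMap.ker (rho G d J) := by
  classical
  refine Submodule.span_le.2 ?_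
  rintro _ ⟨m, i, hm, rfl⟩
  ext b
  have e := geom_sum₂_mul (-G i) (X i ^ d) (J + 1)
  rw [rho_apply, ← mul_prod_erase _ _ (mem_univ i)]
  set A := monomial m 1 * monomial (exr n d b) (1 : K) * ∏ j ∈ univ.erase i, SS G d J j with hA
  have e2 : monomial m 1 * sysF G d i * (monomial (exr n d b) 1 * (SS G d J i *
      ∏ j ∈ univ.erase i, SS G d J j)) = A * (X i ^ d) ^ (J + 1) - A * (-G i) ^ (J + 1) := by
    rw [hA, sysF, SS]
    simp only [Nat.add_sub_cancel] at e
    linear_combination (-(monomial m 1 * monomial (exr n d b) (1 : K) * ∏ j ∈ univ.erase i, SS G d J j)) * e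
  rw [e2, coeff_sub, ← pow_mul, X_pow_eq_monomial, coeff_mul_monomial', if_neg, zero_sub, Pi.zero_apply,
    neg_eq_zero]
  · clear e e2 hA
    obtain ⟨e, rfl⟩ := Nat.exists_eq_add_one_of_ne_zero hd.ne'
    have h1 : ∀ j, Low ((e + 1) * J + 1) (SS G (e + 1) J j) := fun j => by
      have := (top_SS hG hd J j).low
      rwa [Finsupp.degree_single] at this
    have h2 : (exr n (e + 1) b).degree ≤ n * e := by
      rw [Finsupp.degree_eq_sum]
      simpa using sum_le_card_nsmul univ (exr n (e + 1) b) e fun j _ => by simp [exr]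
    refine ((((Low.monomial (Nat.lt_succ_self _) 1).mul (Low.monomial (Nat.lt_succ_of_le h2) 1)).mul
      (Low.prod fun j _ => h1 j)).mul ((hG i).neg.pow _)) _ ?_
    obtain ⟨k, rfl⟩ := Nat.exists_eq_add_of_le' (Fin.pos i)
    simp [Finsupp.degree_eq_sum] at hm ⊢
    nlinarith
  · rw [Finsupp.single_le_iff, cst_apply, mul_add]; omega

theorem rho_tri (hd : 0 < d) (J : ℕ) {a b : Fin (d ^ n)} (h : (ex n d a).degree ≤ (ex n d b).degree) :
    rho G d J (monomial (ex n d a) 1) b = if b = a then 1 else 0 := by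
  classical
  have h1 := (Top.monomial (ex n d a)).mul ((Top.monomial (exr n d b)).mul
    (Top.prod (s := univ) (top_SS hG hd J)))
  have h2 : cst n (d * J + (d - 1)) = ex n d b + (exr n d b + ∑ i, Finsupp.single i (d * J)) := by
    ext i
    have : dig d i b < d := Nat.mod_lt _ hd
    simp [ex, exr, Finsupp.finset_sum_apply, Finsupp.single_apply]; omega
  have h3 := h1 (cst n (d * J + (d - 1))) (by rw [h2, map_add, map_add (x := ex n d b)]; omega)
  rw [coeff_sub, sub_eq_zero, coeff_monomial] at h3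
  rw [rho_apply, h3, h2]
  congr 1
  exact propext ⟨fun h => (ex_inj (add_right_cancel h)).symm, fun h => by rw [h]⟩

omit hG in
noncomputable def NM (G : Fin n → MvPolynomial (Fin n) K) (d J : ℕ) : Matrix (Fin (d ^ n)) (Fin (d ^ n)) K :=
  Matrix.of fun b a => (if b = a then 1 else 0) - rho G d J (monomial (ex n d a) 1) b

theorem NM_pow (hd : 0 < d) (J k : ℕ) : ∀ a b, (NM G d J ^ k) b a ≠ 0 →
    (ex n d b).degree + k ≤ (ex n d a).degree := by
  induction k with
  | zero => intro a b h; rw [pow_zero] at h; rw [not_not.1 (mt Matrix.one_apply_ne h)]; rfl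
  | succ k ih =>
    intro a b h
    rw [pow_succ, Matrix.mul_apply] at h
    obtain ⟨c, -, hc⟩ := exists_ne_zero_of_sum_ne_zero h
    have h1 := ih c b (left_ne_zero_of_mul hc)
    have h2 : (ex n d c).degree < (ex n d a).degree := not_le.1 fun h' =>
      right_ne_zero_of_mul hc (by rw [NM, Matrix.of_apply, rho_tri hG hd J h', sub_self])
    omega

theorem nf_tau (hd : 0 < d) (J : ℕ) (r : Fin (d ^ n) → K) :
    (∑ k ∈ range (n * d + 1), NM G d J ^ k).mulVec (rho G d J (tau K n d r)) = r := by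
  have h1 : NM G d J ^ (n * d + 1) = 0 := by
    ext b a
    by_contra h
    have h1 := NM_pow hG hd J _ a b h
    have h2 : (ex n d a).degree ≤ n * d := by
      rw [Finsupp.degree_eq_sum]
      simpa using sum_le_card_nsmul univ (ex n d a) d fun j _ => (Nat.mod_lt _ hd).le
    omega
  have h2 : rho G d J (tau K n d r) = (1 - NM G d J).mulVec r := by
    ext b
    simp [tau, Fintype.linearCombination_apply, Matrix.mulVec, dotProduct, NM, Matrix.one_apply, mul_comm]
  rw [h2, Matrix.mulVec_mulVec, geom_sum_mul_neg, h1, sub_zero, Matrix.one_mulVec]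

omit hG in
abbrev QA (G : Fin n → MvPolynomial (Fin n) K) (d : ℕ) : Type :=
  MvPolynomial (Fin n) K ⧸ Ideal.span (Set.range (sysF G d))

theorem trace_QA (hd : 0 < d) : Module.finrank K (QA G d) = d ^ n ∧
    ∀ J J' h, Low J' h → J' + n * d ≤ J → Algebra.trace K (QA G d) (Ideal.Quotient.mk _ h) =
      ∑ a : Fin (d ^ n), (∑ k ∈ range (n * d + 1), NM G d J ^ k).mulVec (rho G d J (h * monomial (ex n d a) 1)) a := by
  classical
  let mk := Ideal.Quotient.mkₐ K (Ideal.span (Set.range (sysF G d)))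
  have h0 : ∀ J, ∀ P ∈ IK G d J, mk P = 0 := fun J P hP => by
    refine Submodule.span_le (p := LinearMap.ker mk.toLinearMap).2 ?_ hP
    rintro _ ⟨m, i, -, rfl⟩
    exact Ideal.Quotient.eq_zero_iff_mem.2 (Ideal.mul_mem_left _ _ (Ideal.subset_span ⟨i, rfl⟩))
  have h1 : ∀ J P, Low J P → mk (tau K n d ((∑ k ∈ range (n * d + 1), NM G d J ^ k).mulVec
      (rho G d J P))) = mk P := fun J P hP => by
    obtain ⟨_, ⟨r, rfl⟩, z, hz, rfl⟩ := Submodule.mem_sup.1 (division hG J P hP)
    rw [map_add, rho_IK hG hd hz, add_zero, nf_tau hG hd, map_add, h0 J z hz, add_zero]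
  have h2 : Function.Bijective (mk.toLinearMap ∘ₗ tau K n d) := by
    refine ⟨(injective_iff_map_eq_zero _).2 fun r hr => ?_, fun y => ?_⟩
    · obtain ⟨c, hc⟩ := Ideal.mem_span_range_iff_exists_fun.1 (Ideal.Quotient.eq_zero_iff_mem.1 hr)
      choose J hJ using fun i => Low.exists_low (c i)
      have : tau K n d r ∈ IK G d (∑ i, J i + d) := hc ▸ sum_mem fun i _ =>
        mul_mem_IK G ((hJ i).mono (single_le_sum (fun _ _ => Nat.zero_le _) (mem_univ i))) i
      rw [← nf_tau hG hd (∑ i, J i + d) r, rho_IK hG hd this, Matrix.mulVec_zero]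
    · obtain ⟨P, rfl⟩ := Ideal.Quotient.mk_surjective y
      obtain ⟨J, hJ⟩ := Low.exists_low P
      exact ⟨_, h1 J P hJ⟩
  let e := LinearEquiv.ofBijective _ h2
  let b := Module.Basis.ofEquivFun e.symm
  refine ⟨by rw [Module.finrank_eq_card_basis b, Fintype.card_fin], fun J J' h hh hJ => ?_⟩
  rw [Algebra.trace_eq_matrix_trace b, Matrix.trace]
  refine sum_congr rfl fun a _ => ?_
  have e1 : b a = mk (monomial (ex n d a) 1) := by
    simp [b, e, tau, Fintype.linearCombination_apply_single]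
  have e2 : (ex n d a).degree ≤ n * d := by
    rw [Finsupp.degree_eq_sum]
    simpa using sum_le_card_nsmul univ (ex n d a) d fun j _ => (Nat.mod_lt _ hd).le
  rw [Matrix.diag_apply, Algebra.leftMulMatrix_eq_repr_mul, e1, Module.Basis.ofEquivFun_repr_apply]
  refine congrFun (e.symm_apply_eq.2 ?_) a
  exact ((h1 J _ ((hh.mul (Low.monomial (Nat.lt_succ_of_le e2) 1)).mono hJ)).trans (map_mul _ _ _)).symm

theorem trF_eq (hd : 0 < d) {x G' : ℕ → MvPolynomial (Fin n) K} (hx : ∀ i : Fin n, x i = X i)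
    (hG' : ∀ i : Fin n, G' i = G i) {J J' : ℕ} {h : MvPolynomial (Fin n) K} (hh : Low J' h)
    (hJ : J' + n * d ≤ J) : trF x G' (coeff (cst n (d * J + (d - 1)))) n d J h =
      Algebra.trace K (QA G d) (Ideal.Quotient.mk _ h) := by
  have e1 : ∀ a, moF x n d a = monomial (ex n d a) 1 := fun a => by
    rw [moF, prod_range]; simp only [hx]; exact prod_X_pow _
  have e2 : ∀ P (b : Fin (d ^ n)), rhoF x G' (coeff (cst n (d * J + (d - 1)))) n d J P b = rho G d J P b :=
    fun P b => by
      rw [rhoF, mrF, ssF, prod_range, prod_range]; simp only [hx, hG', prod_X_pow]; rfl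
  rw [(trace_QA hG hd).2 J J' h hh hJ, trF]
  simp only [Matrix.sum_mulVec, Finset.sum_apply]
  rw [sum_comm]
  refine sum_congr rfl fun k hk => ?_
  rw [min_eq_left (Nat.le_of_lt_succ (mem_range.1 hk)), path_sum (d ^ n) _ k fun a b =>
    rhoF x G' (coeff (cst n (d * J + (d - 1)))) n d J (h * moF x n d a) b]
  simp only [nmF, e1, e2, Fin.val_inj]
  rfl

end field

end Vale.Agent.P337
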