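import Vale.Agent.P337.Trace1

/-! The trace as a sum over the solutions with multiplicities, and Newton's identities. -/

namespace Vale.Agent.P337

open Finset MvPolynomial

theorem mem_maxGen {A : Type} [CommRing A] [Algebra ℂ A] (a v : A) (μ : ℂ) :
    v ∈ Module.End.maxGenEigenspace (Algebra.lmul ℂ A a) μ ↔
      a - algebraMap ℂ A μ ∈ (Ideal.torsionOf A A v).radical := by
  have : Algebra.lmul ℂ A a - μ • 1 = Algebra.lmul ℂ A (a - algebraMap ℂ A μ) := by
    rw [map_sub, AlgHom.commutes, Algebra.algebraMap_eq_smul_one]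
  rw [Module.End.mem_maxGenEigenspace, this]
  simp only [← map_pow]
  rfl

theorem trace_points {σ : Type} (I : Ideal (MvPolynomial σ ℂ)) [Module.Finite ℂ (MvPolynomial σ ℂ ⧸ I)] :
    ∃ M : Multiset (σ → ℂ), (∀ c, c ∈ M ↔ ∀ f ∈ I, eval c f = 0) ∧
      ∀ h, Algebra.trace ℂ _ (Ideal.Quotient.mk I h) = (M.map fun c => eval c h).sum := by
  classical
  set A := MvPolynomial σ ℂ ⧸ I
  let f : σ → Module.End ℂ A := fun i => Algebra.lmul ℂ A (Ideal.Quotient.mk I (X i))
  let V : (σ → ℂ) → Submodule ℂ A := fun c => ⨅ i, (f i).maxGenEigenspace (c i)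
  have hc : ∀ a b : A, Commute (Algebra.lmul ℂ A a) (Algebra.lmul ℂ A b) := fun a b =>
    (Commute.all a b).map _
  have h1 : iSupIndep V := Module.End.independent_iInf_maxGenEigenspace_of_forall_mapsTo f
    fun i j φ => Module.End.mapsTo_maxGenEigenspace_of_comm (hc _ _) φ
  have h2 : ⨆ c, V c = ⊤ := Module.End.iSup_iInf_maxGenEigenspace_eq_top_of_forall_mapsTo f
    (fun i j φ => Module.End.mapsTo_maxGenEigenspace_of_comm (hc _ _) φ)
    fun i => Module.End.iSup_maxGenEigenspace_eq_top _
  have hfin : {c | V c ≠ ⊥}.Finite := WellFoundedGT.finite_ne_bot_of_iSupIndep h1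
  have h3 : ∀ c h, V c ≤ Module.End.maxGenEigenspace (Algebra.lmul ℂ A (Ideal.Quotient.mk I h))
      (eval c h) := fun c h v hv => by
    rw [mem_maxGen]
    induction h using MvPolynomial.induction_on with
    | C a => rw [eval_C]; exact (sub_self (algebraMap ℂ A a)).symm ▸ zero_mem _
    | add p q hp hq => convert add_mem hp hq using 1; simp only [map_add]; ring
    | mul_X p i hp =>
      have := (mem_maxGen _ _ _).1 ((Submodule.mem_iInf _).1 hv i)
      convert add_mem (Ideal.mul_mem_right (Ideal.Quotient.mk I (X i)) _ hp)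
        (Ideal.mul_mem_left _ (algebraMap ℂ A (eval c p)) this) using 1
      simp only [map_mul, eval_X]; ring
  have h4 : ∀ a c, Set.MapsTo (Algebra.lmul ℂ A a) (V c) (V c) := fun a c v hv =>
    (Submodule.mem_iInf _).2 fun i => Module.End.mapsTo_maxGenEigenspace_of_comm (hc _ _) _
      ((Submodule.mem_iInf _).1 hv i)
  refine ⟨∑ c ∈ hfin.toFinset, Multiset.replicate (Module.finrank ℂ (V c)) c, fun c => ?_, fun h => ?_⟩
  · have e : c ∈ ∑ c ∈ hfin.toFinset, Multiset.replicate (Module.finrank ℂ (V c)) c ↔ V c ≠ ⊥ := by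
      simp only [Multiset.mem_sum, Multiset.mem_replicate, Set.Finite.mem_toFinset, Set.mem_setOf_eq]
      exact ⟨fun ⟨_, h, _, e⟩ => e ▸ h, fun h => ⟨c, h, fun h' => h (Submodule.finrank_eq_zero.1 h'), rfl⟩⟩
    rw [e]
    constructor
    · intro hV p hp
      obtain ⟨v, hv, hv0⟩ := Submodule.exists_mem_ne_zero_of_ne_bot hV
      obtain ⟨k, hk⟩ := (mem_maxGen _ _ _).1 (h3 c p hv)
      rw [Ideal.Quotient.eq_zero_iff_mem.2 hp, zero_sub, ← map_neg, ← map_pow, Ideal.mem_torsionOf_iff,
        algebraMap_smul, smul_eq_zero] at hk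
      exact neg_eq_zero.1 (eq_zero_of_pow_eq_zero (hk.resolve_right hv0))
    · intro hr
      let χ : A →ₐ[ℂ] ℂ := Ideal.Quotient.liftₐ I (aeval c) hr
      have : ∃ c', ¬ V c' ≤ LinearMap.ker χ.toLinearMap := by
        by_contra h
        push Not at h
        have := (h2 ▸ iSup_le h : ⊤ ≤ LinearMap.ker χ.toLinearMap) (Submodule.mem_top (x := 1))
        simp at this
      obtain ⟨c', hc'⟩ := this
      obtain ⟨v, hv, hv0⟩ := SetLike.not_le_iff_exists.1 hc'
      have e : c = c' := funext fun i => by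
        obtain ⟨k, hk⟩ := (mem_maxGen _ _ _).1 ((Submodule.mem_iInf _).1 hv i)
        have := congrArg χ ((Ideal.mem_torsionOf_iff _ _).1 hk)
        rw [smul_eq_mul, map_mul, map_zero, mul_eq_zero, map_pow, map_sub, AlgHom.commutes] at this
        have := eq_zero_of_pow_eq_zero (this.resolve_right hv0)
        exact (aeval_X c i).symm.trans (sub_eq_zero.1 this)
      subst e
      rintro h
      rw [h, Submodule.mem_bot] at hv
      exact hv0 (hv ▸ zero_mem _)
  · rw [Algebra.trace_apply, LinearMap.trace_eq_sum_trace_restrict'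
      (DirectSum.isInternal_submodule_of_iSupIndep_of_iSup_eq_top h1 h2) hfin (h4 _),
      ← Multiset.coe_mapAddMonoidHom, map_sum, ← Multiset.coe_sumAddMonoidHom, map_sum]
    refine sum_congr rfl fun c _ => ?_
    have h5 : Set.MapsTo (Algebra.lmul ℂ A (Ideal.Quotient.mk I h) - algebraMap ℂ _ (eval c h) :
        Module.End ℂ A) (V c) (V c) := by
      rw [← (Algebra.lmul ℂ A).commutes, ← map_sub]; exact h4 _ _
    have h6 := Module.End.isNilpotent_restrict_of_le (hp := h5) (h3 c h)
      (Module.End.isNilpotent_restrict_maxGenEigenspace_sub_algebraMap _ _)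
    have h7 := LinearMap.trace_comp_eq_mul_of_commute_of_isNilpotent (f := LinearMap.id)
      (g := (Algebra.lmul ℂ A (Ideal.Quotient.mk I h)).restrict (h4 _ c)) (eval c h) (Commute.one_left _) h6
    rw [LinearMap.id_comp, LinearMap.trace_id] at h7
    rw [h7, Multiset.coe_mapAddMonoidHom, Multiset.coe_sumAddMonoidHom, Multiset.map_replicate, Multiset.sum_replicate, nsmul_eq_mul, mul_comm]

theorem exists_pts {n d : ℕ} {G : Fin n → MvPolynomial (Fin n) ℂ} (h : 0 < d ∧ ∀ i, Low d (G i)) :
    ∃ M : Multiset (Fin n → ℂ), M.card = d ^ n ∧ (∀ c, c ∈ M ↔ ∀ i, c i ^ d + eval c (G i) = 0) ∧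
      ∀ P, Algebra.trace ℂ (QA G d) (Ideal.Quotient.mk _ P) = (M.map fun c => eval c P).sum := by
  have h1 := (trace_QA h.2 h.1).1
  haveI : Module.Finite ℂ (QA G d) := Module.finite_of_finrank_pos (h1 ▸ pow_pos h.1 n)
  obtain ⟨M, h2, h3⟩ := trace_points (Ideal.span (Set.range (sysF G d)))
  refine ⟨M, ?_, fun c => ?_, h3⟩
  · have := h3 1
    rw [map_one, ← map_one (algebraMap ℂ _), Algebra.trace_algebraMap, h1] at this
    exact Nat.cast_injective (R := ℂ) (by simpa using this.symm)
  · rw [h2]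
    refine ⟨fun h i => by simpa [sysF] using h _ (Ideal.subset_span ⟨i, rfl⟩), fun h f hf => ?_⟩
    refine Ideal.span_le (I := RingHom.ker (eval c)).2 ?_ hf
    rintro _ ⟨i, rfl⟩
    simpa [sysF] using h i

open Classical in
/-- the solutions of `x_i ^ d + G_i = 0` with multiplicities -/
noncomputable def pts {n : ℕ} (d : ℕ) (G : Fin n → MvPolynomial (Fin n) ℂ) : Multiset (Fin n → ℂ) :=
  if h : 0 < d ∧ ∀ i, Low d (G i) then (exists_pts h).choose else 0

theorem pts_spec {n d : ℕ} {G : Fin n → MvPolynomial (Fin n) ℂ} (h : 0 < d ∧ ∀ i, Low d (G i)) :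
    (pts d G).card = d ^ n ∧ (∀ c, c ∈ pts d G ↔ ∀ i, c i ^ d + eval c (G i) = 0) ∧
      ∀ P, Algebra.trace ℂ (QA G d) (Ideal.Quotient.mk _ P) = ((pts d G).map fun c => eval c P).sum := by
  rw [pts, dif_pos h]; exact (exists_pts h).choose_spec

attribute [irreducible] pts

section newton

variable {B B' : Type} [CommRing B] [CommRing B']

def facE (B : Type) [CommRing B] (D j : ℕ) : B := ∏ t ∈ range D, if t = j then 1 else ((t + 1 : ℕ) : B)

def facG (B : Type) [CommRing B] (D i : ℕ) : B := ∏ t ∈ range D, if t < i then 1 else ((t + 1 : ℕ) : B)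

def lgF (D : ℕ) (p : ℕ → B) (t : B) : B := ∑ j ∈ range D, (-1) ^ j * facE B D j * p (j + 1) * t ^ (j + 1)

def nwF (D : ℕ) (p : ℕ → B) (t : B) : B :=
  ∑ i ∈ range (D + 1), facG B D i * facG B D 0 ^ (D - i) * lgF D p t ^ i

theorem map_nwF (φ : B →+* B') (D : ℕ) (p : ℕ → B) (t : B) :
    φ (nwF D p t) = nwF D (fun j => φ (p j)) (φ t) := by
  simp [nwF, lgF, facE, facG, apply_ite φ]

theorem facG_zero (D : ℕ) : facG B D 0 = (D.factorial : B) := by
  simp [facG, ← Finset.prod_range_add_one_eq_factorial]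

theorem facE_mul {D j : ℕ} (h : j < D) : facE B D j * (j + 1) = facG B D 0 := by
  rw [facE, facG, ← mul_prod_erase _ _ (mem_range.2 h), ← mul_prod_erase _ _ (mem_range.2 h), mul_comm]
  simp only [if_true, one_mul, Nat.not_lt_zero, if_false, Nat.cast_succ]
  congr 1
  exact prod_congr rfl fun t ht => if_neg (mem_erase.1 ht).1

theorem facG_mul {D j : ℕ} (h : j < D) : facG B D (j + 1) * (j + 1) = facG B D j := by
  rw [facG, facG, ← mul_prod_erase _ _ (mem_range.2 h), ← mul_prod_erase _ _ (mem_range.2 h), mul_comm]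
  simp only [Nat.lt_succ_self, if_true, one_mul, lt_irrefl, if_false, Nat.cast_succ]
  congr 1
  refine prod_congr rfl fun t ht => ?_
  have := (mem_erase.1 ht).1
  congr 1
  exact propext (by omega)

open Polynomial in
noncomputable def Ep (s : Multiset ℂ) : ℂ[X] := (s.map fun y => 1 + Polynomial.C y * Polynomial.X).prod

open Polynomial in
theorem Ep_ode (D : ℕ) (s : Multiset ℂ) : (Polynomial.X : ℂ[X]) ^ D ∣ derivative (Ep s) -
    (∑ j ∈ range D, (-1) ^ j * Polynomial.C (s.map (· ^ (j + 1))).sum * Polynomial.X ^ j) * Ep s := by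
  induction s using Multiset.induction_on with
  | empty => simp [Ep]
  | cons y s ih =>
    have e := geom_sum_mul_neg (-(Polynomial.C y * Polynomial.X)) D
    have e2 : ∑ j ∈ range D, (-1) ^ j * Polynomial.C ((y ::ₘ s).map (· ^ (j + 1))).sum * Polynomial.X ^ j =
        Polynomial.C y * ∑ j ∈ range D, (-(Polynomial.C y * Polynomial.X)) ^ j +
        ∑ j ∈ range D, (-1) ^ j * Polynomial.C (s.map (· ^ (j + 1))).sum * Polynomial.X ^ j := by
      rw [mul_sum, ← sum_add_distrib]
      refine sum_congr rfl fun j _ => ?_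
      rw [Multiset.map_cons, Multiset.sum_cons, neg_pow (Polynomial.C y * _), map_add, map_pow]; ring
    have e3 : Ep (y ::ₘ s) = (1 + Polynomial.C y * Polynomial.X) * Ep s := by simp [Ep]
    have e4 : (Polynomial.X : ℂ[X]) ^ D ∣ (-(Polynomial.C y * Polynomial.X)) ^ D :=
      pow_dvd_pow_of_dvd (dvd_neg.2 (dvd_mul_left _ _)) D
    rw [e2, e3]
    convert dvd_add (ih.mul_left (1 + Polynomial.C y * Polynomial.X))
      (e4.mul_left (Polynomial.C y * Ep s)) using 1
    simp only [derivative_mul, derivative_add, derivative_one, derivative_C, derivative_X]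
    linear_combination (-(Polynomial.C y * Ep s)) * e

open Polynomial in
theorem ode_unique {D : ℕ} {Z G : ℂ[X]} (h0 : Z.coeff 0 = 0)
    (h : (Polynomial.X : ℂ[X]) ^ D ∣ derivative Z - G * Z) : (Polynomial.X : ℂ[X]) ^ (D + 1) ∣ Z := by
  have : ∀ k ≤ D + 1, (Polynomial.X : ℂ[X]) ^ k ∣ Z := fun k hk => by
    induction k with
    | zero => simp
    | succ k ih =>
      have h1 : (Polynomial.X : ℂ[X]) ^ k ∣ derivative Z := by
        simpa using dvd_add ((pow_dvd_pow _ (by omega)).trans h) ((ih (by omega)).mul_left G)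
      rw [X_pow_dvd_iff] at h1 ⊢
      intro d hd
      cases d with
      | zero => exact h0
      | succ d =>
        have := h1 d (by omega)
        rw [coeff_derivative, mul_eq_zero] at this
        exact this.resolve_right (by exact_mod_cast Nat.succ_ne_zero d)
  exact this _ le_rfl

open Polynomial in
theorem newton (D : ℕ) (s : Multiset ℂ) {k : ℕ} (hk : k ≤ D) :
    (nwF D (fun j => Polynomial.C (s.map (· ^ j)).sum) Polynomial.X).coeff k =
      (D.factorial : ℂ) ^ (D + 1) * (Ep s).coeff k := by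
  set G : ℂ[X] := ∑ j ∈ range D, (-1) ^ j * Polynomial.C (s.map (· ^ (j + 1))).sum * Polynomial.X ^ j
    with hG
  set L := lgF D (fun j => Polynomial.C (s.map (· ^ j)).sum) (Polynomial.X : ℂ[X]) with hL
  have c1 : ∀ j, facE ℂ[X] D j = Polynomial.C (facE ℂ D j) := fun j => by simp [facE, apply_ite Polynomial.C]
  have c2 : ∀ j, facG ℂ[X] D j = Polynomial.C (facG ℂ D j) := fun j => by simp [facG, apply_ite Polynomial.C]
  have h1 : derivative L = facG ℂ[X] D 0 * G := by
    rw [hL, hG, lgF, derivative_sum, mul_sum]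
    refine sum_congr rfl fun j hj => ?_
    rw [← facE_mul (mem_range.1 hj), c1, ← Polynomial.C_1, ← Polynomial.C_neg, ← Polynomial.C_pow,
      ← Polynomial.C_mul, ← Polynomial.C_mul, derivative_C_mul_X_pow]
    simp; ring
  have h2 : (Polynomial.X : ℂ[X]) ∣ L := dvd_sum fun j _ => (dvd_pow_self _ (Nat.succ_ne_zero j)).mul_left _
  set W := nwF D (fun j => Polynomial.C (s.map (· ^ j)).sum) (Polynomial.X : ℂ[X]) with hW
  have h3 : derivative W - G * W = -(G * facG ℂ[X] D D) * L ^ D := by
    rw [hW, nwF, ← hL, derivative_sum, sum_range_succ', sum_range_succ, mul_add, mul_sum]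
    rw [sum_congr rfl (g := fun i => G * (facG ℂ[X] D i * facG ℂ[X] D 0 ^ (D - i) * L ^ i))]
    · simp [c2, derivative_pow, mul_assoc]
    intro j hj
    have hj := mem_range.1 hj
    rw [c2, c2 0, ← Polynomial.C_pow, ← Polynomial.C_mul, derivative_C_mul, derivative_pow, h1,
      ← facG_mul hj, show D - j = D - (j + 1) + 1 by omega]
    simp [c2]; ring
  have h4 := ode_unique (D := D) (Z := W - facG ℂ[X] D 0 ^ (D + 1) * Ep s) (G := G) ?_ ?_
  · have := (X_pow_dvd_iff.1 h4) k (by omega)
    rwa [Polynomial.coeff_sub, c2, ← Polynomial.C_pow, Polynomial.coeff_C_mul, facG_zero, sub_eq_zero] at this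
  · rw [coeff_zero_eq_eval_zero, hW, Polynomial.eval_sub, ← coe_evalRingHom, map_nwF, nwF, sum_range_succ']
    simp [lgF, c2, Ep, eval_multiset_prod, pow_succ']
  · convert dvd_sub ((pow_dvd_pow_of_dvd h2 D).mul_left (-(G * facG ℂ[X] D D)))
      ((Ep_ode D s).mul_left (facG ℂ[X] D 0 ^ (D + 1))) using 1
    rw [← h3, c2, ← Polynomial.C_pow, derivative_sub, derivative_C_mul]; ring

open Polynomial in
/-- the scaled polynomial with roots `s` -/
noncomputable def Wp (s : Multiset ℂ) : ℂ[X] :=
  Polynomial.C ((s.card.factorial : ℂ) ^ (s.card + 1)) * (s.map fun y => Polynomial.X - Polynomial.C y).prod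

open Polynomial in
theorem Wp_coeff (s : Multiset ℂ) {k : ℕ} (hk : k ≤ s.card) : (Wp s).coeff k =
    (s.card.factorial : ℂ) ^ (s.card + 1) * (Ep (s.map Neg.neg)).coeff (s.card - k) := by
  have : reflect s.card (s.map fun y => Polynomial.X - Polynomial.C y).prod = Ep (s.map Neg.neg) := by
    clear hk
    induction s using Multiset.induction_on with
    | empty => simp [Ep]
    | cons y s ih =>
      rw [Multiset.map_cons, Multiset.prod_cons, Multiset.card_cons, add_comm, reflect_mul _ _
        (natDegree_X_sub_C_le y) (by rw [natDegree_multiset_prod_X_sub_C_eq_card]), ih]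
      simp only [Ep, Multiset.map_cons, Multiset.prod_cons]
      congr 1
      rw [reflect_sub, reflect_C, ← pow_one Polynomial.X, reflect_monomial]
      simp [sub_eq_add_neg]
  rw [Wp, Polynomial.coeff_C_mul, ← this, coeff_reflect, revAt_le (Nat.sub_le _ _), Nat.sub_sub_self hk]

end newton

end Vale.Agent.P337
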