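import Vale.Agent.P337.RealPt

/-! Deciding whether a nonnegative polynomial has a real zero. -/

namespace Vale.Agent.P337

open Vale.Agent.PT Finset MvPolynomial

variable {α δ : Type} [Ctx Bool α] [Ctx Bool δ]

theorem CF.ex' {N : α → ℕ} {R : α × ℕ → Prop} (hN : CF N) (hR : CF R) :
    CF fun a => ExB (N a) fun y => R (a, y) := CF.ex hN hR

noncomputable def sh (P : Pl) : Pl := rename (2 + ·) P

theorem ev_sh {K : Type} [CommRing K] (θ : ℕ → K) (P : Pl) : ev θ (sh P) = ev (fun j => θ (2 + j)) P :=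
  RingHom.congr_fun (ev_ext (f := (ev θ).comp (rename (2 + ·) : Pl →ₐ[ℤ] Pl).toRingHom) fun j => by simp) P

theorem ev_pt_sh {K : Type} [CommRing K] {n : ℕ} (Λ : K) (c : Fin n → K) (P : Pl) :
    ev (pt Λ c) (sh P) = ev (blk 0 0 c) P := by
  rw [ev_sh]
  congr 2
  funext j
  unfold pt blk
  by_cases h : j < n <;> simp [h, th]

theorem Low.sh {K : ℕ} {P : Pl} (h : Low K P) : Low K (sh P) :=
  h.ind (p := fun P => Low K (P337.sh P)) (by simpa [P337.sh] using Low.zero)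
    (fun x y hx hy => by simpa [P337.sh] using hx.add hy) fun m c hm => by
      rw [P337.sh, rename_monomial]; exact Low.monomial (by simpa) _

@[fun_prop] theorem Def.sh {F : α → Pl} (hF : Def F) : Def fun a => sh (F a) := by
  obtain ⟨q, h1, h2, h3⟩ := hF
  refine ⟨q, h1, fun a => Bd.map (rename (2 + ·) : Pl →ₐ[ℤ] Pl).toRingHom.toAddMonoidHom ?_ (h2 a),
    fun δ _ a p x ha hp hx => ?_⟩
  · rintro _ ⟨m, ε, e1, e2, rfl⟩
    exact ⟨_, ε, e1, by simpa, rename_monomial _ _ _⟩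
  · simpa only [ev_sh] using h3 δ a p (fun d i => x d (2 + i)) ha hp (by fun_prop)

noncomputable def GG (e : ℕ) (g L : Pl) (b i : ℕ) : Pl := sh (pderiv i g) * L - (b : Pl) ^ (e * i)

noncomputable def FF (n e : ℕ) (g L : Pl) (b : ℕ) : Pl := L * (((e : Pl) + 1) * sh g) +
  ∑ i ∈ range n, (X (2 + i) ^ (e + 1) - ((e : Pl) + 1) * (b : Pl) ^ (e * i) * X (2 + i))

theorem ev_GG {K : Type} [CommRing K] {n : ℕ} (Λ : K) (c : Fin n → K) (e : ℕ) (g L : Pl) (b i : ℕ) :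
    ev (pt Λ c) (GG e g L b i) = ev (blk 0 0 c) (pderiv i g) * ev (pt Λ c) L - (b : K) ^ (e * i) := by
  simp [GG, ev_pt_sh]

theorem ev_FF {K : Type} [CommRing K] {n : ℕ} (Λ : K) (c : Fin n → K) (e : ℕ) (g L : Pl) (b : ℕ) :
    ev (pt Λ c) (FF n e g L b) = ev (pt Λ c) L * ((e + 1) * ev (blk 0 0 c) g) +
      ∑ i : Fin n, (c i ^ (e + 1) - (e + 1) * (b : K) ^ (e * i) * c i) := by
  have : ∀ i : Fin n, pt Λ c (2 + i) = c i := blk_add _ _ _
  simp [FF, ev_pt_sh, sum_range, this]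

theorem pt_at_zero {K : Type} [CommRing K] {n : ℕ} (Λ : K) (c : Fin n → K) : pt Λ c 0 = Λ := by
  simp [pt, blk, th]

theorem ev_GG0 {K : Type} [CommRing K] {n : ℕ} (Λ : K) (c : Fin n → K) (e : ℕ) (g : Pl) (b i : ℕ) :
    ev (pt Λ c) (GG e g (X 0) b i) = ev (blk 0 0 c) (pderiv i g) * Λ - (b : K) ^ (e * i) := by
  rw [ev_GG, ev_X, pt_at_zero]

theorem ev_FF0 {K : Type} [CommRing K] {n : ℕ} (Λ : K) (c : Fin n → K) (e : ℕ) (g : Pl) (b : ℕ) :
    ev (pt Λ c) (FF n e g (X 0) b) = Λ * ((e + 1) * ev (blk 0 0 c) g) +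
      ∑ i : Fin n, (c i ^ (e + 1) - (e + 1) * (b : K) ^ (e * i) * c i) := by
  rw [ev_FF, ev_X, pt_at_zero]

theorem sp_GG (n e : ℕ) (g : Pl) (l b i : ℕ) :
    sp 2 n (th (0 : ℂ)) (GG e g l b i) = sp 2 n (th (l : ℂ)) (GG e g (X 0) b i) :=
  MvPolynomial.funext fun c => by
    rw [eval_sp, eval_sp, ← pt, ← pt, ev_GG0, ev_GG, map_natCast]

theorem ev_FF1 {n : ℕ} (c : Fin n → ℂ) (e : ℕ) (g : Pl) (l b : ℕ) :
    ev (pt 0 c) (FF n e g l b) = ev (pt (l : ℂ) c) (FF n e g (X 0) b) := by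
  rw [ev_FF0, ev_FF, map_natCast]

theorem critical {n e : ℕ} (g : Pl) (Λ : ℝ) (β : Fin n → ℝ) {x : Fin n → ℝ}
    (h : ∀ y : Fin n → ℝ, Λ * ((e + 1) * ev (blk 0 0 x) g) + ∑ i, (x i ^ (e + 1) - (e + 1) * β i * x i) ≤
      Λ * ((e + 1) * ev (blk 0 0 y) g) + ∑ i, (y i ^ (e + 1) - (e + 1) * β i * y i)) (i : Fin n) :
    x i ^ e + (ev (blk 0 0 x) (pderiv (i : ℕ) g) * Λ - β i) = 0 := by
  classical
  have e1 : ∀ s, ev (blk 0 0 (Function.update x i s)) g = (uv i (blk 0 0 x) g).eval s := fun s => by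
    rw [eval_uv]
    congr 2
    funext j
    by_cases hj : j = i
    · subst hj; simp [blk]
    · rw [Function.update_of_ne hj]
      unfold blk
      split_ifs with h
      · exact Function.update_of_ne (fun h' => hj (by simpa using congrArg Fin.val h')) _ _
      · rfl
  have e2 : blk 0 0 x i = x i := by simpa using blk_add 0 0 x i
  have h1 := ((uv i (blk 0 0 x) g).hasDerivAt (x i)).const_mul (e + 1 : ℝ) |>.const_mul Λ
  have h2 := fun j => hasDerivAt_pi.1 (hasDerivAt_update x i (x i)) j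
  have h3 := h1.fun_add (HasDerivAt.fun_sum (u := univ) fun j _ =>
    ((h2 j).fun_pow (e + 1)).fun_sub ((h2 j).const_mul ((e + 1) * β j)))
  have h4 := IsLocalMin.hasDerivAt_eq_zero (Filter.Eventually.of_forall fun s => by
    simpa only [← e1, Function.update_eq_self] using h (Function.update x i s)) h3
  rw [ev_pderiv, e2]
  rw [sum_eq_single_of_mem i (mem_univ i) fun j _ hj => by simp [hj]] at h4
  simp only [Function.update_self, Pi.single_eq_same, Nat.add_sub_cancel, Nat.cast_add, Nat.cast_one] at h4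
  exact mul_left_cancel₀ (show (e + 1 : ℝ) ≠ 0 by positivity) (by linear_combination h4)

variable {n e : α → ℕ} {g : α → Pl} (hn : CU n) (he : CU e) (hg : Def g) (ho : ∀ a, Odd (e a))
  (hl : ∀ a, Low (e a) (g a))

noncomputable def mkS {a : δ → α} {L : δ → Pl} {b : δ → ℕ} (ha : CF a) (hL : Def L) (hb : CF b)
    (lL : ∀ x, Low 2 (L x)) : Sys δ where
  n x := n (a x)
  d x := e (a x)
  G x := GG (e (a x)) (g (a x)) (L x) (b x)
  hn := by fun_prop
  hd := by fun_prop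
  hG := by
    have : Def fun x : δ × ℕ => pderiv x.2 (g (a x.1)) := Def.pderiv (by fun_prop) (by fun_prop)
    unfold GG; fun_prop
  pos x := (ho _).pos
  low x i := by
    obtain ⟨k, hk⟩ := Nat.exists_eq_add_one_of_ne_zero (ho (a x)).pos.ne'
    have := hl (a x)
    rw [hk] at this ⊢
    refine ((this.pderiv i).sh.mul (lL x)).sub ?_
    rw [← Nat.cast_pow, ← map_natCast (C : ℤ →+* Pl)]
    exact (Low.C _).mono (by omega)

include hn he hg ho hl in
theorem zero_ch (g0 : ∀ a (θ : ℕ → ℝ), 0 ≤ ev θ (g a)) :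
    CF fun a => ∃ x : Fin (n a) → ℝ, ev (blk 0 0 x) (g a) = 0 := by
  let S := mkS hn he hg ho hl (a := Prod.fst) (L := fun _ => X 0) (b := Prod.snd) (by fun_prop)
    (by fun_prop) (by fun_prop) fun _ => Low.X 0
  have hF : Def fun x : α × ℕ => FF (n x.1) (e x.1) (g x.1) (X 0) x.2 := by unfold FF; fun_prop
  obtain ⟨W, hW, eW⟩ := S.char (g := fun a => a) CF.id' hF
  obtain ⟨Δ, hΔ, eΔ⟩ := S.disc (g := fun a => a) CF.id' hF
  obtain ⟨q1, hq1, e1⟩ := hW.ubound S.hD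
  obtain ⟨q2, hq2, e2⟩ := hΔ.bound
  obtain ⟨lam, elam⟩ : ∃ lam : (α × ℕ) × ℕ → ℕ, ∀ x, lam x = (e x.1.1 ^ n x.1.1 + 1) *
    (2 ^ 2 ^ q1 x.1 * (2 ^ 2 ^ q1 x.1 + 2) ^ e x.1.1 ^ n x.1.1) + 1 + x.2 := ⟨_, fun _ => rfl⟩
  have hlam : Def fun x => (lam x : Pl) := by
    simp only [elam]; push_cast; fun_prop
  let S' := mkS hn he hg ho hl (a := fun x : (α × ℕ) × ℕ => x.1.1) (b := fun x => x.1.2) (by fun_prop)
    hlam (by fun_prop) fun x => by
      rw [← map_natCast (C : ℤ →+* Pl)]; exact (Low.C _).mono (by omega)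
  have h1 := S'.realPt (F := fun x => FF (n x.1.1) (e x.1.1) (g x.1.1) (lam x) x.1.2)
    (U := fun x => 2 ^ 2 ^ q1 x.1 + 2 - FF (n x.1.1) (e x.1.1) (g x.1.1) (lam x) x.1.2)
    (by unfold FF; fun_prop) (by unfold FF; fun_prop)
  have h2 := CF.ex' (N := fun a => e a ^ n a * e a ^ n a * ((e a + 1) * n a) + 1) (by fun_prop)
    (CF.ex' (N := fun x => 2 ^ q2 x + 1) (by fun_prop) h1)
  refine h2.iff fun a => ?_
  have p1 : ∀ b l, S'.pts ((a, b), l) 0 = S.pts (a, b) (lam ((a, b), l)) := fun b l => by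
    change pts (e a) (fun i : Fin (n a) => sp 2 (n a) (th 0) (GG (e a) (g a) (lam ((a, b), l)) b i)) =
      pts (e a) fun i : Fin (n a) => sp 2 (n a) (th (lam ((a, b), l) : ℂ)) (GG (e a) (g a) (X 0) b i)
    simp only [sp_GG]
  have p2 : ∀ b l, S'.val ((a, b), l) 0 (FF (n a) (e a) (g a) (lam ((a, b), l)) b) =
      S.val (a, b) (lam ((a, b), l)) (FF (n a) (e a) (g a) (X 0) b) := fun b l => by
    unfold Sys.val
    rw [p1]
    exact Multiset.map_congr rfl fun c _ => ev_FF1 _ _ _ _ _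
  let gR : (Fin (n a) → ℝ) → ℝ := fun x => (e a + 1) * ev (blk 0 0 x) (g a)
  let φ : ℕ → (Fin (n a) → ℝ) → ℝ := fun b x =>
    ∑ i, (x i ^ (e a + 1) - (e a + 1) * (b : ℝ) ^ (e a * i) * x i)
  have c1 : Continuous gR := by
    simp only [gR, ← eval_sp]; exact continuous_const.mul (continuous_eval _)
  have c2 : ∀ b, Continuous (φ b) := fun b => by fun_prop
  have c3 : ∀ x, 0 ≤ gR x := fun x => mul_nonneg (by positivity) (g0 _ _)
  have c4 : ∀ b T, IsCompact {x | φ b x ≤ T} := fun b =>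
    compact_sub (ho a).add_one (Nat.succ_le_succ (ho a).pos) _
  have p3 : ∀ b (Λ : ℝ) x, (∀ y, Λ * gR x + φ b x ≤ Λ * gR y + φ b y) →
      (fun i => (x i : ℂ)) ∈ S.pts (a, b) Λ := fun b Λ x hx => Sys.mem_pts S |>.2 fun i => by
    have h := congrArg Complex.ofRealHom (critical (g a) Λ _ hx i)
    rw [map_add, ← ev_GG0, hom_pt, map_pow, map_zero] at h
    exact h
  let R : ℕ → ℝ → ℝ := fun b t => (e a ^ n a + 1) * (2 ^ 2 ^ q1 (a, b) * t ^ e a ^ n a) + 1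
  have r1 : ∀ b s t, (2 ^ 2 ^ q1 (a, b) + 2 : ℝ) ≤ s → s ≤ t → R b s ≤ R b t := fun b s t h1 h2 => by
    have : 0 ≤ s := le_trans (by positivity) h1
    simp only [R]; gcongr
  have r2 : ∀ b, 0 ≤ R b (2 ^ 2 ^ q1 (a, b) + 2) := fun b => by positivity
  have r3 : ∀ b l, R b (2 ^ 2 ^ q1 (a, b) + 2) ≤ lam ((a, b), l) := fun b l => by simp [R, elam]
  have r4 : ∀ b Λ x, (∀ y, Λ * gR x + φ b x ≤ Λ * gR y + φ b y) →
      2 ^ 2 ^ q1 (a, b) + 2 ≤ Λ * gR x + φ b x → Λ < R b (Λ * gR x + φ b x) := fun b Λ x hx ht => by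
    by_contra hΛ
    have t0 : 0 ≤ Λ * gR x + φ b x := le_trans (by positivity) ht
    have u1 : ∀ k, (uv 0 0 (W (a, b) k)).eval (Λ : ℂ) =
        (Wp (S.val (a, b) Λ (FF (n a) (e a) (g a) (X 0) b))).coeff k := fun k => by
      rw [← ev_th, ← pt_zero (n := n a)]; exact eW (a, b) Λ k 0
    have u2 := Wp_root (Multiset.mem_map_of_mem (fun c => ev (pt (Λ : ℂ) c) (FF (n a) (e a) (g a) (X 0) b))
      (p3 b Λ x hx))
    have u3 := (hom_pt Complex.ofRealHom Λ x (FF (n a) (e a) (g a) (X 0) b)).symm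
    rw [ev_FF0 Λ x] at u3
    have u4 := S.card_val (a, b) Λ (FF (n a) (e a) (g a) (X 0) b)
    refine dom (D := S.D (a, b)) (fun k => uv 0 0 (W (a, b) k)) (fun k hk => (e1 (a, b) k hk).intB)
      (fun h => Wp_top _ (by rw [u4, ← u1, h, Polynomial.eval_zero])) (t := ((Λ * gR x + φ b x : ℝ) : ℂ))
      (Λ := Λ) ?_ ?_ ?_
    · rw [Complex.norm_real, Real.norm_of_nonneg t0]; push_cast; exact ht
    · rw [Complex.norm_real, Real.norm_of_nonneg t0, Complex.norm_real]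
      refine le_trans ?_ ((not_lt.1 hΛ).trans (le_abs_self _))
      simp [R, Sys.D, S, mkS]
    · simp only [u1]
      rw [← u4, ← Wp_natDegree, ← Polynomial.eval_eq_sum_range]
      exact (congrArg (fun t => (Wp _).eval t) u3).symm.trans u2
  have p4 : ∀ b l (x : Fin (n a) → ℝ), ev (pt 0 x) (2 ^ 2 ^ q1 (a, b) + 2 -
      FF (n a) (e a) (g a) (lam ((a, b), l)) b) =
      2 ^ 2 ^ q1 (a, b) + 2 - (lam ((a, b), l) * gR x + φ b x) := fun b l x => by
    rw [map_sub, ev_FF]; simp [gR, φ, map_ofNat]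
  constructor
  · rintro ⟨b, -, l, -, -, x, -, hx⟩
    obtain ⟨z, hz⟩ := zero_of_lt c1 (c2 b) c3 (c4 b) (r2 b) (r4 b) (r3 b l) (x := x)
      (sub_pos.1 (p4 b l x ▸ hx))
    exact ⟨z, (mul_eq_zero.1 hz).resolve_left (by positivity)⟩
  · rintro ⟨z, hz⟩
    obtain ⟨b, hb, h⟩ := generic (n := n a) (ho a).pos
    have h3 := h (S.pts (a, b) 0) ((Multiset.card_map _ _).symm.trans (S.card_val (a, b) 0 0))
      fun c hc => Sys.mem_pts S |>.2 fun i => by
        refine (congrArg (_ + ·) (ev_GG0 _ _ _ _ _ _)).trans ?_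
        rw [mul_zero, zero_sub]
        exact sub_eq_zero.2 (hc i)
    have h4 : (S.val (a, b) 0 (FF (n a) (e a) (g a) (X 0) b)).Nodup := by
      refine (congrArg Multiset.Nodup (Multiset.map_congr rfl fun c _ => (ev_FF0 _ _ _ _ _).trans ?_)).mpr h3
      rw [zero_mul, zero_add]
      rfl
    obtain ⟨l, hl, h5⟩ := grid (e2 (a, b)).low ((eΔ (a, b) 0).2 h4) (lam ((a, b), 0))
    rw [show lam ((a, b), 0) + l = lam ((a, b), l) by simp only [elam, add_zero]] at h5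
    obtain ⟨x, h6, h7⟩ := min_lt c1 (c2 b) c3 (c4 b) (r1 b) (r2 b) (r4 b) (r3 b l) (z := z) (by simp [gR, hz])
    refine ⟨b, hb, l, hl, p2 b l ▸ (eΔ (a, b) _).1 h5, x, ?_, (p4 b l x).symm ▸ sub_pos.2 h7⟩
    rw [p1]
    have := p3 b _ x h6
    rwa [Complex.ofReal_natCast] at this

end Vale.Agent.P337
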